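import Crest.Agent.R314.ECtx

/-! Module C: capture probabilities and branch probabilities. -/

set_option autoImplicit false
set_option linter.unusedSectionVars false

namespace Crest.Agent.R314

open Finset 

variable {X : Type} [MetricSpace X] [Fintype X] [DecidableEq X] {p : Par} {n : ℕ}

theorem Par.Hyp.mono {m : ℕ} (h : p.Hyp X n) (hm : m ≤ n) : p.Hyp X m :=
  ⟨h.r0_pos, h.sep, h.G_pos, fun l hl => h.fine l (hl.trans_le hm)⟩

theorem Tol.Hyp.mono {t : Tol} {m : ℕ} (h : t.Hyp p X n) (hm : m ≤ n) : t.Hyp p X m :=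
  ⟨h.κ_pos, h.η_nonneg, h.η_le, h.t0_pos, h.t0_le, fun l hl => h.cap_ge l (hl.trans_le hm),
    fun l hl => h.cap_le l (hl.trans_le hm)⟩

theorem Par.r_pos (hr : 0 < p.r0) (n : ℕ) : 0 < p.r n := rr_pos hr n

theorem Par.r_succ (p : Par) (n : ℕ) : p.r (n + 1) = 65536 * p.r n := rr_succ p.r0 n

theorem Par.S_succ (p : Par) (n : ℕ) : p.S (n + 1) = p.S n + p.r n := SS_succ p.r0 n

theorem Par.S_nonneg (hr : 0 < p.r0) (n : ℕ) : 0 ≤ p.S n := SS_nonneg hr n

theorem Par.S_le (hr : 0 < p.r0) (n : ℕ) : p.S n * 65535 ≤ p.r n := SS_le hr n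

theorem Par.nrm_succ (p : Par) (n : ℕ) (W : ℕ → ℝ) :
    p.nrm (n + 1) W = p.nrm n W + K0 * p.r n * Real.log (W n) := by
  unfold Par.nrm
  rw [sum_range_succ]
  ring

theorem Par.nrm_congr (p : Par) {W W' : ℕ → ℝ} (h : ∀ l, l < n → W l = W' l) :
    p.nrm n W = p.nrm n W' := by
  unfold Par.nrm
  rw [sum_congr rfl fun l hl => by rw [h l (mem_range.1 hl)]]

theorem Par.nrm_mono (hr : 0 < p.r0) {W W' : ℕ → ℝ} (h0 : ∀ l, l < n → 0 < W l)
    (h : ∀ l, l < n → W l ≤ W' l) : p.nrm n W ≤ p.nrm n W' := by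
  unfold Par.nrm
  refine mul_le_mul_of_nonneg_left (sum_le_sum fun l hl => ?_) (by unfold K0; norm_num)
  exact mul_le_mul_of_nonneg_left
    (Real.log_le_log (h0 l (mem_range.1 hl)) (h l (mem_range.1 hl))) (Par.r_pos hr l).le

theorem Cap_clamp_nonneg (t : ℝ) : 0 ≤ clamp t := le_max_left _ _

theorem Cap_clamp_le_one (t : ℝ) : clamp t ≤ 1 := max_le zero_le_one (min_le_left _ _)

theorem Cap_clamp_one {t : ℝ} (h : 1 ≤ t) : clamp t = 1 := by
  unfold clamp; rw [min_eq_left h, max_eq_right zero_le_one]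

theorem Cap_clamp_zero {t : ℝ} (h : t ≤ 0) : clamp t = 0 :=
  max_eq_left ((min_le_right _ _).trans h)

theorem Cap_clamp_lip (s t : ℝ) : |clamp s - clamp t| ≤ |s - t| := by
  unfold clamp
  rw [max_comm 0, max_comm 0]
  refine (abs_max_sub_max_le_abs _ _ _).trans ?_
  simpa using abs_min_sub_min_le_max 1 s 1 t

theorem Cap_ang (t : ℝ) : 0 ≤ Real.pi / 2 * clamp t ∧ Real.pi / 2 * clamp t ≤ Real.pi / 2 :=
  ⟨mul_nonneg (by positivity) (Cap_clamp_nonneg t),
    mul_le_of_le_one_right (by positivity) (Cap_clamp_le_one t)⟩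

theorem Cap_sqrt (c y : X) :
    √(cap p n c y) = Real.sin (Real.pi / 2 * clamp (2 - 4 * dist y c / p.r n)) :=
  Real.sqrt_sq (Real.sin_nonneg_of_nonneg_of_le_pi (Cap_ang _).1
    ((Cap_ang _).2.trans (half_le_self Real.pi_pos.le)))

theorem Cap_sqrt' (c y : X) :
    √(1 - cap p n c y) = Real.cos (Real.pi / 2 * clamp (2 - 4 * dist y c / p.r n)) := by
  unfold cap
  rw [← Real.cos_sq']
  exact Real.sqrt_sq (Real.cos_nonneg_of_neg_pi_div_two_le_of_le
    (le_trans (by linarith [Real.pi_pos]) (Cap_ang _).1) (Cap_ang _).2)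

theorem Cap_ang_lip {r : ℝ} (hr : 0 < r) (a b : ℝ) :
    |Real.pi / 2 * clamp (2 - 4 * a / r) - Real.pi / 2 * clamp (2 - 4 * b / r)| ≤
      7 * |a - b| / r := by
  have h1 := Cap_clamp_lip (2 - 4 * a / r) (2 - 4 * b / r)
  have h2 : |2 - 4 * a / r - (2 - 4 * b / r)| = 4 * (|a - b| / r) := by
    rw [show 2 - 4 * a / r - (2 - 4 * b / r) = 4 * ((b - a) / r) by ring, abs_mul, abs_div,
      abs_sub_comm b a, abs_of_pos hr, abs_of_pos (show (0 : ℝ) < 4 by norm_num)]
  have h3 : 0 ≤ |a - b| / r := by positivity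
  rw [← mul_sub, abs_mul, abs_of_pos (show 0 < Real.pi / 2 by positivity), mul_div_assoc 7 |a - b|]
  rw [h2] at h1
  have h4 := mul_le_mul_of_nonneg_left h1 (show 0 ≤ Real.pi / 2 by positivity)
  have h5 := mul_le_mul_of_nonneg_right Real.pi_lt_d2.le h3
  linarith

theorem cap_nonneg (c y : X) : 0 ≤ cap p n c y := sq_nonneg _

theorem cap_le_one (c y : X) : cap p n c y ≤ 1 := Real.sin_sq_le_one _

theorem cap_eq_one (hr : 0 < p.r0) {c y : X} (h : dist y c ≤ p.r n / 4) : cap p n c y = 1 := by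
  have h1 : 4 * dist y c / p.r n ≤ 1 := by
    rw [div_le_one (Par.r_pos hr n)]; linarith
  unfold cap
  rw [Cap_clamp_one (by linarith), mul_one, Real.sin_pi_div_two, one_pow]

theorem cap_eq_zero (hr : 0 < p.r0) {c y : X} (h : p.r n / 2 ≤ dist y c) : cap p n c y = 0 := by
  have h1 : 2 ≤ 4 * dist y c / p.r n := by
    rw [le_div_iff₀ (Par.r_pos hr n)]; linarith
  unfold cap
  rw [Cap_clamp_zero (by linarith), mul_zero, Real.sin_zero, zero_pow two_ne_zero]

theorem sqrt_cap_lip (hr : 0 < p.r0) (c c' y y' : X) :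
    |√(cap p n c y) - √(cap p n c' y')| ≤ 7 * |dist y c - dist y' c'| / p.r n := by
  rw [Cap_sqrt, Cap_sqrt]
  exact (Real.abs_sin_sub_sin_le _ _).trans (Cap_ang_lip (Par.r_pos hr n) _ _)

theorem sqrt_one_sub_cap_lip (hr : 0 < p.r0) (c c' y y' : X) :
    |√(1 - cap p n c y) - √(1 - cap p n c' y')| ≤ 7 * |dist y c - dist y' c'| / p.r n := by
  rw [Cap_sqrt', Cap_sqrt']
  exact (Real.abs_cos_sub_cos_le _ _).trans (Cap_ang_lip (Par.r_pos hr n) _ _)

theorem cap_lip (hr : 0 < p.r0) (c c' y y' : X) :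
    |cap p n c y - cap p n c' y'| ≤ 14 * |dist y c - dist y' c'| / p.r n := by
  have h := sqrt_cap_lip (n := n) hr c c' y y'
  have a1 := Real.sq_sqrt (cap_nonneg (p := p) (n := n) c y)
  have a2 := Real.sq_sqrt (cap_nonneg (p := p) (n := n) c' y')
  have b1 : √(cap p n c y) ≤ 1 := Real.sqrt_le_one.2 (cap_le_one c y)
  have b2 : √(cap p n c' y') ≤ 1 := Real.sqrt_le_one.2 (cap_le_one c' y')
  have e : cap p n c y - cap p n c' y' =
      (√(cap p n c y) + √(cap p n c' y')) * (√(cap p n c y) - √(cap p n c' y')) := by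
    linear_combination a2 - a1
  rw [e, abs_mul, abs_of_nonneg (by positivity)]
  refine (mul_le_mul (show _ ≤ (2 : ℝ) by linarith) h (abs_nonneg _) zero_le_two).trans_eq ?_
  ring

theorem chi_nonneg (c y : X) : 0 ≤ chi p n c y := Cap_clamp_nonneg _

theorem chi_le_one (c y : X) : chi p n c y ≤ 1 := Cap_clamp_le_one _

theorem chi_eq_zero (hr : 0 < p.r0) {c y : X} (h : dist y c ≤ p.r n / 8) : chi p n c y = 0 := by
  have h1 : 16 * dist y c / p.r n ≤ 2 := by
    rw [div_le_iff₀ (Par.r_pos hr n)]; linarith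
  exact Cap_clamp_zero (by linarith)

theorem chi_eq_one (hr : 0 < p.r0) {c y : X} (h : 3 * p.r n / 16 ≤ dist y c) :
    chi p n c y = 1 := by
  have h1 : 3 ≤ 16 * dist y c / p.r n := by
    rw [le_div_iff₀ (Par.r_pos hr n)]; linarith
  exact Cap_clamp_one (by linarith)

theorem chi_lip (hr : 0 < p.r0) (c y y' : X) :
    |chi p n c y - chi p n c y'| ≤ 16 * dist y y' / p.r n := by
  have hn := Par.r_pos hr n
  refine (Cap_clamp_lip _ _).trans ?_
  rw [show 16 * dist y c / p.r n - 2 - (16 * dist y' c / p.r n - 2) =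
    16 * (dist y c - dist y' c) / p.r n by ring, abs_div, abs_mul, abs_of_pos hn,
    abs_of_pos (show (0 : ℝ) < 16 by norm_num)]
  exact div_le_div_of_nonneg_right
    (mul_le_mul_of_nonneg_left (abs_dist_sub_le y y' c) (by norm_num)) hn.le

namespace Dom

variable {D : Dom X (n + 1)}

theorem Cap_none (D : Dom X (n + 1)) (y : X) : D.tb p none y = 1 - ∑ o, D.tb p (some o) y := by
  rw [Fintype.sum_option]
  exact sub_sub _ _ _

theorem Cap_some (D : Dom X (n + 1)) (o : Option X) :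
    (∀ y, D.tb p (some o) y = 0) ∨ ∃ c, ∀ y, D.tb p (some o) y = cap p n c y := by
  rcases o with _ | z
  · rcases h : D.heir with _ | q
    · exact Or.inl fun y => by simp only [tb, hc, h, Option.elim]
    · exact Or.inr ⟨q.1, fun y => by simp only [tb, hc, h, Option.elim]⟩
  · rcases h : D.top z with _ | q
    · exact Or.inl fun y => by simp only [tb, tc, h, Option.elim]
    · exact Or.inr ⟨z, fun y => by simp only [tb, tc, h, Option.elim]⟩

theorem Cap_some_nonneg (D : Dom X (n + 1)) (o : Option X) (y : X) : 0 ≤ D.tb p (some o) y := by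
  rcases D.Cap_some (p := p) o with h | ⟨c, h⟩
  · exact (h y).ge
  · rw [h y]; exact cap_nonneg c y

theorem Cap_some_le_one (D : Dom X (n + 1)) (o : Option X) (y : X) : D.tb p (some o) y ≤ 1 := by
  rcases D.Cap_some (p := p) o with h | ⟨c, h⟩
  · rw [h y]; exact zero_le_one
  · rw [h y]; exact cap_le_one c y

theorem Cap_none_le (D : Dom X (n + 1)) (o : Option X) (y : X) :
    D.tb p none y ≤ 1 - D.tb p (some o) y := by
  rw [Cap_none]
  exact sub_le_sub_left (single_le_sum (f := fun o => D.tb p (some o) y)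
    (fun o _ => D.Cap_some_nonneg o y) (mem_univ o)) 1

theorem Cap_top (hr : 0 < p.r0) {z y : X} (h : 0 < D.tb p (some (some z)) y) :
    (D.top z).isSome ∧ dist y z < p.r n / 2 := by
  rcases h' : D.top z with _ | q
  · simp only [tb, tc, h', Option.elim, lt_self_iff_false] at h
  · simp only [tb, tc, h', Option.elim] at h
    exact ⟨rfl, not_le.1 fun hd => h.ne' (cap_eq_zero hr hd)⟩

theorem Cap_heir (hr : 0 < p.r0) {y : X} (h : 0 < D.tb p (some none) y) :
    ∃ q, D.heir = some q ∧ dist y q.1 < p.r n / 2 := by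
  rcases h' : D.heir with _ | q
  · simp only [tb, hc, h', Option.elim, lt_self_iff_false] at h
  · simp only [tb, hc, h', Option.elim] at h
    exact ⟨q, rfl, not_le.1 fun hd => h.ne' (cap_eq_zero hr hd)⟩

theorem sum_tb (D : Dom X (n + 1)) (y : X) : ∑ b, D.tb p b y = 1 := by
  rw [Fintype.sum_option, Cap_none, sub_add_cancel]

theorem hc_nonneg (D : Dom X (n + 1)) (y : X) : 0 ≤ D.hc p y := D.Cap_some_nonneg none y

theorem hc_le_one (D : Dom X (n + 1)) (y : X) : D.hc p y ≤ 1 := D.Cap_some_le_one none y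

theorem hcap_bounds {j : ℕ} (E : Dom X j) (y : X) : 0 ≤ E.hcap p y ∧ E.hcap p y ≤ 1 := by
  cases j with
  | zero => exact ⟨le_rfl, zero_le_one⟩
  | succ j => exact ⟨hc_nonneg E y, hc_le_one E y⟩

theorem Valid.child (h : D.Valid p) (b : Br X) : (D.child b).Valid p := by
  obtain ⟨-, -, h3, -, h5, h6⟩ := h
  rcases b with _ | _ | z
  · exact h5.1
  · rcases h' : D.heir with _ | q
    · simp only [Dom.child, h', Option.elim]; exact h5.1
    · simp only [Dom.child, h', Option.elim]; exact (h6 q h').1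
  · rcases h' : D.top z with _ | q
    · simp only [Dom.child, h', Option.elim]; exact h5.1
    · simp only [Dom.child, h', Option.elim]; exact (h3 z q h').2

/-- at most one mark can capture a point -/
theorem Valid.mark_unique (hr : 0 < p.r0) (h : D.Valid p) {o o' : Option X} {y : X}
    (h1 : 0 < D.tb p (some o) y) (h2 : 0 < D.tb p (some o') y) : o = o' := by
  obtain ⟨-, -, -, h4, -, h6⟩ := h
  rcases o with _ | z <;> rcases o' with _ | z'
  · rfl
  · obtain ⟨q, a1, a2⟩ := Cap_heir hr h1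
    obtain ⟨b1, b2⟩ := Cap_top hr h2
    linarith [(h6 q a1).2.2 z' b1, dist_triangle_left q.1 z' y]
  · obtain ⟨q, a1, a2⟩ := Cap_heir hr h2
    obtain ⟨b1, b2⟩ := Cap_top hr h1
    linarith [(h6 q a1).2.2 z b1, dist_triangle_left q.1 z y]
  · obtain ⟨a1, a2⟩ := Cap_top hr h1
    obtain ⟨b1, b2⟩ := Cap_top hr h2
    by_contra hne
    linarith [h4 z z' a1 b1 fun e => hne (congrArg some e), dist_triangle_left z z' y]

theorem Valid.Cap_one (hr : 0 < p.r0) (h : D.Valid p) (y : X) :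
    ∃ o, (∀ o', o' ≠ o → D.tb p (some o') y = 0) ∧ D.tb p none y = 1 - D.tb p (some o) y := by
  obtain ⟨o, ho⟩ : ∃ o, ∀ o', o' ≠ o → D.tb p (some o') y = 0 := by
    by_cases hex : ∃ o, 0 < D.tb p (some o) y
    · obtain ⟨o, ho⟩ := hex
      exact ⟨o, fun o' hne => le_antisymm (not_lt.1 fun h' => hne (h.mark_unique hr h' ho))
        (D.Cap_some_nonneg o' y)⟩
    · exact ⟨none, fun o' _ => le_antisymm (not_lt.1 fun h' => hex ⟨o', h'⟩)
        (D.Cap_some_nonneg o' y)⟩
  exact ⟨o, ho, by rw [Cap_none, Fintype.sum_eq_single o ho]⟩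

theorem Valid.tb_nonneg (hr : 0 < p.r0) (h : D.Valid p) (b : Br X) (y : X) : 0 ≤ D.tb p b y := by
  rcases b with _ | o
  · obtain ⟨o, -, ho⟩ := h.Cap_one hr y
    rw [ho]
    exact sub_nonneg.2 (D.Cap_some_le_one o y)
  · exact D.Cap_some_nonneg o y

theorem Valid.tb_le_one (hr : 0 < p.r0) (h : D.Valid p) (b : Br X) (y : X) : D.tb p b y ≤ 1 := by
  rw [← D.sum_tb (p := p) y]
  exact single_le_sum (f := fun b => D.tb p b y) (fun b _ => h.tb_nonneg hr b y) (mem_univ b)

theorem pres_of_pos {b : Br X} {y : X} (h : 0 < D.tb p b y) : D.pres b := by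
  rcases b with _ | _ | z
  · trivial
  · rcases h' : D.heir with _ | q
    · simp only [tb, hc, h', Option.elim, lt_self_iff_false] at h
    · simp only [pres, h', Option.isSome_some]
  · rcases h' : D.top z with _ | q
    · simp only [tb, tc, h', Option.elim, lt_self_iff_false] at h
    · simp only [pres, h', Option.isSome_some]

theorem dist_lt_of_top (hr : 0 < p.r0) {z y : X} (h : 0 < D.tb p (some (some z)) y) :
    dist y z < p.r n / 2 := (Cap_top hr h).2

theorem dist_lt_of_heir (hr : 0 < p.r0) {y : X} (h : 0 < D.tb p (some none) y) :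
    ∃ q, D.heir = some q ∧ dist y q.1 < p.r n / 2 := Cap_heir hr h

theorem Cap_dist (hr : 0 < p.r0) (c y y' : X) :
    7 * |dist y c - dist y' c| / p.r n ≤ 7 * dist y y' / p.r n :=
  div_le_div_of_nonneg_right
    (mul_le_mul_of_nonneg_left (abs_dist_sub_le y y' c) (by norm_num)) (Par.r_pos hr n).le

theorem Valid.Cap_lip (hr : 0 < p.r0) (h : D.Valid p) (y y' : X) :
    √(D.tb p none y) - √(D.tb p none y') ≤ 7 * dist y y' / p.r n := by
  obtain ⟨o, -, ho⟩ := h.Cap_one hr y'
  have h1 := Real.sqrt_le_sqrt (D.Cap_none_le (p := p) o y)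
  rw [ho]
  refine (sub_le_sub_right h1 _).trans ?_
  rcases D.Cap_some (p := p) o with h2 | ⟨c, h2⟩
  · rw [h2, h2, sub_self]
    have := Par.r_pos hr n
    positivity
  · rw [h2, h2]
    exact (le_abs_self _).trans ((sqrt_one_sub_cap_lip hr c c y y').trans (Cap_dist hr c y y'))

theorem Valid.sqrt_tb_lip (hr : 0 < p.r0) (h : D.Valid p) (b : Br X) (y y' : X) :
    |√(D.tb p b y) - √(D.tb p b y')| ≤ 7 * dist y y' / p.r n := by
  rcases b with _ | o
  · exact abs_sub_le_iff.2 ⟨h.Cap_lip hr y y', dist_comm y' y ▸ h.Cap_lip hr y' y⟩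
  · rcases D.Cap_some (p := p) o with h2 | ⟨c, h2⟩
    · rw [h2, h2, sub_self, abs_zero]
      have := Par.r_pos hr n
      positivity
    · rw [h2, h2]
      exact (sqrt_cap_lip hr c c y y').trans (Cap_dist hr c y y')

theorem Valid.tb_sub_le (hr : 0 < p.r0) (h : D.Valid p) (b : Br X) (y y' : X) :
    D.tb p b y - min (D.tb p b y) (D.tb p b y') ≤ 14 * dist y y' / p.r n * √(D.tb p b y) := by
  have hn := Par.r_pos hr n
  rcases le_total (D.tb p b y) (D.tb p b y') with h1 | h1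
  · rw [min_eq_left h1, sub_self]
    positivity
  · rw [min_eq_right h1]
    have a1 := Real.sq_sqrt (h.tb_nonneg hr b y)
    have a2 := Real.sq_sqrt (h.tb_nonneg hr b y')
    have a3 := Real.sqrt_le_sqrt h1
    have a4 := (le_abs_self _).trans (h.sqrt_tb_lip hr b y y')
    have e : D.tb p b y - D.tb p b y' =
        (√(D.tb p b y) - √(D.tb p b y')) * (√(D.tb p b y) + √(D.tb p b y')) := by
      linear_combination a2 - a1
    rw [e]
    refine (mul_le_mul a4 (show _ ≤ 2 * √(D.tb p b y) by linarith) (by positivity)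
      (by positivity)).trans_eq ?_
    ring

theorem Valid.sum_sqrt_tb (hr : 0 < p.r0) (h : D.Valid p) (y : X) : ∑ b, √(D.tb p b y) ≤ 2 := by
  obtain ⟨o, ho, -⟩ := h.Cap_one hr y
  rw [Fintype.sum_option, Fintype.sum_eq_single o fun o' h' => by rw [ho o' h', Real.sqrt_zero]]
  linarith [Real.sqrt_le_one.2 (h.tb_le_one hr none y),
    Real.sqrt_le_one.2 (h.tb_le_one hr (some o) y)]

theorem Valid.tb_quarter (hr : 0 < p.r0) (h : D.Valid p) (b : Br X) {y σ : X}
    (hd : dist y σ ≤ √(D.tb p b σ) * p.r n / 14) : D.tb p b σ / 4 ≤ D.tb p b y := by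
  have hn := Par.r_pos hr n
  have a1 := (abs_sub_le_iff.1 (h.sqrt_tb_lip hr b y σ)).2
  have a2 : 7 * dist y σ / p.r n ≤ √(D.tb p b σ) / 2 := by
    rw [div_le_iff₀ hn]; linarith
  have a3 := pow_le_pow_left₀ (by positivity)
    (show √(D.tb p b σ) / 2 ≤ √(D.tb p b y) by linarith) 2
  rw [div_pow, Real.sq_sqrt (h.tb_nonneg hr b σ), Real.sq_sqrt (h.tb_nonneg hr b y)] at a3
  linarith

theorem Valid.t0_le {t : Tol} (hr : 0 < p.r0) (ht : t.Hyp p X (n + 1)) (h : D.Valid p) {b : Br X}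
    {y : X} (hb : 0 < D.tb p b y) : t.t0 ≤ D.tb p b y := by
  rcases b with _ | o
  · obtain ⟨o, -, ho⟩ := h.Cap_one hr y
    rw [ho] at hb ⊢
    rcases D.Cap_some (p := p) o with h2 | ⟨c, h2⟩
    · rw [h2, sub_zero]; exact ht.t0_le
    · rw [h2] at hb ⊢
      exact ht.cap_le n (Nat.lt_succ_self n) c y (by linarith)
  · rcases D.Cap_some (p := p) o with h2 | ⟨c, h2⟩
    · exact absurd (h2 y) hb.ne'
    · rw [h2] at hb ⊢
      exact ht.cap_ge n (Nat.lt_succ_self n) c y hb

/-- a point captured surely by the heir -/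
theorem Valid.tb_of_hc_one (hr : 0 < p.r0) (h : D.Valid p) {y : X} (hy : D.hc p y = 1) {b : Br X}
    (hb : b ≠ some none) : D.tb p b y = 0 := by
  have hy' : D.tb p (some none) y = 1 := hy
  refine le_antisymm ?_ (h.tb_nonneg hr b y)
  rcases b with _ | o
  · have := D.Cap_none_le (p := p) none y
    linarith
  · exact not_lt.1 fun h' => hb (congrArg some (h.mark_unique hr h' (hy' ▸ one_pos)))

end Dom

end Crest.Agent.R314
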