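import Crest.Agent.R314.ECtx
import Crest.Agent.R314.Cap

/-! Module C: the logarithmic mass calculus. -/

set_option autoImplicit false

namespace Crest.Agent.R314

open Finset 

variable {X : Type} [MetricSpace X] [Fintype X] [DecidableEq X] [Nonempty X] {p : Par} {n : ℕ}
  {t : Tol} {σ : X} {c : Ctx X} {m : X → ℝ}

section
variable (hr : 0 < p.r0) (hm : ∀ y, 0 ≤ m y) (hσ : 0 < m σ)
include hm

theorem Mb_mono {ρ ρ' : ℝ} (h : ρ ≤ ρ') : Mb m σ ρ ≤ Mb m σ ρ' := by
  refine sum_le_sum fun y _ => ?_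
  split_ifs with h1 h2
  exacts [le_rfl, absurd (h1.trans h) h2, hm y, le_rfl]

theorem le_Mb {ρ : ℝ} (h : 0 ≤ ρ) : m σ ≤ Mb m σ ρ := by
  refine le_trans ?_ (single_le_sum (f := fun y => if dist y σ ≤ ρ then m y else 0)
    (fun y _ => ite_nonneg (hm y) le_rfl) (mem_univ σ))
  simp [h]

theorem Mb_le_sum (ρ : ℝ) : Mb m σ ρ ≤ ∑ y, m y := by
  refine sum_le_sum fun y _ => ?_
  split_ifs
  exacts [le_rfl, hm y]

omit hm in
theorem Mb_zero : Mb m σ 0 = m σ := by
  simp [Mb]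

include hσ

theorem ell_anti {ρ ρ' : ℝ} (h0 : 0 ≤ ρ) (h : ρ ≤ ρ') : ell m σ ρ' ≤ ell m σ ρ := by
  exact neg_le_neg (Real.log_le_log (hσ.trans_le (le_Mb hm h0)) (Mb_mono hm h))

theorem Lam_ell_sub {ρ : ℝ} (h : 0 ≤ ρ) : ell m σ 0 - ell m σ ρ = Real.log (Mb m σ ρ / m σ) := by
  rw [Real.log_div (hσ.trans_le (le_Mb hm h)).ne' hσ.ne', ell, ell, Mb_zero]
  ring

include hr

theorem Lam_gap (n : ℕ) : ell m σ (4 * p.r (n + 1)) ≤ ell m σ (4 * p.r n) := by
  have := Par.r_pos hr n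
  exact ell_anti hm hσ (by positivity) (by rw [Par.r_succ]; linarith)

theorem Dl_nonneg (n : ℕ) : 0 ≤ Dl p m σ n := by
  induction n with
  | zero => exact sub_nonneg.2 (ell_anti hm hσ le_rfl (by have := Par.r_pos hr 0; positivity))
  | succ n ih =>
    have := Lam_gap hr hm hσ n
    simp only [Dl, Lam] at ih ⊢
    linarith

omit hr hm hσ in
theorem Lam_sub_ell (n : ℕ) :
    Lam p m σ n - ell m σ (4 * p.r (n + 1)) = 2 * Dl p m σ (n + 1) := by
  simp only [Dl, Lam]
  ring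

omit hr hm hσ in
theorem Pi1_succ (n : ℕ) : Pi1 p m σ (n + 1) = Pi1 p m σ n + Dl p m σ (n + 1) := by
  simp only [Pi1, Dl, Lam]
  ring

theorem Pi1_bounds (n : ℕ) : 0 ≤ Pi1 p m σ n ∧ Pi1 p m σ n ≤ Real.log ((∑ y, m y) / m σ) := by
  constructor
  · induction n with
    | zero => exact (sub_self _).ge
    | succ n ih => rw [Pi1_succ]; exact add_nonneg ih (Dl_nonneg hr hm hσ _)
  · have h0 : 0 ≤ 4 * p.r n := by have := Par.r_pos hr n; positivity
    have h1 := Dl_nonneg hr hm hσ n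
    have h2 := Lam_ell_sub hm hσ h0
    have h3 := Real.log_le_log (div_pos (hσ.trans_le (le_Mb hm h0)) hσ)
      (div_le_div_of_nonneg_right (Mb_le_sum hm (4 * p.r n)) hσ.le)
    simp only [Pi1, Dl, Lam] at h1 ⊢
    linarith

theorem Pi2_nonneg (n : ℕ) {P : ℝ} (hP : 0 ≤ P) : 0 ≤ Pi2 p m σ n P := by
  have := le_Mb hm (σ := σ) (show 0 ≤ 4 * p.r n by have := Par.r_pos hr n; positivity)
  exact Real.log_nonneg ((one_le_div hσ).2 (by linarith))

/-- shrinking the radius by `b²` costs `2 b Dl` -/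
theorem ell_shrink (n : ℕ) {b ρ : ℝ} (hb : 1 ≤ b) (hρ : 4 * p.r n / b ^ 2 ≤ ρ) :
    ell m σ ρ - ell m σ (4 * p.r n) ≤ 2 * b * Dl p m σ n := by
  induction n generalizing b with
  | zero =>
    have h0 := Par.r_pos hr 0
    have h1 := ell_anti hm hσ le_rfl (le_trans (by positivity) hρ)
    have h2 := Dl_nonneg hr hm hσ 0
    have h3 := mul_le_mul_of_nonneg_right hb h2
    simp only [Dl, Lam] at h2 h3 ⊢
    linarith
  | succ n ih =>
    have h0 := Par.r_pos hr n
    have h1 := Lam_gap hr hm hσ n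
    have h2 := Dl_nonneg hr hm hσ n
    have h3 : 2 * Dl p m σ (n + 1) =
        Dl p m σ n + (ell m σ (4 * p.r n) - ell m σ (4 * p.r (n + 1))) := by
      simp only [Dl, Lam]
      ring
    rw [mul_right_comm, h3]
    rw [Par.r_succ] at hρ
    rcases le_total b 256 with h | h
    · have h4 : 4 * p.r n ≤ ρ := le_trans ((le_div_iff₀ (by positivity)).2 (by
        nlinarith [pow_le_pow_left₀ (zero_le_one.trans hb) h 2])) hρ
      have := ell_anti hm hσ (by positivity) h4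
      nlinarith
    · have := ih (b := b / 256) (by linarith) (le_of_eq_of_le (by field_simp; norm_num) hρ)
      nlinarith

theorem Dl_ge_of_not_heavy (n : ℕ) (h : ¬ Heavy p m σ n) : 1 / 2 ^ 81 ≤ Dl p m σ (n + 2) := by
  have h0 := Par.r_pos hr n
  have h1 := ell_shrink hr hm hσ (n + 2) (b := 2 ^ 18) (ρ := p.r n / 4) (by norm_num)
    (by rw [Par.r_succ, Par.r_succ]; linarith)
  have h2 : 0 < Mb m σ (p.r n / 4) := hσ.trans_le (le_Mb hm (by positivity))
  have h3 : (0 : ℝ) < 1 + 1 / C3 := by norm_num [C3, C1, C2]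
  have h4 := Real.log_le_log (mul_pos h3 h2) (not_le.1 h).le
  have h5 := Real.one_sub_inv_le_log_of_pos h3
  have h6 : (1 : ℝ) / 2 ^ 61 ≤ 1 - (1 + 1 / C3)⁻¹ := by norm_num [C3, C1, C2]
  rw [Real.log_mul h3.ne' h2.ne'] at h4
  simp only [ell] at h1
  linarith

variable {D : Dom X (n + 1)} (hD : D.Valid p)
include hD

omit hσ in
theorem Lam_mb (b : Br X) (y : X) : 0 ≤ Dom.mb p m D b y := mul_nonneg (hm y) (hD.tb_nonneg hr b y)

theorem Yx_bounds {b : Br X} (hb : 0 < D.tb p b σ) :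
    Dl p (Dom.mb p m D b) σ n ≤ D.Yx p σ m b ∧
      ell (Dom.mb p m D b) σ (4 * p.r n) - ell m σ (4 * p.r (n + 1)) ≤ D.Yx p σ m b ∧
      0 ≤ ell (Dom.mb p m D b) σ (4 * p.r n) - ell m σ (4 * p.r (n + 1)) := by
  have h0 := Par.r_pos hr n
  have h1 := Lam_mb hr hm hD b
  have h2 : 0 < Dom.mb p m D b σ := mul_pos hσ hb
  have h3 := Dl_nonneg hr h1 h2 n
  have h4 := Lam_gap hr hm hσ n
  have h5 : ell m σ (4 * p.r n) ≤ ell (Dom.mb p m D b) σ (4 * p.r n) := by
    refine neg_le_neg (Real.log_le_log (h2.trans_le (le_Mb h1 (by positivity)))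
      (sum_le_sum fun y _ => ?_))
    split_ifs
    exacts [mul_le_of_le_one_right (hm y) (hD.tb_le_one hr b y), le_rfl]
  simp only [Dl, Dom.Yx] at h3 ⊢
  exact ⟨by linarith, by linarith, by linarith⟩

/-- the branch lemma -/
theorem sqrt_tb_mul_Yx {b : Br X} (hb : 0 < D.tb p b σ) :
    √(D.tb p b σ) * D.Yx p σ m b ≤ 2 + 4352 * Dl p m σ (n + 1) := by
  have h0 := Par.r_pos hr n
  have hq := fun y => hD.tb_quarter hr b (y := y) (σ := σ)
  have s0 := Real.sqrt_pos.2 hb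
  have s1 := Real.sqrt_le_one.2 (hD.tb_le_one hr b σ)
  have s2 := Real.sq_sqrt hb.le
  set s := √(D.tb p b σ)
  set E := ell m σ (s * p.r n / 14) - ell m σ (4 * p.r (n + 1)) with hE
  have E0 : 0 ≤ E := sub_nonneg.2 (ell_anti hm hσ (by positivity) (by rw [Par.r_succ]; nlinarith))
  have h1 : ∀ ρ, 0 ≤ ρ → ρ ≤ 4 * p.r (n + 1) →
      ell (Dom.mb p m D b) σ ρ ≤ 2 / s + E + ell m σ ρ := fun ρ h h' => by
    have h2 : 0 < Mb m σ (min ρ (s * p.r n / 14)) := hσ.trans_le (le_Mb hm (by positivity))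
    have h3 : (s / 2) ^ 2 * Mb m σ (min ρ (s * p.r n / 14)) ≤ Mb (Dom.mb p m D b) σ ρ := by
      rw [Mb, mul_sum]
      refine sum_le_sum fun y _ => ?_
      split_ifs with h4 h5
      · rw [mul_comm]
        exact mul_le_mul_of_nonneg_left (by linarith [hq y (h4.trans (min_le_right _ _))]) (hm y)
      · exact absurd (h4.trans (min_le_left _ _)) h5
      · rw [mul_zero]
        exact Lam_mb hr hm hD b y
      · rw [mul_zero]
    have h4 := Real.log_le_log (by positivity) h3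
    have h5 := Real.one_sub_inv_le_log_of_pos s0
    have h6 : ell m σ (min ρ (s * p.r n / 14)) ≤ E + ell m σ ρ := by
      rcases le_total ρ (s * p.r n / 14) with h6 | h6
      · rw [min_eq_left h6]
        linarith
      · rw [min_eq_right h6]
        linarith [ell_anti hm hσ h h']
    rw [Real.log_mul (by positivity) h2.ne', Real.log_pow, Real.log_div s0.ne' two_ne_zero] at h4
    simp only [ell] at h6 ⊢
    rw [div_eq_mul_inv]
    push_cast at h4
    linarith [Real.log_two_lt_d9]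
  have h2 : ∀ j ≤ n, Lam p (Dom.mb p m D b) σ j ≤ 2 / s + E + Lam p m σ j := fun j hj => by
    induction j with
    | zero => exact h1 0 le_rfl (by rw [Par.r_succ]; positivity)
    | succ j ih =>
      have := h1 (4 * p.r (j + 1)) (by have := Par.r_pos hr (j + 1); positivity)
        (mul_le_mul_of_nonneg_left (rr_mono hr (by omega)) (by norm_num))
      have := ih (by omega)
      simp only [Lam]
      linarith
  have h3 : E ≤ _ := ell_shrink hr hm hσ (n + 1) (b := 2048 / s) ((one_le_div s0).2 (by linarith)) (by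
    rw [Par.r_succ, div_le_iff₀ (by positivity)]
    field_simp
    nlinarith)
  have h4 : D.Yx p σ m b ≤ 2 / s + 2 * (2048 / s) * Dl p m σ (n + 1) + 2 * Dl p m σ (n + 1) := by
    have := h2 n le_rfl
    rw [← Lam_sub_ell, Dom.Yx]
    linarith
  have h5 := Dl_nonneg hr hm hσ (n + 1)
  refine (mul_le_mul_of_nonneg_left h4 s0.le).trans ?_
  field_simp
  nlinarith

theorem Lam_jen {ρ : ℝ} (h : 0 ≤ ρ) : ∑ b, D.tb p b σ *
    Real.log (Mb (Dom.mb p m D b) σ ρ / Dom.mb p m D b σ) ≤ Real.log (Mb m σ ρ / m σ) := by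
  have h0 : 0 < Mb m σ ρ := hσ.trans_le (le_Mb hm h)
  have h1 : ∑ b, Mb (Dom.mb p m D b) σ ρ = Mb m σ ρ := by
    simp only [Mb]
    rw [sum_comm]
    refine sum_congr rfl fun y _ => ?_
    split_ifs
    · simp only [Dom.mb, ← mul_sum, Dom.sum_tb, mul_one]
    · simp
  refine (sum_le_sum (g := fun b => D.tb p b σ * (Real.log (Mb m σ ρ / m σ) - 1) +
    Mb (Dom.mb p m D b) σ ρ / Mb m σ ρ) fun b _ => ?_).trans_eq ?_
  · have h2 := le_Mb (σ := σ) (Lam_mb hr hm hD b) h
    rcases (hD.tb_nonneg hr b σ).eq_or_lt with h3 | h3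
    · rw [← h3, zero_mul, zero_mul, zero_add]
      exact div_nonneg ((Lam_mb hr hm hD b σ).trans h2) h0.le
    · have h4 : 0 < Mb (Dom.mb p m D b) σ ρ := (mul_pos hσ h3).trans_le h2
      have h5 := Real.log_le_sub_one_of_pos (div_pos h4 (mul_pos h3 h0))
      have h6 : Mb (Dom.mb p m D b) σ ρ / Dom.mb p m D b σ =
          Mb m σ ρ / m σ * (Mb (Dom.mb p m D b) σ ρ / (D.tb p b σ * Mb m σ ρ)) := by
        rw [show Dom.mb p m D b σ = m σ * D.tb p b σ from rfl]
        field_simp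
      rw [h6, Real.log_mul (by positivity) (by positivity)]
      refine (mul_le_mul_of_nonneg_left (add_le_add le_rfl h5) h3.le).trans_eq ?_
      field_simp
      ring
  · rw [sum_add_distrib, ← sum_mul, ← sum_div, h1, Dom.sum_tb, div_self h0.ne']
    ring

theorem jensen_Pi1 (j : ℕ) :
    ∑ b, D.tb p b σ * Pi1 p (Dom.mb p m D b) σ j ≤ Pi1 p m σ j := by
  induction j with
  | zero => simp [Pi1]
  | succ j ih =>
    have h0 : 0 ≤ 4 * p.r (j + 1) := by have := Par.r_pos hr (j + 1); positivity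
    have e : ∀ m' : X → ℝ, Pi1 p m' σ (j + 1) =
        (ell m' σ 0 - ell m' σ (4 * p.r (j + 1)) + Pi1 p m' σ j) / 2 := fun m' => by
      simp only [Pi1, Lam]
      ring
    rw [e m, Lam_ell_sub hm hσ h0]
    refine le_trans (le_of_eq ?_) (div_le_div_of_nonneg_right
      (add_le_add (Lam_jen hr hm hσ hD h0) ih) two_pos.le)
    rw [← sum_add_distrib, sum_div]
    refine sum_congr rfl fun b _ => ?_
    rcases (hD.tb_nonneg hr b σ).eq_or_lt with h3 | h3
    · simp [← h3]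
    · rw [e, Lam_ell_sub (Lam_mb hr hm hD b) (mul_pos hσ h3) h0]
      ring

theorem jensen_Pi2 :
    ∑ b, D.tb p b σ * Pi2 p (Dom.mb p m D b) σ n 0 ≤ Pi2 p m σ (n + 1) 0 := by
  have h0 := Par.r_pos hr n
  simp only [Pi2, add_zero]
  refine (Lam_jen hr hm hσ hD (by positivity)).trans (Real.log_le_log
    (div_pos (hσ.trans_le (le_Mb hm (by positivity))) hσ)
    (div_le_div_of_nonneg_right (Mb_mono hm (by rw [Par.r_succ]; linarith)) hσ.le))

end

end Crest.Agent.R314
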