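import Crest.Agent.R314.SitC
import Crest.Agent.R314.Lam

/-! Module C: the tests that add weight. -/

set_option autoImplicit false
set_option linter.unusedSectionVars false

namespace Crest.Agent.R314

open Finset 

variable {X : Type} [MetricSpace X] [Fintype X] [DecidableEq X] [Nonempty X] {p : Par} {n : ℕ}
  {t : Tol} {σ : X} {c : Ctx X} {m : X → ℝ}

namespace AddAux

open Dom

/-- the state with new weights on the level of the node -/
def st (D : Dom X (n + 1)) (w : ℕ → ℝ) (ν a : X → ℝ) : Dom X (n + 1) :=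
  Dom.mk D.heir w ν (fun z => (D.top z).map fun q => (a z, q.2)) D.next

/-- the weights of the top marks -/
def a0 (D : Dom X (n + 1)) (z : X) : ℝ := (D.top z).elim 1 Prod.fst

variable {D : Dom X (n + 1)} {w : ℕ → ℝ} {ν a : X → ℝ}

theorem st_top (z : X) : (st D w ν a).top z = (D.top z).map fun q => (a z, q.2) := rfl

theorem map_a0 (z : X) : ((D.top z).map fun q => (a0 D z, q.2)) = D.top z := by
  unfold a0
  cases D.top z <;> rfl

theorem a0_pos (h : D.Valid p) (z : X) : 0 < a0 D z := by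
  unfold a0
  cases hz : D.top z with
  | none => exact one_pos
  | some q => exact (h.2.2.1 z q hz).1

theorem st_tc (z y : X) : (st D w ν a).tc p z y = D.tc p z y := by
  unfold Dom.tc
  rw [st_top]
  cases D.top z <;> rfl

theorem st_tb (b : Br X) (y : X) : (st D w ν a).tb p b y = D.tb p b y := by
  rcases b with _ | _ | z
  · change 1 - D.hc p y - ∑ z, (st D w ν a).tc p z y = 1 - D.hc p y - ∑ z, D.tc p z y
    simp only [st_tc]
  · rfl
  · exact st_tc z y

theorem st_child (b : Br X) : (st D w ν a).child b = D.child b := by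
  rcases b with _ | _ | z
  · rfl
  · rfl
  · change ((st D w ν a).top z).elim D.next Prod.snd = (D.top z).elim D.next Prod.snd
    rw [st_top]
    cases D.top z <;> rfl

theorem st_valid (h : D.Valid p) (hw : ∀ l, 0 < w l) (hν : ∀ z, 0 < ν z) (ha : ∀ z, 0 < a z) :
    (st D w ν a).Valid p := by
  have hs : ∀ z, ((st D w ν a).top z).isSome = (D.top z).isSome := fun z => by
    rw [st_top, Option.isSome_map]
  refine ⟨hw, hν, fun z q hq => ?_, fun z z' hz hz' => ?_, h.2.2.2.2.1, fun q hq => ?_⟩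
  · rw [st_top] at hq
    obtain ⟨q', hq', rfl⟩ := Option.map_eq_some_iff.1 hq
    exact ⟨ha z, (h.2.2.1 z q' hq').2⟩
  · rw [hs] at hz hz'
    exact h.2.2.2.1 z z' hz hz'
  · obtain ⟨h1, h2, h3⟩ := h.2.2.2.2.2 q hq
    refine ⟨h1, h2, fun z hz => h3 z ?_⟩
    rwa [hs] at hz

theorem test (h : Sit p t σ c m D) (hw : ∀ l, 0 < w l) (hν : ∀ z, 0 < ν z) (ha : ∀ z, 0 < a z) :
    0 ≤ obj p t c m (st D w ν a) - obj p t c m D +
      ∑ y, mb p m D none y * (dwin p n D.nu y ν y * (4 * p.r n)) + t.η := by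
  have hr := h.hyp.r0_pos
  have hG := h.hyp.G_pos
  have hv := st_valid h.vc.1 hw hν ha
  have hvc : VC p c (st D w ν a) := ⟨hv, h.vc.2.1, h.vc.2.2⟩
  have had : adist c.par D (st D w ν a) = 0 := by
    unfold adist
    cases c.par with
    | none => rfl
    | some c' => exact dist_self _
  have h1 := h.eq _ hvc
  rw [had, mul_zero, add_zero] at h1
  have h2 : ∑ y, m y * dlt p D (st D w ν a) y 0 ≤
      ∑ y, mb p m D none y * (dwin p n D.nu y ν y * (4 * p.r n)) := by
    refine sum_le_sum fun y _ => ?_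
    have h3 := dlt_rec hr hG h.vc.1 hv y (le_refl 0)
    have hb : ∀ b, bdist D (st D w ν a) b = 0 := fun b => by
      rcases b with _ | _ | z
      · rfl
      · exact dist_self _
      · rfl
    simp only [st_tb, st_child, hb, min_self, max_self, dlt_self hr hG _ y (le_refl 0), mul_zero,
      sum_const_zero, sum_tb, sub_self, zero_mul, zero_add] at h3
    unfold mb
    rw [mul_assoc]
    exact mul_le_mul_of_nonneg_left h3 (h.m_nonneg y)
  linarith

theorem eta_le (h : Sit p t σ c m D) {M : ℝ} (hM : t.κ ≤ M) (l : ℕ) :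
    t.η * (64 * (p.G : ℝ) ^ 2) ≤ M * p.r l := by
  have hr := h.hyp.r0_pos
  have h1 : p.r0 ≤ p.r l := by
    have := rr_mono hr (Nat.zero_le l)
    rwa [rr_zero] at this
  exact h.tol.η_le.trans (mul_le_mul hM h1 hr.le (h.tol.κ_pos.le.trans hM))

theorem log_add_le {W Z : ℝ} (hW : 0 < W) (hZ : 0 ≤ Z) :
    Real.log (W + Z) - Real.log W ≤ Z / W := by
  rw [← Real.log_div (by positivity) hW.ne']
  have := Real.log_le_sub_one_of_pos (show 0 < (W + Z) / W by positivity)
  refine this.trans (le_of_eq ?_)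
  field_simp
  ring

theorem fin {W Z g M r η G : ℝ} (hW : 0 < W) (hZ : 0 < Z) (hg : 0 < g) (hM : 0 < M) (hr : 0 < r)
    (hG : 1 ≤ G) (hη0 : 0 ≤ η) (hη : η * (64 * G ^ 2) ≤ M * r)
    (h : 0 ≤ -(M * (K0 * r * Real.log 2)) + g * (K0 * r * (Real.log (W + Z) - Real.log W)) + η) :
    Real.log W - Real.log Z ≤ Real.log 2 + Real.log g - Real.log M := by
  have h1 := log_add_le hW hZ.le
  have h2 : g * (K0 * r * (Real.log (W + Z) - Real.log W)) ≤ g * (K0 * r * (Z / W)) := by
    unfold K0
    gcongr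
  have h3 : η * 64 ≤ M * r := by
    have : (1 : ℝ) ≤ G ^ 2 := one_le_pow₀ hG
    nlinarith
  have h4 := Real.log_two_gt_d9
  have h5 : 0 < M * r := mul_pos hM hr
  have h6 : r * M ≤ r * (2 * g * (Z / W)) := by
    unfold K0 at h h2
    nlinarith
  have h7 := le_of_mul_le_mul_left h6 hr
  have h8 := Real.log_le_log hM h7
  rw [Real.log_mul (by positivity) (by positivity), Real.log_mul (by positivity) hg.ne',
    Real.log_div hZ.ne' hW.ne'] at h8
  linarith

theorem gW_pos (h : Sit p t σ c m D) : 0 < gW c D n := by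
  unfold gW
  have h1 := h.vc.1.Wsh_pos n
  have h2 := h.Wr_nonneg n (Nat.lt_succ_self n)
  split_ifs <;> linarith

theorem gW_st : gW c (st D w ν a) n = gW c D n + (∑ z, (ν z - D.nu z) +
    ∑ z, (D.top z).elim 0 fun q => a z - q.1) := by
  have h1 : ∀ z, ((st D w ν a).top z).elim 0 Prod.fst =
      (D.top z).elim 0 Prod.fst + (D.top z).elim 0 fun q => a z - q.1 := fun z => by
    rw [st_top]
    cases D.top z <;> simp
  change (if D.heir.isSome then 0 else c.Wr n) + wshAux Wt (st D w ν a) n =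
    (if D.heir.isSome then 0 else c.Wr n) + wshAux Wt D n + _
  unfold wshAux
  rw [if_pos rfl, if_pos rfl]
  simp only [h1, sum_add_distrib, sum_sub_distrib]
  change _ + (∑ z, ν z + _) = _
  ring

theorem nrm_update (W : ℕ → ℝ) {N l : ℕ} (hl : l < N) (x : ℝ) :
    p.nrm N (Function.update W l x) = p.nrm N W + K0 * p.r l * (Real.log x - Real.log (W l)) := by
  unfold Par.nrm
  have h1 : ∀ k, p.r k * Real.log (Function.update W l x k) =
      p.r k * Real.log (W k) + if k = l then p.r l * (Real.log x - Real.log (W l)) else 0 := by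
    intro k
    split_ifs with hk
    · subst hk
      rw [Function.update_self]
      ring
    · rw [Function.update_of_ne hk, add_zero]
  simp only [h1, sum_add_distrib, sum_ite_eq', mem_range, hl, if_true]
  ring

theorem obj_w (hD : D.heir.isSome) :
    obj p t c m (st D w D.nu (a0 D)) - obj p t c m D =
      -((∑ y, m y) * (p.nrm (n + 1) w - p.nrm (n + 1) D.w)) +
        c.mG * (p.nrm (n + 1) (fun l => c.Wr l + w l) -
          p.nrm (n + 1) fun l => c.Wr l + D.w l) := by
  have e : st D w D.nu (a0 D) = Dom.mk D.heir w D.nu D.top D.next := by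
    unfold st
    congr 1
    funext z
    exact map_a0 z
  rw [e]
  obtain ⟨E, hE⟩ : ∃ E, E = Dom.mk D.heir w D.nu D.top D.next := ⟨_, rfl⟩
  have hL : ∀ y, E.LV p y = D.LV p y - (p.nrm (n + 1) w - p.nrm (n + 1) D.w) := fun y => by
    have h1 : ∑ b, E.tb p b y * (E.gau p b + E.lv0 p b y + LV p (E.child b) y) =
        ∑ b, D.tb p b y * (D.gau p b + D.lv0 p b y + LV p (D.child b) y) := by
      subst hE
      refine sum_congr rfl fun b _ => ?_
      rcases b with _ | _ | z <;> rfl
    have h2 : E.LV p y = (if D.heir.isSome then -p.nrm (n + 1) w else 0) +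
        ∑ b, E.tb p b y * (E.gau p b + E.lv0 p b y + LV p (E.child b) y) := by
      subst hE
      rfl
    have h3 : D.LV p y = (if D.heir.isSome then -p.nrm (n + 1) D.w else 0) +
        ∑ b, D.tb p b y * (D.gau p b + D.lv0 p b y + LV p (D.child b) y) := rfl
    rw [h2, h3, h1, if_pos hD, if_pos hD]
    ring
  have hP : ∀ y, E.PV p y = D.PV p y := fun y => by
    subst hE
    change ∑ b, _ = ∑ b, _
    refine sum_congr rfl fun b _ => ?_
    rcases b with _ | _ | z <;> rfl
  have hH : ∀ y, Hterm p c.par E y = Hterm p c.par D y := fun y => by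
    subst hE
    rfl
  have hV : ∀ y, E.Val p c.par y = D.Val p c.par y - (p.nrm (n + 1) w - p.nrm (n + 1) D.w) :=
    fun y => by
      unfold Val
      rw [hL, hP, hH]
      ring
  have hW : E.Wt = w := by
    subst hE
    funext l
    exact if_pos hD
  have hW' : D.Wt = D.w := by
    funext l
    exact if_pos hD
  have h1 : lnkO c.par E = lnkO c.par D := by
    subst hE
    rfl
  have h2 : E.len = D.len := by
    subst hE
    rfl
  have h3 : E.Links = D.Links := by
    subst hE
    rfl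
  rw [← hE]
  unfold obj
  simp only [hV, hW, hW', h1, h2, h3, mul_sub, sum_sub_distrib, ← sum_mul]
  ring

theorem sum_om_range (i : ℕ) :
    ∑ k ∈ range i, p.om (k + 1) = i * (i + 1) / (p.G * (p.G + 1)) := by
  induction i with
  | zero => simp
  | succ i ih =>
    rw [sum_range_succ, ih]
    unfold Par.om
    push_cast
    ring

theorem ballW_add (ν : X → ℝ) (Z : ℝ) {y : X} {ρ : ℝ} (h : dist y σ ≤ ρ) :
    ballW (fun z => ν z + if z = σ then Z else 0) y ρ = ballW ν y ρ + Z := by
  have h1 : ∀ z, ballF (fun z => ν z + if z = σ then Z else 0) y ρ z =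
      ballF ν y ρ z + if z = σ then Z else 0 := fun z => by
    unfold ballF
    by_cases hz : z = σ
    · subst hz
      simp only [if_pos h]
    · simp only [if_neg hz, add_zero]
  unfold ballW
  simp only [h1, sum_add_distrib, sum_ite_eq', mem_univ, if_true]

/-- the token loss of the points near `σ` drops -/
theorem tok_drop (hp : p.Hyp X (n + 1)) (hν : ∀ z, 0 < ν z) {j : ℕ} (hj1 : 1 ≤ j) (hj : j ≤ p.G)
    {y : X} (hy : dist y σ ≤ j * p.r n / (10 * p.G)) :
    Real.log 2 * ((j : ℝ) ^ 2 / (5 * (p.G : ℝ) ^ 2)) ≤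
      tok p n ν y - tok p n (fun z => ν z + if z = σ then ballW ν σ (p.rad n j) else 0) y := by
  have hr := hp.r0_pos
  have hG := hp.G_pos
  have hG' : (1 : ℝ) ≤ p.G := by exact_mod_cast hG
  have hj' : (j : ℝ) ≤ p.G := by exact_mod_cast hj
  have hj0 : (1 : ℝ) ≤ j := by exact_mod_cast hj1
  have hrn := p.r_pos hr n
  have h0 : ∀ z, 0 ≤ ν z := fun z => (hν z).le
  obtain ⟨h, hh⟩ : ∃ h, h = p.r n / (2 * p.G) := ⟨_, rfl⟩
  have hh0 : 0 < h := by rw [hh]; positivity
  have hy1 : dist y σ ≤ j * h / 5 := hy.trans (le_of_eq (by rw [hh]; field_simp; ring))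
  have hGh : p.G * h = p.r n / 2 := by rw [hh]; field_simp
  have hy2 : dist y σ ≤ p.r n / 2 := by nlinarith
  have hy3 : dist y σ ≤ (j / 3 : ℕ) * h := by
    rcases lt_or_ge j 3 with h3 | h3
    · have h4 : (j : ℝ) ≤ 2 := by exact_mod_cast Nat.lt_succ_iff.1 h3
      have h5 : h ≤ p.r0 := by
        rw [hh, div_le_iff₀ (by positivity)]
        linarith [hp.fine n (Nat.lt_succ_self n)]
      rw [hp.sep y σ (by nlinarith), dist_self]
      positivity
    · have h4 : (j : ℝ) ≤ 5 * (j / 3 : ℕ) := by exact_mod_cast (by omega : j ≤ 5 * (j / 3))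
      nlinarith
  have hterm : ∀ k ∈ range p.G, p.om (k + 1) * (if k < j - j / 3 then Real.log 2 else 0) ≤
      p.om (k + 1) * (Real.log (ballW (fun z => ν z + if z = σ then ballW ν σ (p.rad n j) else 0) y
        (p.rad n (k + 1))) - Real.log (ballW ν y (p.rad n (k + 1)))) := by
    intro k hk
    have hb := (rad_bounds (n := n) hr hG (Nat.succ_le_of_lt (mem_range.1 hk))).1
    have hpos : 0 < ballW ν y (p.rad n (k + 1)) := ballW_pos h0 (hν y) (by linarith)
    have hZ : 0 < ballW ν σ (p.rad n j) :=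
      ballW_pos h0 (hν σ) (by linarith [(rad_bounds (n := n) hr hG hj).1])
    refine mul_le_mul_of_nonneg_left ?_ (om_nonneg _)
    rw [ballW_add ν _ (hy2.trans hb), le_sub_iff_add_le]
    split_ifs with hk'
    · rw [← Real.log_mul two_ne_zero hpos.ne']
      refine Real.log_le_log (by positivity) ?_
      have h6 : ballW ν y (p.rad n (k + 1)) ≤ ballW ν σ (p.rad n j) := by
        refine ballW_mono h0 fun z hz => ⟨?_, le_rfl⟩
        have h7 := dist_triangle_left σ z y
        have h8 : ((k + 1 : ℕ) : ℝ) + (j / 3 : ℕ) ≤ j := by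
          exact_mod_cast (by omega : k + 1 + j / 3 ≤ j)
        have h9 := mul_le_mul_of_nonneg_right h8 hh0.le
        unfold Par.rad at hz ⊢
        rw [← hh] at hz ⊢
        linarith
      linarith
    · rw [zero_add]
      exact Real.log_le_log hpos (by linarith)
  have hs := sum_le_sum hterm
  have e1 : ∑ k ∈ range p.G, p.om (k + 1) * (if k < j - j / 3 then Real.log 2 else 0) =
      (∑ k ∈ range (j - j / 3), p.om (k + 1)) * Real.log 2 := by
    simp only [mul_ite, mul_zero]
    rw [← sum_filter, sum_mul]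
    refine sum_congr ?_ fun _ _ => rfl
    ext k
    simp only [mem_filter, mem_range]
    omega
  rw [e1, sum_om_range] at hs
  have e2 : (j : ℝ) ^ 2 / (5 * (p.G : ℝ) ^ 2) ≤
      ((j - j / 3 : ℕ) : ℝ) * (((j - j / 3 : ℕ) : ℝ) + 1) / (p.G * (p.G + 1)) := by
    have h4 : 2 * (j : ℝ) ≤ 3 * ((j - j / 3 : ℕ) : ℝ) := by
      exact_mod_cast (by omega : 2 * j ≤ 3 * (j - j / 3))
    obtain ⟨i, hi⟩ : ∃ i : ℝ, i = ((j - j / 3 : ℕ) : ℝ) := ⟨_, rfl⟩
    rw [← hi] at h4 ⊢
    rw [div_le_div_iff₀ (by positivity) (by positivity)]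
    have h5 : 4 * (j : ℝ) ^ 2 ≤ 9 * (i * (i + 1)) := by nlinarith
    have h6 : (p.G : ℝ) * (p.G + 1) ≤ 2 * (p.G : ℝ) ^ 2 := by nlinarith
    have h7 : (j : ℝ) ^ 2 * (p.G * (p.G + 1)) ≤ (j : ℝ) ^ 2 * (2 * (p.G : ℝ) ^ 2) :=
      mul_le_mul_of_nonneg_left h6 (by positivity)
    have h8 := mul_le_mul_of_nonneg_right h5 (show 0 ≤ (p.G : ℝ) ^ 2 by positivity)
    have h9 : 0 ≤ (j : ℝ) ^ 2 * (p.G : ℝ) ^ 2 := by positivity
    linarith
  have e3 := mul_le_mul_of_nonneg_left e2 (Real.log_nonneg one_le_two)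
  unfold tok
  simp only [mul_sub, sum_sub_distrib] at hs
  linarith

end AddAux

open AddAux Dom

theorem Sit.add_w {D : Dom X (n + 1)} (h : Sit p t σ c m D) (hD : D.heir.isSome) {l : ℕ}
    (hl : l < n + 1) :
    Real.log (c.Wr l + D.w l) - Real.log (D.w l) ≤
      Real.log 2 + Real.log c.mG - Real.log (∑ y, m y) := by
  have hr := h.hyp.r0_pos
  have hG := h.hyp.G_pos
  have hw := h.vc.1.1
  have hν := h.vc.1.2.1
  have hM : m σ ≤ ∑ y, m y := single_le_sum (fun y _ => h.m_nonneg y) (mem_univ σ)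
  have h1 := test h (w := Function.update D.w l (2 * D.w l)) (fun k => by
    by_cases hk : k = l
    · subst hk
      rw [Function.update_self]
      linarith [hw k]
    · rw [Function.update_of_ne hk]
      exact hw k) hν (a0_pos h.vc.1)
  have h2 : ∀ y, dwin p n D.nu y D.nu y = 0 := fun y =>
    dwin_congr hr hG (fun z => (hν z).le) (hν y) fun _ _ => rfl
  have h3 : (fun k => c.Wr k + Function.update D.w l (2 * D.w l) k) =
      Function.update (fun k => c.Wr k + D.w k) l (c.Wr l + D.w l + D.w l) := by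
    funext k
    by_cases hk : k = l
    · subst hk
      simp only [Function.update_self]
      ring
    · simp only [Function.update_of_ne hk]
  rw [obj_w hD, h3, nrm_update _ hl, nrm_update _ hl, Real.log_mul two_ne_zero (hw l).ne'] at h1
  simp only [h2, zero_mul, mul_zero, sum_const_zero, add_zero, add_sub_cancel_left,
    add_sub_cancel_right] at h1
  exact fin (add_pos_of_nonneg_of_pos (h.Wr_nonneg l hl) (hw l)) (hw l) h.mG_pos
    (h.mσ_pos.trans_le hM) (p.r_pos hr l) (by exact_mod_cast hG) h.tol.η_nonneg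
    (eta_le h (h.κ_le.trans hM) l) h1

theorem Sit.add_top {D : Dom X (n + 1)} (h : Sit p t σ c m D) {z : X}
    (hz : 0 < D.tb p (some (some z)) σ) :
    Real.log (Dom.gW c D n) - Real.log ((D.top z).elim 1 Prod.fst) ≤
      Real.log 2 + Real.log (Dom.gM p c m D) - Real.log (∑ y, Dom.mb p m D (some (some z)) y) := by
  have hr := h.hyp.r0_pos
  have hG := h.hyp.G_pos
  have hν := h.vc.1.2.1
  have ha := a0_pos h.vc.1
  obtain ⟨q, hq⟩ := Option.isSome_iff_exists.1 (show (D.top z).isSome from pres_of_pos hz)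
  have hM : mb p m D (some (some z)) σ ≤ ∑ y, mb p m D (some (some z)) y :=
    single_le_sum (f := mb p m D (some (some z)))
      (fun y _ => mul_nonneg (h.m_nonneg y) (h.vc.1.tb_nonneg hr _ y)) (mem_univ σ)
  have hκ := (h.κ_le_mb hz).trans hM
  obtain ⟨a, hae⟩ : ∃ a : X → ℝ, a = fun z' => a0 D z' + if z' = z then a0 D z else 0 := ⟨_, rfl⟩
  have h1 := test h (a := a) h.vc.1.1 hν fun z' => by
    rw [hae]
    have := ha z'
    have := ha z
    dsimp only
    split_ifs <;> linarith
  have h2 : ∀ y, dwin p n D.nu y D.nu y = 0 := fun y =>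
    dwin_congr hr hG (fun z => (hν z).le) (hν y) fun _ _ => rfl
  have h3 := obj_level (t := t) (c := c) (m := m) hr hG D D.nu a
  change obj p t c m (st D D.w D.nu a) - _ = ∑ y, m y * ∑ b, D.tb p b y *
    ((st D D.w D.nu a).lv0 p b y - _) + _ * (_ * (Real.log (gW c (st D D.w D.nu a) n) - _)) at h3
  have h4 : gW c (st D D.w D.nu a) n = gW c D n + a0 D z := by
    rw [gW_st]
    have h5 : ∀ z', ((D.top z').elim 0 fun q => a z' - q.1) = if z' = z then a0 D z else 0 := by
      intro z'
      rw [hae]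
      by_cases hz' : z' = z
      · subst hz'
        simp [a0, hq]
      · cases hz'' : D.top z' <;> simp [a0, hz', hz'']
    simp [h5]
  have h5 : ∀ y b, (st D D.w D.nu a).lv0 p b y - D.lv0 p b y =
      if b = some (some z) then -(K0 * p.r n * Real.log 2) else 0 := by
    intro y b
    rcases b with _ | _ | z'
    · exact sub_self _
    · exact sub_self _
    · change -(K0 * p.r n * Real.log (((st D D.w D.nu a).top z').elim 1 Prod.fst)) -
        -(K0 * p.r n * Real.log ((D.top z').elim 1 Prod.fst)) = _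
      rw [st_top, hae]
      by_cases hz' : z' = z
      · subst hz'
        have h6 := ha z'
        simp only [a0, hq, Option.elim_some, Option.map_some, if_true] at h6 ⊢
        rw [← two_mul, Real.log_mul two_ne_zero h6.ne']
        ring
      · cases hz'' : D.top z' <;> simp [a0, hz', hz'']
  have h6 : ∑ y, m y * ∑ b, D.tb p b y * ((st D D.w D.nu a).lv0 p b y - D.lv0 p b y) =
      -((∑ y, mb p m D (some (some z)) y) * (K0 * p.r n * Real.log 2)) := by
    simp only [h5, mul_ite, mul_zero, sum_ite_eq', mem_univ, if_true]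
    rw [sum_mul, ← sum_neg_distrib]
    refine sum_congr rfl fun y _ => ?_
    unfold mb
    ring
  rw [h3, h4, h6] at h1
  simp only [h2, zero_mul, mul_zero, sum_const_zero, add_zero] at h1
  exact fin (gW_pos h) (ha z) (h.gM_pos (by simp) hz) (h.tol.κ_pos.trans_le hκ) (p.r_pos hr n)
    (by exact_mod_cast hG) h.tol.η_nonneg (eta_le h hκ n) h1

theorem Sit.add_tok {D : Dom X (n + 1)} (h : Sit p t σ c m D) (hσ : 0 < D.tb p none σ) {j : ℕ}
    (hj1 : 1 ≤ j) (hj : j ≤ p.G) :
    Real.log (Dom.gW c D n) - Real.log (ballW D.nu σ (p.rad n j)) ≤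
      2 + Real.log (Dom.gM p c m D) + Real.log (5 * (p.G : ℝ) ^ 2 / (j : ℝ) ^ 2) +
        ell (Dom.mb p m D none) σ (j * p.r n / (10 * p.G)) := by
  have hr := h.hyp.r0_pos
  have hG := h.hyp.G_pos
  have hG' : (1 : ℝ) ≤ p.G := by exact_mod_cast hG
  have hj0 : (1 : ℝ) ≤ j := by exact_mod_cast hj1
  have hrn := p.r_pos hr n
  have hν := h.vc.1.2.1
  have h0 : ∀ z, 0 ≤ D.nu z := fun z => (hν z).le
  have hmb : ∀ y, 0 ≤ mb p m D none y := fun y =>
    mul_nonneg (h.m_nonneg y) (h.vc.1.tb_nonneg hr _ y)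
  have hdrop := fun y => tok_drop (σ := σ) (y := y) h.hyp hν hj1 hj
  have hZ : 0 < ballW D.nu σ (p.rad n j) :=
    ballW_pos h0 (hν σ) (by linarith [(rad_bounds (n := n) hr hG hj).1])
  obtain ⟨Z, hZe⟩ : ∃ Z, Z = ballW D.nu σ (p.rad n j) := ⟨_, rfl⟩
  rw [← hZe] at hZ hdrop ⊢
  obtain ⟨ν, hνe⟩ : ∃ ν : X → ℝ, ν = fun z => D.nu z + if z = σ then Z else 0 := ⟨_, rfl⟩
  rw [← hνe] at hdrop
  have hle : ∀ z, D.nu z ≤ ν z := fun z => by
    rw [hνe]
    dsimp only
    split_ifs <;> linarith
  have h1 := test h (ν := ν) h.vc.1.1 (fun z => (hν z).trans_le (hle z)) (a0_pos h.vc.1)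
  have h3 := obj_level (t := t) (c := c) (m := m) hr hG D ν (a0 D)
  change obj p t c m (st D D.w ν (a0 D)) - _ = ∑ y, m y * ∑ b, D.tb p b y *
    ((st D D.w ν (a0 D)).lv0 p b y - _) +
      _ * (_ * (Real.log (gW c (st D D.w ν (a0 D)) n) - _)) at h3
  have h4 : gW c (st D D.w ν (a0 D)) n = gW c D n + Z := by
    rw [gW_st]
    have h5 : ∀ z', ((D.top z').elim 0 fun q => a0 D z' - q.1) = 0 := by
      intro z'
      cases hz'' : D.top z' <;> simp [a0, hz'']
    simp [h5, hνe]
  have h5 : ∀ y b, (st D D.w ν (a0 D)).lv0 p b y - D.lv0 p b y =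
      if b = none then -(K0 * p.r n * (tok p n D.nu y - tok p n ν y)) else 0 := by
    intro y b
    rcases b with _ | _ | z'
    · change K0 * p.r n * tok p n ν y - K0 * p.r n * tok p n D.nu y = _
      rw [if_pos rfl]
      ring
    · exact sub_self _
    · change -(K0 * p.r n * Real.log (((st D D.w ν (a0 D)).top z').elim 1 Prod.fst)) -
        -(K0 * p.r n * Real.log ((D.top z').elim 1 Prod.fst)) = _
      rw [st_top, map_a0]
      exact sub_self _
  obtain ⟨ρ, hρ⟩ : ∃ ρ, ρ = j * p.r n / (10 * p.G) := ⟨_, rfl⟩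
  have hρ0 : 0 ≤ ρ := by rw [hρ]; positivity
  rw [← hρ] at hdrop ⊢
  obtain ⟨u, hu⟩ : ∃ u, u = (j : ℝ) ^ 2 / (5 * (p.G : ℝ) ^ 2) := ⟨_, rfl⟩
  have hu0 : 0 < u := by rw [hu]; positivity
  rw [← hu] at hdrop
  have h6 : ∑ y, m y * ∑ b, D.tb p b y * ((st D D.w ν (a0 D)).lv0 p b y - D.lv0 p b y) +
      ∑ y, mb p m D none y * (dwin p n D.nu y ν y * (4 * p.r n)) ≤
      -(Mb (mb p m D none) σ ρ * (4 * p.r n * (Real.log 2 * u))) := by
    simp only [h5, mul_ite, mul_zero, sum_ite_eq', mem_univ, if_true]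
    unfold Mb
    rw [sum_mul, ← sum_neg_distrib, ← sum_add_distrib]
    refine sum_le_sum fun y _ => ?_
    have h7 := dwin_le_tok (n := n) hr hG h0 (hν y) hle
    have h8 : tok p n ν y ≤ tok p n D.nu y := tok_anti hr hG h0 (hν y) fun z _ => hle z
    have h9 : (if dist y σ ≤ ρ then mb p m D none y else 0) * (Real.log 2 * u) ≤
        mb p m D none y * (tok p n D.nu y - tok p n ν y) := by
      split_ifs with hy
      · exact mul_le_mul_of_nonneg_left (hdrop y hy) (hmb y)
      · rw [zero_mul]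
        exact mul_nonneg (hmb y) (sub_nonneg.2 h8)
    have h10 := mul_le_mul_of_nonneg_left h7 (hmb y)
    have h11 := mul_le_mul_of_nonneg_left h9 hrn.le
    have h12 := mul_le_mul_of_nonneg_left h10 hrn.le
    have h13 : m y * D.tb p none y = mb p m D none y := rfl
    rw [← mul_assoc, h13]
    unfold K0
    linarith
  have hκ : t.κ ≤ Mb (mb p m D none) σ ρ := (h.κ_le_mb hσ).trans (le_Mb hmb hρ0)
  have hη := eta_le h hκ n
  have hM := h.tol.κ_pos.trans_le hκ
  have hg := h.gM_pos (by simp) hσ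
  have hW := gW_pos h
  unfold ell
  rw [h3, h4] at h1
  generalize Mb (mb p m D none) σ ρ = M at *
  generalize gM p c m D = g at *
  generalize gW c D n = W at *
  have h7 : g * (K0 * p.r n * (Real.log (W + Z) - Real.log W)) ≤ g * (K0 * p.r n * (Z / W)) := by
    have := log_add_le hW hZ.le
    unfold K0
    gcongr
  have h8 : t.η * 64 ≤ 5 * (M * p.r n * u) := by
    have e : 5 * (M * p.r n * u) = M * p.r n * (j : ℝ) ^ 2 / (p.G : ℝ) ^ 2 := by
      rw [hu]
      field_simp
    have h9 : (1 : ℝ) ≤ (j : ℝ) ^ 2 := one_le_pow₀ hj0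
    have h10 : M * p.r n ≤ M * p.r n * (j : ℝ) ^ 2 := le_mul_of_one_le_right (by positivity) h9
    rw [e, le_div_iff₀ (by positivity)]
    linarith
  have h9 := Real.log_two_gt_d9
  have h10 : 0 < M * p.r n * u := by positivity
  have h11 : p.r n * (M * u) ≤ p.r n * (4 * g * (Z / W)) := by
    unfold K0 at h1 h7
    nlinarith
  have h12 := Real.log_le_log (by positivity) (le_of_mul_le_mul_left h11 hrn)
  rw [Real.log_mul hM.ne' hu0.ne', Real.log_mul (by positivity) (by positivity),
    Real.log_mul (by positivity) hg.ne', Real.log_div hZ.ne' hW.ne'] at h12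
  have h13 : Real.log (5 * (p.G : ℝ) ^ 2 / (j : ℝ) ^ 2) = -Real.log u := by
    rw [← Real.log_inv, hu, inv_div]
  have h14 : Real.log 4 ≤ 2 := by
    have e : Real.log 4 = 2 * Real.log 2 := by
      rw [show (4 : ℝ) = 2 ^ 2 by norm_num, Real.log_pow]
      norm_num
    linarith [Real.log_two_lt_d9]
  linarith

end Crest.Agent.R314
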