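import Crest.Prelude.Def_KServer

/-!
Row 314 (k-server, `O(log² k)`).  Basic notions shared by the reduction (module A) and the core.
-/

set_option autoImplicit false
open Crest.LogicCS.KServer

namespace Crest.Agent.R314

variable {X : Type*} [MetricSpace X] {k : ℕ}

/-- Cost of the deterministic online algorithm `a` (a function of the list of revealed requests,
earliest first, ending with the request now to be served) started from `c`. -/
def dcost : (List X → Fin k) → (Fin k → X) → List X → ℝ
  | _, _, [] => 0
  | a, c, x :: σ =>
      dist (c (a [x])) x + dcost (fun l => a (x :: l)) (Function.update c (a [x]) x) σ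

/-- The Bayesian (distributional) bound on finite metric spaces: for every finite prior on
(request sequence, offline service) pairs some deterministic algorithm is `C log²(k+1)`-competitive
in expectation, up to an additive constant that depends on the space and the start only. -/
def BayesBound (C : ℝ) : Prop :=
  ∀ (k : ℕ), 2 ≤ k → ∀ (X : Type) [MetricSpace X] [Fintype X] (s : Fin k → X), ∃ B : ℝ,
    ∀ (Θ : Type) [Fintype Θ] (β : Θ → ℝ) (w : Θ → List (X × Fin k)),
      (∀ θ, 0 ≤ β θ) → ∑ θ, β θ = 1 →
      ∃ a : List X → Fin k,
        ∑ θ, β θ * dcost a s ((w θ).map Prod.fst) ≤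
          C * Real.log (k + 1) ^ 2 * ∑ θ, β θ * pathCost s (w θ) + B

end Crest.Agent.R314
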