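import Crest.Agent.R314.ECtx

/-! Module C: exponential clocks. -/

set_option autoImplicit false
set_option linter.unusedSectionVars false

namespace Crest.Agent.R314

open Finset MeasureTheory ProbabilityTheory

variable {X : Type} [Fintype X] [DecidableEq X]

instance Pclk.prob : IsProbabilityMeasure (Pclk X) := by
  have := isProbabilityMeasure_expMeasure (r := 1) one_pos
  unfold Pclk
  infer_instance

theorem pick_spec (P : X → Prop) (h : ∃ z, P z) (y : X) : P (pick P y) := by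
  rw [pick, dif_pos h]
  exact Classical.choose_spec h

theorem pick_of_not (P : X → Prop) (h : ¬ ∃ z, P z) (y : X) : pick P y = y := by
  rw [pick, dif_neg h]

/-- `pick` of a measurably parametrised predicate is measurable -/
theorem measurableSet_pick {Ω : Type} [MeasurableSpace Ω] (P : Ω → X → Prop)
    (hP : ∀ z, MeasurableSet {ω | P ω z}) (y z : X) : MeasurableSet {ω | pick (P ω) y = z} := by
  have h : Measurable P := measurable_pi_lambda _ fun z => measurableSet_setOfPred.1 (hP z)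
  exact h (Set.toFinite {Q : X → Prop | pick Q y = z}).measurableSet

theorem win_spec (w E : X → ℝ) (y : X) : win w E y = y ∨ 0 < w (win w E y) := by
  by_cases h : ∃ z, IsWin w E z
  · exact Or.inr (pick_spec _ h y).1
  · exact Or.inl (pick_of_not _ h y)

theorem measurableSet_win (w : X → ℝ) (y z : X) : MeasurableSet {E : X → ℝ | win w E y = z} := by
  refine measurableSet_pick (fun E => IsWin w E) (fun z => ?_) y z
  unfold IsWin
  measurability

theorem Clock_Ioi {c : ℝ} (hc : 0 ≤ c) :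
    expMeasure 1 (Set.Ioi c) = ENNReal.ofReal (Real.exp (-c)) := by
  have := isProbabilityMeasure_expMeasure (r := 1) one_pos
  have h := cdf_expMeasure_eq (r := 1) one_pos c
  rw [if_pos hc, cdf_eq_real, one_mul] at h
  have h2 := probReal_compl_eq_one_sub (μ := expMeasure 1) (measurableSet_Iic (a := c))
  rw [Set.compl_Iic, h, sub_sub_cancel] at h2
  rw [← h2, ofReal_measureReal]

theorem Clock_lint {a : ℝ} (ha : 0 ≤ a) :
    ∫⁻ t, (if 0 ≤ t then ENNReal.ofReal (Real.exp (-(t * a))) else 0) ∂expMeasure 1 =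
      ENNReal.ofReal (1 + a)⁻¹ := by
  have h1 : 0 < 1 + a := by linarith
  have hm : Measurable (exponentialPDF 1) := (measurable_exponentialPDFReal 1).ennreal_ofReal
  have e : expMeasure 1 = volume.withDensity (exponentialPDF 1) := rfl
  rw [e, lintegral_withDensity_eq_lintegral_mul _ hm
    (Measurable.ite measurableSet_Ici (by fun_prop) measurable_const),
    ← mul_one (ENNReal.ofReal (1 + a)⁻¹), ← lintegral_exponentialPDF_eq_one h1,
    ← lintegral_const_mul' _ _ ENNReal.ofReal_ne_top]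
  refine lintegral_congr fun t => ?_
  by_cases ht : 0 ≤ t
  · change exponentialPDF 1 t * (if 0 ≤ t then _ else _) = _
    rw [if_pos ht, exponentialPDF_of_nonneg ht, exponentialPDF_of_nonneg ht,
      ← ENNReal.ofReal_mul (by positivity), ← ENNReal.ofReal_mul (by positivity), one_mul,
      ← Real.exp_add, ← mul_assoc, inv_mul_cancel₀ h1.ne', one_mul]
    congr 2
    ring_nf
  · change exponentialPDF 1 t * (if 0 ≤ t then _ else _) = _
    rw [if_neg ht, exponentialPDF_of_neg (r := 1 + a) (not_le.1 ht), mul_zero, mul_zero]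

theorem Clock_meas (M : X → ℝ) (m : ℝ) (z : X) :
    MeasurableSet {E : X → ℝ | 0 ≤ E z ∧ ∀ z', z' ≠ z → E z * M z' < E z' * m} := by
  measurability

theorem Clock_prob (M : X → ℝ) (hM : ∀ z, 0 ≤ M z) {m : ℝ} (hm : 0 < m) (z : X) :
    Pclk X {E | 0 ≤ E z ∧ ∀ z', z' ≠ z → E z * M z' < E z' * m} =
      ENNReal.ofReal (1 + (∑ i : {i // ¬ i = z}, M i) / m)⁻¹ := by
  have := isProbabilityMeasure_expMeasure (r := 1) one_pos
  let : Fintype {i // i = z} := Subtype.fintype _
  have h := measurePreserving_piEquivPiSubtypeProd (fun _ : X => expMeasure 1) (· = z)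
  have hB : MeasurableSet {q : ({i // i = z} → ℝ) × ({i // ¬ i = z} → ℝ) |
      0 ≤ q.1 ⟨z, rfl⟩ ∧ ∀ i : {i // ¬ i = z}, q.1 ⟨z, rfl⟩ * M i < q.2 i * m} := by
    measurability
  have h1 := h.measure_preimage hB.nullMeasurableSet
  have e : {E : X → ℝ | 0 ≤ E z ∧ ∀ z', z' ≠ z → E z * M z' < E z' * m} =
      MeasurableEquiv.piEquivPiSubtypeProd (fun _ : X => ℝ) (· = z) ⁻¹'
        {q | 0 ≤ q.1 ⟨z, rfl⟩ ∧ ∀ i : {i // ¬ i = z}, q.1 ⟨z, rfl⟩ * M i < q.2 i * m} := by
    ext E
    exact and_congr Iff.rfl ⟨fun h i => h i.1 i.2, fun h i hi => h ⟨i, hi⟩⟩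
  rw [Pclk, e, h1, Measure.prod_apply hB,
    ← Clock_lint (div_nonneg (sum_nonneg fun i _ => hM _) hm.le),
    ← (measurePreserving_eval (fun _ : {i // i = z} => expMeasure 1) ⟨z, rfl⟩).lintegral_comp
      (Measurable.ite measurableSet_Ici (by fun_prop) measurable_const)]
  refine lintegral_congr fun a => ?_
  change _ = if 0 ≤ a ⟨z, rfl⟩ then _ else _
  split_ifs with ha
  · have e1 : Prod.mk a ⁻¹' {q : ({i // i = z} → ℝ) × ({i // ¬ i = z} → ℝ) |
        0 ≤ q.1 ⟨z, rfl⟩ ∧ ∀ i : {i // ¬ i = z}, q.1 ⟨z, rfl⟩ * M i < q.2 i * m} =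
        Set.univ.pi fun i : {i // ¬ i = z} => Set.Ioi (a ⟨z, rfl⟩ * M i / m) := by
      ext b
      simp only [Set.mem_preimage, Set.mem_ofPred_eq, ha, true_and, Set.mem_pi, Set.mem_univ,
        true_imp_iff, Set.mem_Ioi, div_lt_iff₀ hm]
    rw [e1, Measure.pi_pi, prod_congr rfl fun i _ =>
      Clock_Ioi (div_nonneg (mul_nonneg ha (hM _)) hm.le),
      ← ENNReal.ofReal_prod_of_nonneg fun i _ => (Real.exp_pos _).le, ← Real.exp_sum]
    congr 2
    simp only [Function.eval, sum_neg_distrib, sum_div, mul_sum, mul_div_assoc]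
  · have e1 : Prod.mk a ⁻¹' {q : ({i // i = z} → ℝ) × ({i // ¬ i = z} → ℝ) |
        0 ≤ q.1 ⟨z, rfl⟩ ∧ ∀ i : {i // ¬ i = z}, q.1 ⟨z, rfl⟩ * M i < q.2 i * m} = ∅ :=
      Set.eq_empty_of_forall_notMem fun b hb => ha hb.1
    rw [e1, measure_empty]

theorem Clock_win {w M E : X → ℝ} (hw : ∀ z, 0 ≤ w z) (hM : ∀ z, w z ≤ M z) {m : ℝ} (hm : 0 < m)
    {z : X} (hz : m ≤ w z) (h0 : 0 ≤ E z) (h : ∀ z', z' ≠ z → E z * M z' < E z' * m) (y : X) :
    win w E y = z := by
  have key : ∀ z', z' ≠ z → E z * w z' < E z' * w z := fun z' hz' => by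
    have h1 := mul_le_mul_of_nonneg_left (hM z') h0
    have h2 := h z' hz'
    have h3 : 0 < E z' * m := (mul_nonneg h0 (hw z')).trans_lt (h1.trans_lt h2)
    have h4 := mul_le_mul_of_nonneg_left hz ((pos_iff_pos_of_mul_pos h3).2 hm).le
    linarith
  have h1 : IsWin w E z := ⟨hm.trans_le hz, fun z' => by
    by_cases e : z' = z
    · rw [e]
    · exact (key z' e).le⟩
  by_contra hne
  exact (key _ hne).not_ge ((pick_spec _ ⟨z, h1⟩ y).2 z)

theorem prob_win_ne (w w' : X → ℝ) (hw : ∀ z, 0 ≤ w z) (hw' : ∀ z, 0 ≤ w' z) (y y' : X) :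
    (Pclk X).real {E | win w E y ≠ win w' E y'} ≤
      1 - (∑ z, min (w z) (w' z)) / ∑ z, max (w z) (w' z) := by
  have hM : ∀ z, 0 ≤ max (w z) (w' z) := fun z => (hw z).trans (le_max_left _ _)
  set A : X → Set (X → ℝ) := fun z => {E | 0 < min (w z) (w' z)} ∩
    {E | 0 ≤ E z ∧ ∀ z', z' ≠ z → E z * max (w z') (w' z') < E z' * min (w z) (w' z)} with hA
  have mA : ∀ z, MeasurableSet (A z) := fun z =>
    (MeasurableSet.const _).inter (Clock_meas (fun z => max (w z) (w' z)) _ z)
  have a1 : ∀ z, ∀ E ∈ A z, win w E y = z := fun z E hE =>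
    Clock_win hw (fun z => le_max_left _ _) hE.1 (min_le_left _ _) hE.2.1 hE.2.2 y
  have a2 : ∀ z, ∀ E ∈ A z, win w' E y' = z := fun z E hE =>
    Clock_win hw' (fun z => le_max_right _ _) hE.1 (min_le_right _ _) hE.2.1 hE.2.2 y'
  have hd : Pairwise (Function.onFun Disjoint A) := fun z z' hz =>
    Set.disjoint_left.2 fun E h1 h2 => hz ((a1 z E h1).symm.trans (a1 z' E h2))
  have hs : {E | win w E y ≠ win w' E y'} ⊆ (⋃ z, A z)ᶜ := fun E hE h => by
    obtain ⟨z, hz⟩ := Set.mem_iUnion.1 h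
    exact hE ((a1 z E hz).trans (a2 z E hz).symm)
  refine (measureReal_mono hs).trans ?_
  rw [probReal_compl_eq_one_sub (MeasurableSet.iUnion mA), measureReal_iUnion_fintype hd mA,
    sum_div]
  refine sub_le_sub_left (sum_le_sum fun z _ => ?_) 1
  rcases (le_min (hw z) (hw' z)).eq_or_lt with h0 | h0
  · rw [← h0, zero_div]
    exact measureReal_nonneg
  · have e : A z = {E | 0 ≤ E z ∧
        ∀ z', z' ≠ z → E z * max (w z') (w' z') < E z' * min (w z) (w' z)} :=
      Set.ext fun E => and_iff_right h0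
    have hS : 0 ≤ ∑ i : {i // ¬ i = z}, max (w i) (w' i) := sum_nonneg fun i _ => hM _
    rw [e, Measure.real, Clock_prob (fun z => max (w z) (w' z)) hM h0,
      ENNReal.toReal_ofReal (by positivity), Fintype.sum_eq_add_sum_subtype_ne _ z,
      one_add_div h0.ne', inv_div]
    exact div_le_div_of_nonneg_left h0.le (by positivity) (add_le_add min_le_max le_rfl)

end Crest.Agent.R314
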