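import Crest.Agent.R314.Emb

/-! Module C: one-level recursions for the expected distances. -/

set_option autoImplicit false

namespace Crest.Agent.R314

open Finset MeasureTheory ProbabilityTheory

variable {X : Type} [MetricSpace X] [Fintype X] [DecidableEq X] [Nonempty X] {p : Par} {n : ℕ}

theorem Rec_near {Λ : Type} {r0 : ℝ} (hr : 0 < r0) : ∀ {n : ℕ} (H H' : HT Λ X n) (y a a' : X),
    Near r0 H y a → Near r0 H' y a' →
      max (dist a a') (anc (H.lab y) (H'.lab y)) ≤ 2 * rr r0 n
  | 0, _, _, y, a, a', h, h' => by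
    refine max_le ((dist_triangle_left a a' y).trans ?_) (mul_pos two_pos (rr_pos hr 0)).le
    linarith [show dist y a ≤ rr r0 0 from h, show dist y a' ≤ rr r0 0 from h']
  | n + 1, H, H', y, a, a', h, h' => by
    refine max_le ((dist_triangle_left a a' y).trans (by linarith [h.1, h'.1])) ?_
    exact (Rec_near hr _ _ y _ _ h.2 h'.2).trans (by linarith [rr_mono hr (Nat.le_succ n)])

theorem Rec_Pidx (m : Fin p.G) : Pidx p {m} = ENNReal.ofReal (p.om (m.val + 1)) := by
  rw [Pidx, Measure.finsetSum_apply, Finset.sum_eq_single m]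
  · simp
  · intro m' _ hm
    simp [hm]
  · simp

theorem Rec_Pidx_prob (hG : 1 ≤ p.G) : IsProbabilityMeasure (Pidx p) := by
  refine ⟨?_⟩
  rw [Pidx, Measure.finsetSum_apply]
  simp only [Measure.smul_apply, measure_univ, smul_eq_mul, mul_one]
  rw [← ENNReal.ofReal_sum_of_nonneg fun m _ => om_nonneg _,
    Fin.sum_univ_eq_sum_range fun m => p.om (m + 1), sum_om hG, ENNReal.ofReal_one]

theorem Rec_meas_win (w w' : X → ℝ) (y y' : X) :
    MeasurableSet {E : X → ℝ | win w E y ≠ win w' E y'} := by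
  have : {E : X → ℝ | win w E y ≠ win w' E y'} =
      ⋃ z, {E | win w E y = z} ∩ {E | win w' E y' = z}ᶜ := by
    ext E
    simp [eq_comm]
  rw [this]
  exact MeasurableSet.iUnion fun z =>
    (measurableSet_win w y z).inter (measurableSet_win w' y' z).compl

/-- the token choices differ -/
def Rec_B (p : Par) (n : ℕ) (ν : X → ℝ) (y : X) (ν' : X → ℝ) (y' : X) :
    Set (Fin p.G × (X → ℝ)) :=
  ⋃ m : Fin p.G, {m} ×ˢ {E | win (ballF ν y (p.rad n (m.val + 1))) E y ≠
    win (ballF ν' y' (p.rad n (m.val + 1))) E y'}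

theorem Rec_B_le (hG : 1 ≤ p.G) {ν ν' : X → ℝ} (h : ∀ z, 0 ≤ ν z) (h' : ∀ z, 0 ≤ ν' z) (y y' : X) :
    ((Pidx p).prod (Pclk X)).real (Rec_B p n ν y ν' y') ≤ dwin p n ν y ν' y' := by
  have := Rec_Pidx_prob hG
  have hb : ∀ {ν : X → ℝ}, (∀ z, 0 ≤ ν z) → ∀ y ρ z, 0 ≤ ballF ν y ρ z := fun h y ρ z => by
    unfold ballF
    split_ifs
    exacts [h z, le_rfl]
  refine (measureReal_iUnion_fintype_le _).trans ?_
  rw [dwin, ← Fin.sum_univ_eq_sum_range fun m => p.om (m + 1) * _]
  refine Finset.sum_le_sum fun m _ => ?_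
  rw [measureReal_prod_prod, Measure.real, Rec_Pidx, ENNReal.toReal_ofReal (om_nonneg _)]
  exact mul_le_mul_of_nonneg_left (prob_win_ne _ _ (hb h _ _) (hb h' _ _) y y') (om_nonneg _)

namespace Dom

theorem Rec_br_some (hr : 0 < p.r0) {D : Dom X (n + 1)} (h : D.Valid p) {U : ℝ} (hU : 0 ≤ U)
    (y : X) (o : Option X) : D.br p U y = some o ↔ U < D.tb p (some o) y := by
  have hu : ∀ o o', U < D.tb p (some o) y → U < D.tb p (some o') y → o = o' := fun o o' h1 h2 =>
    h.mark_unique hr (hU.trans_lt h1) (hU.trans_lt h2)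
  unfold br
  split_ifs with h1 h2
  · exact ⟨fun e => Option.some.inj e ▸ h1, fun e => congrArg some (hu none o h1 e)⟩
  · have h3 := pick_spec _ h2 y
    exact ⟨fun e => Option.some.inj e ▸ h3, fun e => congrArg some (hu (some _) o h3 e)⟩
  · refine ⟨fun e => (nomatch e), fun e => ?_⟩
    cases o with
    | none => exact absurd e h1
    | some z => exact absurd ⟨z, e⟩ h2

theorem Rec_br_none (hr : 0 < p.r0) {D : Dom X (n + 1)} (h : D.Valid p) {U : ℝ} (hU : 0 ≤ U)
    (y : X) : D.br p U y = none ↔ 1 - D.tb p none y ≤ U := by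
  have h1 : 1 - D.tb p none y = ∑ o, D.tb p (some o) y := by
    rw [← D.sum_tb (p := p) y, Fintype.sum_option, add_sub_cancel_left]
  rw [h1, Option.eq_none_iff_forall_ne_some]
  simp only [Ne, Rec_br_some hr h hU, not_lt]
  refine ⟨fun h2 => ?_, fun h2 o => le_trans (Finset.single_le_sum
    (f := fun o => D.tb p (some o) y) (fun o _ => h.tb_nonneg hr _ y) (Finset.mem_univ o)) h2⟩
  by_cases h3 : ∃ o, 0 < D.tb p (some o) y
  · obtain ⟨o, ho⟩ := h3
    rw [Finset.sum_eq_single o (fun o' _ ho' => le_antisymm (not_lt.1 fun h4 =>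
      ho' (h.mark_unique hr h4 ho)) (h.tb_nonneg hr _ y)) (by simp)]
    exact h2 o
  · push Not at h3
    exact (Finset.sum_nonpos fun o _ => h3 o).trans hU

theorem Rec_vol (hr : 0 < p.r0) {D D' : Dom X (n + 1)} (h : D.Valid p) (h' : D'.Valid p)
    (y y' : X) (b : Br X) :
    (volume : Measure unitInterval).real ({U | D.br p U y = b} ∩ {U | D'.br p U y' = b}) =
      min (D.tb p b y) (D'.tb p b y') := by
  have h0 : 0 ≤ min (D.tb p b y) (D'.tb p b y') :=
    le_min (h.tb_nonneg hr b y) (h'.tb_nonneg hr b y')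
  have h1 : min (D.tb p b y) (D'.tb p b y') ≤ 1 := (min_le_left _ _).trans (h.tb_le_one hr b y)
  cases b with
  | none =>
    have : ({U | D.br p U y = none} ∩ {U | D'.br p U y' = none} : Set unitInterval) =
        Set.Ici ⟨1 - min (D.tb p none y) (D'.tb p none y'), by linarith, by linarith⟩ := by
      ext U
      simp only [Set.mem_inter_iff, Set.mem_ofPred_eq, Rec_br_none hr h U.2.1,
        Rec_br_none hr h' U.2.1, Set.mem_Ici, ← Subtype.coe_le_coe, ← max_sub_sub_left, max_le_iff]
    rw [this, Measure.real, unitInterval.volume_Ici, sub_sub_cancel, ENNReal.toReal_ofReal h0]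
  | some o =>
    have : ({U | D.br p U y = some o} ∩ {U | D'.br p U y' = some o} : Set unitInterval) =
        Set.Iio ⟨min (D.tb p (some o) y) (D'.tb p (some o) y'), h0, h1⟩ := by
      ext U
      simp only [Set.mem_inter_iff, Set.mem_ofPred_eq, Rec_br_some hr h U.2.1,
        Rec_br_some hr h' U.2.1, Set.mem_Iio, ← Subtype.coe_lt_coe, lt_min_iff]
    rw [this, Measure.real, unitInterval.volume_Iio, ENNReal.toReal_ofReal h0]

theorem Rec_main (hr : 0 < p.r0) (hG : 1 ≤ p.G) {D D' : Dom X (n + 1)} (h : D.Valid p)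
    (h' : D'.Valid p) (y y' : X) {Φ : Om1 p X → ℝ} (hΦ : Integrable Φ (P1 p X)) (v : Br X → ℝ)
    {c e : ℝ} (he : 0 ≤ e)
    (h1 : ∀ ω b, D.br p ω.1 y = b → D'.br p ω.1 y' = b → D.sym p ω y = D'.sym p ω y' → Φ ω ≤ v b)
    (h2 : ∀ ω, Φ ω ≤ c) (h3 : c ≤ v none + e) :
    ∫ ω, Φ ω ∂P1 p X ≤ ∑ b, min (D.tb p b y) (D'.tb p b y') * v b +
      (1 - ∑ b, min (D.tb p b y) (D'.tb p b y')) * c +
      min (D.tb p none y) (D'.tb p none y') * (dwin p n D.nu y D'.nu y' * e) := by
  have := Rec_Pidx_prob hG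
  have := P1_prob (X := X) hG
  let A : Br X → Set unitInterval := fun b => {U | D.br p U y = b} ∩ {U | D'.br p U y' = b}
  have hA : ∀ b, MeasurableSet (A b) := fun b =>
    (D.measurableSet_br y b).inter (D'.measurableSet_br y' b)
  have hA' : ∀ b, MeasurableSet (A b ×ˢ (Set.univ : Set (Fin p.G × (X → ℝ)))) := fun b =>
    (hA b).prod MeasurableSet.univ
  have hB : MeasurableSet (A none ×ˢ Rec_B p n D.nu y D'.nu y') := (hA none).prod
    (MeasurableSet.iUnion fun m => (measurableSet_singleton m).prod (Rec_meas_win _ _ _ _))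
  have hle : ∀ ω, Φ ω ≤ ∑ b, (A b ×ˢ Set.univ).indicator (fun _ => v b - c) ω + c +
      (A none ×ˢ Rec_B p n D.nu y D'.nu y').indicator (fun _ => e) ω := fun ω => by
    have hi : 0 ≤ (A none ×ˢ Rec_B p n D.nu y D'.nu y').indicator (fun _ => e) ω :=
      Set.indicator_nonneg (fun _ _ => he) ω
    rw [Finset.sum_eq_single (D.br p ω.1 y) (fun b _ hb => Set.indicator_of_notMem
      (fun hm => hb (Eq.symm hm.1.1)) _) (by simp)]
    by_cases hb : D'.br p ω.1 y' = D.br p ω.1 y
    · rw [Set.indicator_of_mem (show ω ∈ A (D.br p ω.1 y) ×ˢ Set.univ from ⟨⟨rfl, hb⟩, trivial⟩)]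
      by_cases hs : D.sym p ω y = D'.sym p ω y'
      · linarith [h1 ω _ rfl hb hs]
      · unfold sym at hs
        rw [hb] at hs
        rcases hq : D.br p ω.1 y with _ | _ | z
        · rw [hq] at hs hb
          rw [Set.indicator_of_mem (show ω ∈ A none ×ˢ Rec_B p n D.nu y D'.nu y' from
            ⟨⟨hq, hb⟩, Set.mem_iUnion.2 ⟨ω.2.1, rfl, fun e => hs (congrArg (some ∘ Sum.inr) e)⟩⟩)]
          linarith [h2 ω]
        · rw [hq] at hs
          exact absurd rfl hs
        · rw [hq] at hs
          exact absurd rfl hs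
    · rw [Set.indicator_of_notMem fun hm => hb hm.1.2]
      linarith [h2 ω]
  have i1 : ∀ b, Integrable ((A b ×ˢ Set.univ).indicator fun _ => v b - c) (P1 p X) := fun b =>
    (integrable_const _).indicator (hA' b)
  have i2 := integrable_finsetSum Finset.univ fun b _ => i1 b
  have i3 : Integrable ((A none ×ˢ Rec_B p n D.nu y D'.nu y').indicator fun _ => e) (P1 p X) :=
    (integrable_const _).indicator hB
  refine (integral_mono hΦ ((i2.add (integrable_const c)).add i3) hle).trans ?_
  rw [integral_add' (i2.add (integrable_const c)) i3, integral_add' i2 (integrable_const c),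
    integral_finsetSum _ fun b _ => i1 b, integral_indicator_const _ hB, integral_const]
  simp only [integral_indicator_const _ (hA' _), P1, measureReal_prod_prod, A, Rec_vol hr h h',
    probReal_univ, smul_eq_mul, mul_one, one_mul, mul_sub, Finset.sum_sub_distrib,
    ← Finset.sum_mul]
  have h4 := mul_le_mul_of_nonneg_left (mul_le_mul_of_nonneg_right
    (Rec_B_le (n := n) hG (fun z => (h.2.1 z).le) (fun z => (h'.2.1 z).le) y y') he)
    (le_min (h.tb_nonneg hr none y) (h'.tb_nonneg hr none y'))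
  linarith

/-- the anchor of a symbol -/
noncomputable def Rec_anc (D : Dom X (n + 1)) : Sy X → X
  | none => D.hanc
  | some (Sum.inl z) => z
  | some (Sum.inr z) => z

theorem Rec_lab (D : Dom X (n + 1)) (ω : Om1 p X) (ω' : Om p X n) (y : X) :
    (D.emb p (ω, ω')).lab y = ((D.sym p ω y, D.Rec_anc (D.sym p ω y)),
      ((D.child (D.br p ω.1 y)).emb p ω').lab y) := by
  simp only [emb, HT.lab, sym]
  rcases D.br p ω.1 y with _ | _ | z <;> rfl

theorem Rec_bdist (D D' : Dom X (n + 1)) (ω : Om1 p X) (y : X) :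
    dist (D.Rec_anc (D.sym p ω y)) (D'.Rec_anc (D.sym p ω y)) = bdist D D' (D.br p ω.1 y) := by
  unfold sym
  rcases D.br p ω.1 y with _ | _ | z
  exacts [dist_self _, rfl, dist_self _]

theorem dlt_rec (hr : 0 < p.r0) (hG : 1 ≤ p.G) {D D' : Dom X (n + 1)} (h : D.Valid p)
    (h' : D'.Valid p) (y : X) {a : ℝ} (ha : 0 ≤ a) :
    dlt p D D' y a ≤
      ∑ b, min (D.tb p b y) (D'.tb p b y) *
          dlt p (D.child b) (D'.child b) y (max a (bdist D D' b)) +
        (1 - ∑ b, min (D.tb p b y) (D'.tb p b y)) * (4 * p.r n + a) +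
        min (D.tb p none y) (D'.tb p none y) * (dwin p n D.nu y D'.nu y * (4 * p.r n)) := by
  have := P1_prob (X := X) hG
  have := PP_prob (X := X) hG n
  have hr' := Par.r_pos hr n
  have hi : Integrable (fun ω : Om1 p X × Om p X n =>
      rel p.r0 ((D.emb p ω).lab y) ((D'.emb p ω).lab y) +
        max a (anc ((D.emb p ω).lab y) ((D'.emb p ω).lab y))) ((P1 p X).prod (PP p X n)) :=
    integrable_emb hG D D' fun H H' =>
      rel p.r0 (H.lab y) (H'.lab y) + max a (anc (H.lab y) (H'.lab y))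
  refine (integral_prod _ hi).le.trans (Rec_main hr hG h h' y y hi.integral_prod_left
    (fun b => dlt p (D.child b) (D'.child b) y (max a (bdist D D' b))) (by linarith)
    (fun ω b hb hb' hs => le_of_eq ?_) (fun ω => ?_) ?_)
  · refine integral_congr_ae (Filter.Eventually.of_forall fun ω' => ?_)
    simp only [Rec_lab, rel, anc, ← hs, if_true, Rec_bdist, hb, hb', max_assoc]
  · refine (integral_mono_of_nonneg (Filter.Eventually.of_forall fun ω' =>
      add_nonneg (rel_nonneg hr _ _) (le_max_of_le_left ha)) (integrable_const (4 * p.r n + a))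
      (Filter.Eventually.of_forall fun ω' => ?_)).trans (by simp)
    have h0 : dist y y ≤ p.r (n + 1) := (dist_self y).le.trans (Par.r_pos hr _).le
    have h1 : anc ((D.emb p (ω, ω')).lab y) ((D'.emb p (ω, ω')).lab y) ≤ 2 * p.r n :=
      Rec_near hr _ _ y _ _ (h.near hr hG (ω, ω') y y h0).2 (h'.near hr hG (ω, ω') y y h0).2
    have h2 : rel p.r0 ((D.emb p (ω, ω')).lab y) ((D'.emb p (ω, ω')).lab y) ≤ p.S (n + 1) :=
      rel_le hr _ _
    have h3 := p.S_succ n
    have h4 := Par.S_le hr n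
    have h5 := max_le (show a ≤ 2 * p.r n + a by linarith) (h1.trans (le_add_of_nonneg_right ha))
    beta_reduce
    linarith
  · linarith [le_dlt hr hG (D.child none) (D'.child none) y (max a (bdist D D' none)),
      le_max_left a (bdist D D' none)]

theorem cut_rec (hr : 0 < p.r0) (hG : 1 ≤ p.G) {D : Dom X (n + 1)} (h : D.Valid p) (x y : X) :
    D.cut p x y ≤
      ∑ b, min (D.tb p b x) (D.tb p b y) * (D.child b).cut p x y +
        (1 - ∑ b, min (D.tb p b x) (D.tb p b y)) * p.S (n + 1) +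
        min (D.tb p none x) (D.tb p none y) * (dwin p n D.nu x D.nu y * p.S (n + 1)) := by
  have := P1_prob (X := X) hG
  have := PP_prob (X := X) hG n
  have hi : Integrable (fun ω : Om1 p X × Om p X n =>
      rel p.r0 ((D.emb p ω).lab x) ((D.emb p ω).lab y)) ((P1 p X).prod (PP p X n)) :=
    integrable_emb hG D D fun H H' => rel p.r0 (H.lab x) (H'.lab y)
  refine (integral_prod _ hi).le.trans (Rec_main hr hG h h x y hi.integral_prod_left
    (fun b => (D.child b).cut p x y) (Par.S_nonneg hr _)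
    (fun ω b hb hb' hs => le_of_eq ?_) (fun ω => ?_) ?_)
  · refine integral_congr_ae (Filter.Eventually.of_forall fun ω' => ?_)
    simp only [Rec_lab, rel, ← hs, if_true, hb, hb']
  · exact (integral_mono_of_nonneg (Filter.Eventually.of_forall fun ω' => rel_nonneg hr _ _)
      (integrable_const (p.S (n + 1)))
      (Filter.Eventually.of_forall fun ω' => rel_le hr _ _)).trans (by simp)
  · linarith [(cut_bounds hr hG (D.child none) x y).1]

end Dom

end Crest.Agent.R314
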