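import Crest.Agent.R314.Flat
import Crest.Agent.R314.Rec

/-! Module C: clearing the top marks near a point. -/

set_option autoImplicit false
set_option linter.unusedSectionVars false

namespace Crest.Agent.R314

open Finset 

variable {X : Type} [MetricSpace X] [Fintype X] [DecidableEq X] [Nonempty X] {p : Par} {n : ℕ}

namespace Dom

/-! unfolding lemmas -/

theorem Clr_heir {D : Dom X (n + 1)} (h : D.ctr = none) : D.heir = none :=
  Option.map_eq_none_iff.1 h

theorem Clr_Wt {D : Dom X (n + 1)} (h : D.heir = none) (l : ℕ) : D.Wt l =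
    if l = n then ∑ z, D.nu z + ∑ z, (D.top z).elim 0 Prod.fst
    else D.next.Wt l + ∑ z, (D.top z).elim 0 fun q => q.2.Wt l := by
  show (if D.heir.isSome then D.w l else wshAux Wt D l) = _
  rw [h, if_neg (by simp)]
  rfl

theorem Clr_hc {D : Dom X (n + 1)} (h : D.heir = none) (y : X) : D.hc p y = 0 := by
  show D.heir.elim 0 (fun q => cap p n q.1 y) = 0
  rw [h]
  rfl

theorem Clr_sum {D : Dom X (n + 1)} (h : D.heir = none) (y : X) (F : Br X → ℝ) :
    ∑ b, D.tb p b y * F b =
      (1 - ∑ z, D.tc p z y) * F none + ∑ z, D.tc p z y * F (some (some z)) := by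
  rw [Fintype.sum_option, Fintype.sum_option]
  show (1 - D.hc p y - ∑ z, D.tc p z y) * F none +
    (D.hc p y * F (some none) + ∑ z, D.tc p z y * F (some (some z))) = _
  rw [Clr_hc h, sub_zero, zero_mul, zero_add]

theorem Clr_LV {D : Dom X (n + 1)} (h : D.heir = none) (y : X) : D.LV p y =
    (1 - ∑ z, D.tc p z y) * (K0 * p.r n * tok p n D.nu y + D.next.LV p y) +
      ∑ z, D.tc p z y * (-(K0 * p.r n * Real.log ((D.top z).elim 1 Prod.fst)) +
        (D.child (some (some z))).LV p y) := by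
  show (if D.heir.isSome then -p.nrm (n + 1) D.w else 0) +
      ∑ b, D.tb p b y * (D.gau p b + D.lv0 p b y + LV p (D.child b) y) = _
  rw [Clr_sum h]
  show (if D.heir.isSome then -p.nrm (n + 1) D.w else 0) +
    ((1 - ∑ z, D.tc p z y) * ((if D.heir.isSome then p.nrm (n + 1) D.Wsh else 0) +
      K0 * p.r n * tok p n D.nu y + D.next.LV p y) +
    ∑ z, D.tc p z y * ((if D.heir.isSome then p.nrm (n + 1) D.Wsh else 0) +
      -(K0 * p.r n * Real.log ((D.top z).elim 1 Prod.fst)) +
        (D.child (some (some z))).LV p y)) = _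
  have h1 : ¬ (D.heir.isSome = true) := by rw [h]; simp
  rw [if_neg h1, if_neg h1]
  simp only [zero_add]

theorem Clr_PV {D : Dom X (n + 1)} (h : D.ctr = none) (y : X) : D.PV p y =
    (1 - ∑ z, D.tc p z y) * (Gam * p.r n + D.next.PV p y) +
      ∑ z, D.tc p z y * (Gam * p.r n + (D.child (some (some z))).PV p y) := by
  show ∑ b, D.tb p b y * (D.pv p b y + PV p (D.child b) y) = _
  rw [Clr_sum (Clr_heir h)]
  show (1 - ∑ z, D.tc p z y) * (Gam * p.r n + C3 * D.len + D.next.PV p y) +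
    ∑ z, D.tc p z y * (Gam * p.r n + C3 * D.len + (D.child (some (some z))).PV p y) = _
  rw [len_of_ctr h, mul_zero, add_zero]

theorem Clr_K0 : K0 = 8 := rfl

theorem Clr_Gam : 0 ≤ Gam := show (0 : ℝ) ≤ 2 ^ 36 by positivity

variable (σ : X) (Q : ℝ)

/-- the extra weights passed to the token child -/
noncomputable def ClrF (p : Par) (D : Dom X (n + 1)) (f : ℕ → X → ℝ) : ℕ → X → ℝ :=
  fun l z => f l z +
    ∑ z', if dist z' σ + p.S (n + 1) ≤ Q then (D.top z').elim 0 fun q => flat q.2 l z else 0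

section one

variable (D : Dom X (n + 1)) (f : ℕ → X → ℝ)

theorem Clr_nu_eq (z : X) : (clr p σ Q D f).nu z = D.nu z + f n z +
    if dist z σ + p.S (n + 1) ≤ Q then (D.top z).elim 0 Prod.fst else 0 := rfl

theorem Clr_top_eq (z : X) : (clr p σ Q D f).top z =
    if dist z σ + p.S (n + 1) ≤ Q then none else D.top z := rfl

theorem Clr_next_eq : (clr p σ Q D f).next = clr p σ Q D.next (ClrF σ Q p D f) := rfl

theorem Clr_tc_eq (z y : X) : (clr p σ Q D f).tc p z y =
    if dist z σ + p.S (n + 1) ≤ Q then 0 else D.tc p z y := by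
  show ((clr p σ Q D f).top z).elim 0 (fun _ => cap p n z y) = _
  rw [Clr_top_eq]
  split_ifs
  · rfl
  · rfl

variable {D f}

theorem Clr_term_nonneg (h : D.Valid p) (l : ℕ) (z z' : X) :
    0 ≤ (if dist z' σ + p.S (n + 1) ≤ Q then (D.top z').elim 0 fun q => flat q.2 l z else 0) := by
  split_ifs
  · cases hq : D.top z' with
    | none => exact le_rfl
    | some q => exact ((h.2.2.1 z' q hq).2.flat_pos l z).le
  · exact le_rfl

theorem Clr_le_F (h : D.Valid p) (l : ℕ) (z : X) : f l z ≤ ClrF σ Q p D f l z :=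
  le_add_of_nonneg_right (sum_nonneg fun z' _ => Clr_term_nonneg σ Q h l z z')

theorem Clr_flat_le_F (h : D.Valid p) (hf : ∀ l z, 0 ≤ f l z) {z' : X} {q : ℝ × Dom X n}
    (hq : D.top z' = some q) (hz : dist z' σ + p.S (n + 1) ≤ Q) (l : ℕ) (z : X) :
    q.2.flat l z ≤ ClrF σ Q p D f l z := by
  have h1 := single_le_sum (fun z'' _ => Clr_term_nonneg σ Q h l z z'') (mem_univ z')
  rw [if_pos hz, hq] at h1
  exact h1.trans (le_add_of_nonneg_left (hf l z))

theorem Clr_wt_nonneg (h : D.Valid p) (z : X) :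
    0 ≤ (if dist z σ + p.S (n + 1) ≤ Q then (D.top z).elim 0 Prod.fst else 0) := by
  split_ifs
  · cases hq : D.top z with
    | none => exact le_rfl
    | some q => exact (h.2.2.1 z q hq).1.le
  · exact le_rfl

theorem Clr_nu_le (h : D.Valid p) (hf : ∀ l z, 0 ≤ f l z) (z : X) :
    D.nu z ≤ (clr p σ Q D f).nu z := by
  rw [Clr_nu_eq]
  linarith [hf n z, Clr_wt_nonneg σ Q h z]

theorem Clr_tc_nonneg (z y : X) : 0 ≤ D.tc p z y := by
  show 0 ≤ (D.top z).elim 0 (fun _ => cap p n z y)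
  cases D.top z with
  | none => exact le_rfl
  | some q => exact cap_nonneg z y

theorem Clr_top_some {z y : X} (h : 0 < D.tc p z y) : ∃ q, D.top z = some q :=
  Option.isSome_iff_exists.1 (pres_of_pos (p := p) (b := some (some z)) h)

/-- no cleared mark captures `y` -/
theorem Clr_far {y : X} (hy : ∀ z, dist z σ + p.S (n + 1) ≤ Q → ¬ 0 < D.tc p z y) (z : X) :
    (clr p σ Q D f).tc p z y = D.tc p z y ∧ (0 < D.tc p z y →
      (clr p σ Q D f).top z = D.top z ∧
        (clr p σ Q D f).child (some (some z)) = D.child (some (some z))) := by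
  refine ⟨?_, fun h0 => ?_⟩
  · rw [Clr_tc_eq]
    split_ifs with hz
    · exact le_antisymm (Clr_tc_nonneg z y) (not_lt.1 (hy z hz))
    · rfl
  · have h1 : (clr p σ Q D f).top z = D.top z := by
      rw [Clr_top_eq, if_neg fun hz => hy z hz h0]
    refine ⟨h1, ?_⟩
    obtain ⟨q, hq⟩ := Clr_top_some h0
    show ((clr p σ Q D f).top z).elim _ Prod.snd = (D.top z).elim _ Prod.snd
    rw [h1, hq]
    rfl

theorem Clr_far_sum {y : X} (hy : ∀ z, dist z σ + p.S (n + 1) ≤ Q → ¬ 0 < D.tc p z y)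
    (F : Option (ℝ × Dom X n) → Dom X n → ℝ) :
    ∑ z, (clr p σ Q D f).tc p z y *
        F ((clr p σ Q D f).top z) ((clr p σ Q D f).child (some (some z))) =
      ∑ z, D.tc p z y * F (D.top z) (D.child (some (some z))) := by
  refine sum_congr rfl fun z _ => ?_
  obtain ⟨h1, h2⟩ := Clr_far σ Q (f := f) hy z
  rw [h1]
  rcases (Clr_tc_nonneg (p := p) (D := D) z y).eq_or_lt with h0 | h0
  · rw [← h0, zero_mul, zero_mul]
  · rw [(h2 h0).1, (h2 h0).2]

theorem Clr_tb_none (hr : 0 < p.r0) (h : D.Valid p) (hc : D.heir = none) (y : X) :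
    0 ≤ 1 - ∑ z, D.tc p z y ∧ 1 - ∑ z, D.tc p z y ≤ 1 := by
  have e : D.tb p none y = 1 - ∑ z, D.tc p z y := by
    show 1 - D.hc p y - ∑ z, D.tc p z y = _
    rw [Clr_hc hc, sub_zero]
  exact e ▸ ⟨h.tb_nonneg hr none y, h.tb_le_one hr none y⟩

/-- a cleared mark captures `y` -/
theorem Clr_near (hr : 0 < p.r0) (h : D.Valid p) {y z : X} (hz : dist z σ + p.S (n + 1) ≤ Q)
    (h0 : 0 < D.tc p z y) :
    (∀ z', z' ≠ z → D.tc p z' y = 0) ∧ (∀ z', (clr p σ Q D f).tc p z' y = 0) ∧
      dist y z ≤ p.r n / 2 ∧ dist y σ + 3 / 2 * p.S n ≤ Q := by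
  have h1 : ∀ z', z' ≠ z → D.tc p z' y = 0 := fun z' hz' => by
    refine le_antisymm (not_lt.1 fun h' => hz' ?_) (Clr_tc_nonneg z' y)
    exact Option.some.inj (h.mark_unique hr (o := some z') (o' := some z) h' h0)
  have h2 := dist_lt_of_top (D := D) hr (z := z) (y := y) h0
  refine ⟨h1, fun z' => ?_, h2.le, ?_⟩
  · rw [Clr_tc_eq]
    split_ifs with hz'
    · rfl
    · exact h1 z' fun e => hz' (e ▸ hz)
  · have h3 := dist_triangle y z σ
    have h4 := Par.S_le hr n (p := p)
    have h5 := Par.S_nonneg hr n (p := p)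
    rw [Par.S_succ] at hz
    linarith

end one

theorem clr_ctr : ∀ {n : ℕ} (D : Dom X n) (f : ℕ → X → ℝ), (clr p σ Q D f).ctr = D.ctr := by
  intro n D f
  cases n <;> rfl

theorem Valid.clr_valid : ∀ {n : ℕ} {D : Dom X n} (_ : D.Valid p) (_ : D.ctr = none) {f : ℕ → X → ℝ}
    (_ : ∀ l z, 0 ≤ f l z), (clr p σ Q D f).Valid p := by
  intro n
  induction n with
  | zero => exact fun h _ _ _ => h
  | succ n ih =>
    intro D h hc f hf
    have htop : ∀ z, ((clr p σ Q D f).top z).isSome → (D.top z).isSome := fun z hz => by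
      rw [Clr_top_eq] at hz
      split_ifs at hz
      · simp at hz
      · exact hz
    refine ⟨h.1, fun z => (h.2.1 z).trans_le (Clr_nu_le σ Q h hf z), fun z q hq => ?_,
      fun z z' hz hz' => h.2.2.2.1 z z' (htop z hz) (htop z' hz'),
      ⟨ih h.2.2.2.2.1.1 h.2.2.2.2.1.2 fun l z => (hf l z).trans (Clr_le_F σ Q h l z),
        (clr_ctr σ Q _ _).trans h.2.2.2.2.1.2⟩, fun q hq => ?_⟩
    · rw [Clr_top_eq] at hq
      split_ifs at hq
      exact h.2.2.1 z q hq
    · exact absurd ((Clr_heir hc).symm.trans hq) (by simp)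

theorem Valid.clr_Wt : ∀ {n : ℕ} {D : Dom X n} (_ : D.Valid p) (_ : D.ctr = none)
    (f : ℕ → X → ℝ) {l : ℕ} (_ : l < n), (clr p σ Q D f).Wt l = D.Wt l + ∑ z, f l z := by
  intro n
  induction n with
  | zero => exact fun _ _ _ _ hl => absurd hl (Nat.not_lt_zero _)
  | succ n ih =>
    intro D h hc f l hl
    rw [Clr_Wt (D := clr p σ Q D f) (Clr_heir hc), Clr_Wt (Clr_heir hc)]
    split_ifs with hln
    · subst hln
      rw [← sum_add_distrib, ← sum_add_distrib, ← sum_add_distrib]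
      refine sum_congr rfl fun z _ => ?_
      rw [Clr_nu_eq, Clr_top_eq]
      split_ifs
      · show _ + (0 : ℝ) = _
        ring
      · ring
    · have hl' : l < n := by omega
      rw [Clr_next_eq, ih h.2.2.2.2.1.1 h.2.2.2.2.1.2 _ hl']
      have e1 : ∑ z, ClrF σ Q p D f l z = ∑ z, f l z + ∑ z', if dist z' σ + p.S (n + 1) ≤ Q then
          (D.top z').elim 0 fun q => q.2.Wt l else 0 := by
        show ∑ z, (f l z + ∑ z', if dist z' σ + p.S (n + 1) ≤ Q then
          (D.top z').elim 0 fun q => flat q.2 l z else 0) = _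
        rw [sum_add_distrib, sum_comm]
        congr 1
        refine sum_congr rfl fun z' _ => ?_
        split_ifs
        · cases hq : D.top z' with
          | none => exact sum_const_zero
          | some q => exact (h.2.2.1 z' q hq).2.sum_flat hl'
        · exact sum_const_zero
      rw [e1, add_assoc, add_assoc, add_assoc, ← sum_add_distrib, add_comm (∑ z, f l z)]
      congr 2
      refine sum_congr rfl fun z _ => ?_
      rw [Clr_top_eq]
      split_ifs
      · exact add_zero _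
      · exact zero_add _

theorem clr_Links : ∀ {n : ℕ} (D : Dom X n) (f : ℕ → X → ℝ), (clr p σ Q D f).Links ≤ D.Links := by
  intro n
  induction n with
  | zero => exact fun _ _ => le_rfl
  | succ n ih =>
    intro D f
    show D.heir.elim 0 (fun q => lnk q.1 q.2 / 2 ^ n + Links q.2) +
        Links (clr p σ Q D.next (ClrF σ Q p D f)) +
        ∑ z, ((clr p σ Q D f).top z).elim 0 (fun q => Links q.2) ≤
      D.heir.elim 0 (fun q => lnk q.1 q.2 / 2 ^ n + Links q.2) + Links D.next +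
        ∑ z, (D.top z).elim 0 fun q => Links q.2
    refine add_le_add (add_le_add le_rfl (ih _ _)) (sum_le_sum fun z _ => ?_)
    rw [Clr_top_eq]
    split_ifs
    · cases D.top z with
      | none => exact le_rfl
      | some q => exact Links_nonneg q.2
    · exact le_rfl

theorem clr_top {D : Dom X (n + 1)} {f : ℕ → X → ℝ} {z : X} (h : ((clr p σ Q D f).top z).isSome) :
    Q < dist z σ + p.S (n + 1) := by
  rw [Clr_top_eq] at h
  split_ifs at h with hz
  · simp at h
  · exact not_le.1 hz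

variable (hr : 0 < p.r0) (hG : 1 ≤ p.G)
include hr hG

/-- deep points see only tokens -/
theorem Valid.clr_deep : ∀ {n : ℕ} {D : Dom X n} (_ : D.Valid p) (_ : D.ctr = none)
    {f g : ℕ → X → ℝ} (_ : ∀ l z, 0 < g l z) (_ : ∀ l z, g l z ≤ f l z) {y : X}
    (_ : dist y σ + 3 / 2 * p.S n ≤ Q),
    (clr p σ Q D f).LV p y ≤ PL p n g y ∧ (clr p σ Q D f).PV p y ≤ Gam * p.S n := by
  intro n
  induction n with
  | zero =>
    intro D h hc f g hg hgf y hy
    refine ⟨le_of_eq ?_, mul_nonneg Clr_Gam (Par.S_nonneg hr 0)⟩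
    show (0 : ℝ) = K0 * ∑ l ∈ range 0, p.r l * tok p l (g l) y
    rw [sum_range_zero, mul_zero]
  | succ n ih =>
    intro D h hc f g hg hgf y hy
    have h4 := Par.r_pos hr n (p := p)
    have h5 := Par.S_nonneg hr n (p := p)
    have hS := Par.S_succ p n
    have h0 : ∀ z, (clr p σ Q D f).tc p z y = 0 := fun z => by
      rw [Clr_tc_eq]
      split_ifs with hz
      · rfl
      · refine le_antisymm (not_lt.1 fun h' => hz ?_) (Clr_tc_nonneg z y)
        have h2 := dist_lt_of_top (D := D) hr (z := z) (y := y) h'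
        have h3 := dist_triangle_left z σ y
        linarith
    obtain ⟨i1, i2⟩ := ih h.2.2.2.2.1.1 h.2.2.2.2.1.2 (f := ClrF σ Q p D f) hg
      (fun l z => (hgf l z).trans (Clr_le_F σ Q h l z)) (y := y) (by linarith)
    have ht : tok p n (clr p σ Q D f).nu y ≤ tok p n (g n) y :=
      tok_anti hr hG (fun z => (hg n z).le) (hg n y) fun z _ => by
        rw [Clr_nu_eq]
        linarith [hgf n z, h.2.1 z, Clr_wt_nonneg σ Q h z]
    rw [Clr_LV (D := clr p σ Q D f) (Clr_heir hc), Clr_PV (D := clr p σ Q D f) hc, PL_succ hr hG,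
      Clr_next_eq, hS]
    simp only [h0, zero_mul, sum_const_zero, sub_zero, one_mul, add_zero]
    have := mul_le_mul_of_nonneg_left ht (show 0 ≤ K0 * p.r n by rw [Clr_K0]; positivity)
    constructor <;> linarith

theorem Clr_LV_crude (y : X) : ∀ {n : ℕ} {D : Dom X n} (_ : D.Valid p) (_ : D.ctr = none)
    {f : ℕ → X → ℝ} (_ : ∀ l z, 0 ≤ f l z),
    (clr p σ Q D f).LV p y ≤ D.LV p y + 6 * p.S n := by
  intro n
  induction n with
  | zero =>
    intro D h hc f hf
    exact le_add_of_nonneg_right (mul_nonneg (by norm_num) (Par.S_nonneg hr 0))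
  | succ n ih =>
    intro D h hc f hf
    have h4 := Par.r_pos hr n (p := p)
    have h5 := Par.S_nonneg hr n (p := p)
    have hK : 0 ≤ K0 * p.r n := by rw [Clr_K0]; positivity
    have i1 := ih h.2.2.2.2.1.1 h.2.2.2.2.1.2 (f := ClrF σ Q p D f)
      fun l z => (hf l z).trans (Clr_le_F σ Q h l z)
    have ht := mul_le_mul_of_nonneg_left (tok_anti (n := n) hr hG (fun z => (h.2.1 z).le) (h.2.1 y)
      fun z _ => Clr_nu_le σ Q h hf z) hK
    obtain ⟨t0, t1⟩ := Clr_tb_none hr h (Clr_heir hc) y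
    rw [Clr_LV (D := clr p σ Q D f) (Clr_heir hc), Clr_LV (Clr_heir hc), Clr_next_eq, Par.S_succ]
    by_cases hy : ∃ z, dist z σ + p.S (n + 1) ≤ Q ∧ 0 < D.tc p z y
    · obtain ⟨z, hz, h0⟩ := hy
      obtain ⟨a1, a2, a3, a4⟩ := Clr_near σ Q (f := f) hr h hz h0
      obtain ⟨q, hq⟩ := Clr_top_some h0
      have hqv := h.2.2.1 z q hq
      have b1 : tok p n (clr p σ Q D f).nu y ≤ -Real.log q.1 :=
        tok_le_of_near hr hG (fun z => (h.2.1 z).le.trans (Clr_nu_le σ Q h hf z)) hqv.1 (z := z)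
          (by
            rw [Clr_nu_eq, if_pos hz, hq]
            exact le_add_of_nonneg_left (add_nonneg (h.2.1 z).le (hf n z))) a3
      have b2 := (Valid.clr_deep σ Q hr hG h.2.2.2.2.1.1 h.2.2.2.2.1.2 (f := ClrF σ Q p D f)
        hqv.2.flat_pos (Clr_flat_le_F σ Q h hf hq hz) a4).1.trans (hqv.2.PL_flat hr hG y)
      have b3 := mul_le_mul_of_nonneg_left b1 hK
      have e1 : ∑ z', D.tc p z' y = D.tc p z y := sum_eq_single z (fun z' _ => a1 z') (by simp)
      have e2 : D.child (some (some z)) = q.2 := by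
        show (D.top z).elim _ Prod.snd = _
        rw [hq]
        rfl
      rw [e1] at t0 t1 ⊢
      rw [sum_eq_single (f := fun z' => D.tc p z' y * _) z
        (fun z' _ hz' => by rw [a1 z' hz', zero_mul]) (by simp), e2, hq]
      simp only [a2, zero_mul, sum_const_zero, sub_zero, one_mul, add_zero, Option.elim_some]
      nlinarith [mul_le_mul_of_nonneg_left (add_le_add ht i1) t0,
        mul_le_mul_of_nonneg_left (add_le_add b3 b2) h0.le]
    · have hy' : ∀ z, dist z σ + p.S (n + 1) ≤ Q → ¬ 0 < D.tc p z y :=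
        fun z hz h0 => hy ⟨z, hz, h0⟩
      rw [Clr_far_sum σ Q hy' fun o E => -(K0 * p.r n * Real.log (o.elim 1 Prod.fst)) + E.LV p y,
        sum_congr rfl fun z _ => (Clr_far σ Q (f := f) hy' z).1]
      nlinarith [mul_le_mul_of_nonneg_left (add_le_add ht i1) t0,
        mul_le_mul_of_nonneg_right t1 h5]

theorem Valid.clr_LV (y : X) : ∀ {n : ℕ} {D : Dom X n} (_ : D.Valid p) (_ : D.ctr = none)
    {f : ℕ → X → ℝ} (_ : ∀ l z, 0 ≤ f l z),
    (clr p σ Q D f).LV p y + dlt p D (clr p σ Q D f) y 0 ≤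
      D.LV p y + if dist y σ ≤ Q then 10 * p.S n else 0 := by
  intro n D h hc f hf
  by_cases hQ : dist y σ ≤ Q
  · rw [if_pos hQ]
    linarith [Clr_LV_crude σ Q hr hG y h hc hf, dlt_crude hr hG h (h.clr_valid σ Q hc hf) y le_rfl]
  rw [if_neg hQ, add_zero]
  induction n generalizing f with
  | zero =>
    show D.LV p y + dlt p D D y 0 ≤ _
    rw [dlt_self hr hG D y le_rfl, add_zero]
  | succ n ih =>
    have h4 := Par.r_pos hr n (p := p)
    have h5 := Par.S_nonneg hr n (p := p)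
    have hy' : ∀ z, dist z σ + p.S (n + 1) ≤ Q → ¬ 0 < D.tc p z y := fun z hz h0 => by
      have := (Clr_near σ Q (f := f) hr h hz h0).2.2.2
      exact hQ (by linarith)
    have i1 := ih h.2.2.2.2.1.1 h.2.2.2.2.1.2 (f := ClrF σ Q p D f)
      fun l z => (hf l z).trans (Clr_le_F σ Q h l z)
    have hw := dwin_le_tok (n := n) hr hG (fun z => (h.2.1 z).le) (h.2.1 y) (Clr_nu_le σ Q h hf)
    have hw0 := (dwin_bounds (n := n) hr hG (y := y) (y' := y) (fun z => (h.2.1 z).le)
      fun z => (h.2.1 z).le.trans (Clr_nu_le σ Q h hf z)).1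
    obtain ⟨t0, t1⟩ := Clr_tb_none hr h (Clr_heir hc) y
    have e0 := sum_congr rfl fun z (_ : z ∈ univ) => (Clr_far σ Q (f := f) hy' z).1
    have etb : ∀ b, (clr p σ Q D f).tb p b y = D.tb p b y := fun b => by
      rcases b with _ | _ | z
      · show 1 - D.hc p y - ∑ z, (clr p σ Q D f).tc p z y = 1 - D.hc p y - ∑ z, D.tc p z y
        rw [e0]
      · rfl
      · exact (Clr_far σ Q hy' z).1
    have hd := dlt_rec hr hG h (h.clr_valid σ Q hc hf) y le_rfl
    simp only [etb, min_self] at hd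
    have e1 : D.tb p none y = 1 - ∑ z, D.tc p z y := by
      show 1 - D.hc p y - ∑ z, D.tc p z y = _
      rw [Clr_hc (Clr_heir hc), sub_zero]
    have e2 : ∑ z, D.tc p z y * dlt p (D.child (some (some z)))
        ((clr p σ Q D f).child (some (some z))) y
        (max 0 (bdist D (clr p σ Q D f) (some (some z)))) = 0 := by
      refine sum_eq_zero fun z _ => ?_
      rcases (Clr_tc_nonneg (p := p) (D := D) z y).eq_or_lt with h0 | h0
      · rw [← h0, zero_mul]
      · rw [((Clr_far σ Q hy' z).2 h0).2]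
        show _ * dlt p _ _ y (max 0 0) = 0
        rw [max_self, dlt_self hr hG _ y le_rfl, mul_zero]
    rw [sum_tb, sub_self, zero_mul, add_zero, Clr_sum (Clr_heir hc), e2, add_zero, e1] at hd
    have hd' : dlt p D (clr p σ Q D f) y 0 ≤ (1 - ∑ z, D.tc p z y) *
        dlt p D.next (clr p σ Q D.next (ClrF σ Q p D f)) y (max 0 0) + _ := hd
    rw [max_self] at hd'
    rw [Clr_LV (D := clr p σ Q D f) (Clr_heir hc), Clr_LV (Clr_heir hc), Clr_next_eq,
      Clr_far_sum σ Q hy' fun o E => -(K0 * p.r n * Real.log (o.elim 1 Prod.fst)) + E.LV p y, e0,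
      Clr_K0]
    have h6 : 8 * p.r n * tok p n (clr p σ Q D f).nu y +
        dwin p n D.nu y (clr p σ Q D f).nu y * (4 * p.r n) ≤ 8 * p.r n * tok p n D.nu y := by
      nlinarith [mul_le_mul_of_nonneg_left hw h4.le, mul_nonneg h4.le hw0]
    nlinarith [mul_le_mul_of_nonneg_left (add_le_add h6 i1) t0]

theorem Valid.clr_PV (y : X) : ∀ {n : ℕ} {D : Dom X n} (_ : D.Valid p) (_ : D.ctr = none)
    {f : ℕ → X → ℝ} (_ : ∀ l z, 0 ≤ f l z),
    (clr p σ Q D f).PV p y ≤ D.PV p y + if dist y σ ≤ Q then Gam * p.S n else 0 := by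
  intro n
  induction n with
  | zero =>
    intro D h hc f hf
    refine le_add_of_nonneg_right ?_
    split_ifs
    · exact mul_nonneg Clr_Gam (Par.S_nonneg hr 0)
    · exact le_rfl
  | succ n ih =>
    intro D h hc f hf
    have h4 := Par.r_pos hr n (p := p)
    have h5 := Par.S_nonneg hr n (p := p)
    by_cases hy : ∃ z, dist z σ + p.S (n + 1) ≤ Q ∧ 0 < D.tc p z y
    · obtain ⟨z, hz, h0⟩ := hy
      obtain ⟨-, a2, -, a4⟩ := Clr_near σ Q (f := f) hr h hz h0
      obtain ⟨q, hq⟩ := Clr_top_some h0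
      have b2 := (Valid.clr_deep σ Q hr hG h.2.2.2.2.1.1 h.2.2.2.2.1.2 (f := ClrF σ Q p D f)
        (h.2.2.1 z q hq).2.flat_pos (Clr_flat_le_F σ Q h hf hq hz) a4).2
      rw [if_pos (by linarith), Clr_PV (D := clr p σ Q D f) hc, Clr_next_eq, Par.S_succ]
      simp only [a2, zero_mul, sum_const_zero, sub_zero, one_mul, add_zero]
      linarith [(h.PV_bounds hr hG y).1]
    · have hy' : ∀ z, dist z σ + p.S (n + 1) ≤ Q → ¬ 0 < D.tc p z y :=
        fun z hz h0 => hy ⟨z, hz, h0⟩
      have i1 := ih h.2.2.2.2.1.1 h.2.2.2.2.1.2 (f := ClrF σ Q p D f)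
        fun l z => (hf l z).trans (Clr_le_F σ Q h l z)
      obtain ⟨t0, t1⟩ := Clr_tb_none hr h (Clr_heir hc) y
      rw [Clr_PV (D := clr p σ Q D f) hc, Clr_PV hc, Clr_next_eq,
        Clr_far_sum σ Q hy' fun _ E => Gam * p.r n + E.PV p y,
        sum_congr rfl fun z _ => (Clr_far σ Q (f := f) hy' z).1, Par.S_succ]
      have g1 := mul_nonneg Clr_Gam h5
      have g2 := mul_nonneg Clr_Gam h4.le
      split_ifs at i1 ⊢
      · nlinarith [mul_le_mul_of_nonneg_left i1 t0, mul_le_mul_of_nonneg_right t1 g1]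
      · nlinarith [mul_le_mul_of_nonneg_left i1 t0]

end Dom

end Crest.Agent.R314
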