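import Crest.Agent.R314.CoreDefs

/-! Core: elementary `Reach` steps. -/

set_option autoImplicit false
set_option linter.unusedSectionVars false

namespace Crest.Agent.R314

open Finset MeasureTheory

variable {Λ X : Type} [Fintype Λ] [DecidableEq Λ] [MetricSpace X] [Fintype X] [DecidableEq X]
  {r0 : ℝ} {n k : ℕ} {a0 : X} {CT CE : ℝ}

/-- every function of two partitions is integrable -/
theorem ESys.integrable (ES : ESys Λ X r0 n k a0 CE) (d d' : ES.D) (g : HT Λ X n → HT Λ X n → ℝ) :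
    Integrable (fun ω => g (ES.emb d ω) (ES.emb d' ω)) ES.P := by
  classical
  have e : (fun ω => g (ES.emb d ω) (ES.emb d' ω)) = fun ω => ∑ p : HT Λ X n × HT Λ X n,
      ({ω | ES.emb d ω = p.1} ∩ {ω | ES.emb d' ω = p.2}).indicator (fun _ => g p.1 p.2) ω := by
    funext ω
    rw [sum_eq_single (ES.emb d ω, ES.emb d' ω)]
    · rw [Set.indicator_of_mem]
      exact ⟨rfl, rfl⟩
    · intro p _ hp
      rw [Set.indicator_of_notMem]
      rintro ⟨h1, h2⟩
      exact hp (Prod.ext h1.symm h2.symm)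
    · intro h
      exact absurd (mem_univ _) h
  rw [e]
  exact integrable_finsetSum _ fun p _ =>
    (integrable_const _).indicator ((ES.meas d p.1).inter (ES.meas d' p.2))

theorem sum_push {Θ : Type} [Fintype Θ] (β : Θ → ℝ) (o : Θ → Fin k → X)
    (g : (Fin k → X) → ℝ) : ∑ c, push β o c * g c = ∑ θ, β θ * g (o θ) := by
  unfold push
  simp_rw [sum_mul]
  rw [sum_comm]
  refine sum_congr rfl fun θ _ => ?_
  simp [ite_mul]

theorem sum_massB (b : (Fin k → X) → ℝ) (g : X → ℝ) :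
    ∑ y, massB b y * g y = ∑ c, b c * ∑ i, g (c i) := by
  unfold massB
  simp_rw [sum_mul]
  rw [sum_comm]
  refine sum_congr rfl fun c _ => ?_
  simp_rw [mul_assoc, ← mul_sum, sum_mul]
  rw [sum_comm]
  simp [ite_mul]

variable (TS : TSys Λ X r0 n k CT) (ES : ESys Λ X r0 n k a0 CE)

theorem Reach.trans {d d' d'' : ES.D} {b b' b'' : (Fin k → X) → ℝ} {c c' : ℝ}
    {Q Q' : Multiset X → Prop} (h : Reach TS ES d b d' b' c Q) (h' : Reach TS ES d' b' d'' b'' c' Q') :
    Reach TS ES d b d'' b'' (c + c') Q' := by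
  obtain ⟨J, hJ, h1, E, h2⟩ := h
  obtain ⟨J', hJ', h1', E', h2'⟩ := h'
  refine ⟨fun ω => J ω + J' ω, hJ.add hJ', ?_, E + E', fun M ω s => ?_⟩
  · rw [integral_add hJ hJ']
    linarith
  · obtain ⟨s', t, a1, -, a3⟩ := h2 M ω s
    obtain ⟨s'', t', b1, b2, b3⟩ := h2' M ω s'
    refine ⟨s'', fun m => t m + t' m, fun m => (a1 m).trans (b1 m), b2, ?_⟩
    rw [sum_add_distrib]
    linarith

theorem Reach.mono {d d' : ES.D} {b b' : (Fin k → X) → ℝ} {c c' : ℝ}
    {Q : Multiset X → Prop} (h : Reach TS ES d b d' b' c Q) (hc : c ≤ c') :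
    Reach TS ES d b d' b' c' Q := by
  obtain ⟨J, hJ, h1, h2⟩ := h
  exact ⟨J, hJ, by linarith, h2⟩

theorem coreA_Lg (hk : 1 ≤ k) : 1 ≤ Lg k := by
  have : 0 ≤ Real.log k := Real.log_nonneg (by exact_mod_cast hk)
  unfold Lg
  linarith

omit [MetricSpace X] in
theorem coreA_massB_nonneg {b : (Fin k → X) → ℝ} (hb : ∀ c, 0 ≤ b c) (y : X) : 0 ≤ massB b y :=
  sum_nonneg fun c _ => mul_nonneg (hb c) (sum_nonneg fun i _ => by split_ifs <;> norm_num)

/-- one step of the tree system, rounded, with positions read in `H` -/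
theorem coreA_step (hr : 0 < r0) {M : ℕ} (s : St TS M) (H H' : HT Λ X n) (a : X)
    (b : (Fin k → X) → ℝ) (hb : ∀ c, 0 ≤ b c) (hb1 : ∑ c, b c = 1) :
    ∃ (s' : St TS M) (t : Fin M → ℝ),
      (∀ m, Tr (pos r0 (s.N m) H a) (pos r0 (s'.N m) H a) (t m)) ∧
      ∑ m, t m + M * (CP * PsiB TS s'.t H' b) ≤
        M * (CP * PsiB TS s.t H' b) + 32 * tau * errT Λ r0 n ∧
      AL.Dom b (TS.al s'.t) (fun c i => some (H'.lab (c i))) ∧
      ∀ u : Lab Λ X n, (∀ c, b c ≠ 0 → ∃ i, H'.lab (c i) = u) → 1 ≤ (TS.al s'.t).leaf u := by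
  obtain ⟨t', ok', h1, h2, h3⟩ := TS.step (Fin k → X) b (fun c i => H'.lab (c i)) s.t hb hb1
  obtain ⟨N', b1, b2, b3⟩ := bal_tree hr s.N (TS.al s.t) (TS.al t') s.bal (TS.valid _ s.ok)
    (TS.valid _ ok') (fun _ => k) (fun _ _ => Nat.le_succ k) (by
      rw [TS.root _ ok', ← Nat.cast_mul, Nat.floor_natCast]
      simp)
  refine ⟨⟨t', N', ok', b1, b2⟩, fun m => 2 * tau * NT.dist r0 (s.N m) (N' m), fun m => ?_, ?_,
    h2, h3⟩
  · have := tr_pos_alloc hr (s.N m) (N' m) H a
    rw [b2 m, s.tot m] at this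
    exact this.cancel_add _
  · simp only [s.tot, sub_self, abs_zero, sum_const_zero, mul_zero, zero_add] at b3
    have hM : (0 : ℝ) ≤ M := Nat.cast_nonneg M
    have h4 : (M : ℝ) * (PsiB TS t' H' b + AL.dist r0 (TS.al s.t) (TS.al t')) ≤
        M * PsiB TS s.t H' b := mul_le_mul_of_nonneg_left h1 hM
    rw [← mul_sum]
    dsimp only
    unfold CP tau
    linarith

/-- re-equilibrate the embedding, then the tree state and the copies -/
theorem reach_emb (hr : 0 < r0) (hCT : 0 ≤ CT) (hk : 1 ≤ k) (d : ES.D) (b : (Fin k → X) → ℝ)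
    (hb : ∀ c, 0 ≤ b c) (hb1 : ∑ c, b c = 1) (σ : X) (lam ζ : ℝ) (hlam : 0 < lam)
    (hσ : lam ≤ massB b σ) (hζ : 0 < ζ) :
    ∃ d', Reach TS ES d b d' b ζ (fun _ => True) ∧
      ∀ x, ES.φ d' σ - ES.φ d' x +
        ∫ ω, rel r0 ((ES.emb d' ω).lab x) ((ES.emb d' ω).lab σ) ∂ES.P ≤
        CE * (1 + Real.log (k / lam)) * dist x σ := by
  have hsum : ∑ y, massB b y = k := by
    have := sum_massB b fun _ => (1 : ℝ)
    simp only [mul_one, sum_const, card_univ, Fintype.card_fin, nsmul_eq_mul] at this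
    rw [this, ← sum_mul, hb1, one_mul]
  obtain ⟨d', h1, h2⟩ := ES.step d (massB b) σ lam ζ (coreA_massB_nonneg hb) hsum hlam hσ hζ
  refine ⟨d', ⟨fun ω => ∑ y, massB b y * (rel r0 ((ES.emb d ω).lab y) ((ES.emb d' ω).lab y) +
    anc ((ES.emb d ω).lab y) ((ES.emb d' ω).lab y)),
    ES.integrable d d' fun H H' => ∑ y, massB b y * (rel r0 (H.lab y) (H'.lab y) +
      anc (H.lab y) (H'.lab y)), ?_, 32 * tau * errT Λ r0 n, fun M ω s => ?_⟩, h2⟩
  · rw [integral_finsetSum _ fun y _ => ES.integrable d d' fun H H' =>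
      massB b y * (rel r0 (H.lab y) (H'.lab y) + anc (H.lab y) (H'.lab y))]
    simp_rw [integral_const_mul]
    unfold PhiB
    rw [← sum_massB, ← sum_massB]
    exact h1
  · obtain ⟨s', t, a1, a2, a3, -⟩ :=
      coreA_step TS hr s (ES.emb d ω) (ES.emb d' ω) a0 b hb hb1
    obtain ⟨t', b1, b2⟩ := tr_pos_anchor hr b hb (fun c => c) s'.N (TS.al s'.t) s'.bal
      (TS.valid _ s'.ok) (ES.emb d ω) (ES.emb d' ω) a0 (ES.near d ω) (ES.near d' ω) a3
    refine ⟨s', fun m => t m + t' m, fun m => (a1 m).trans (b1 m), fun _ => trivial, ?_⟩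
    dsimp only
    set H := ES.emb d ω
    set H' := ES.emb d' ω
    set R := ∑ c : Fin k → X, b c * ∑ i, rel r0 (H.lab (c i)) (H'.lab (c i)) with hR
    set A := ∑ c : Fin k → X, b c * ∑ i, anc (H.lab (c i)) (H'.lab (c i)) with hA
    have hR0 : 0 ≤ R :=
      sum_nonneg fun c _ => mul_nonneg (hb c) (sum_nonneg fun i _ => rel_nonneg hr _ _)
    have hA0 : 0 ≤ A :=
      sum_nonneg fun c _ => mul_nonneg (hb c) (sum_nonneg fun i _ => anc_nonneg _ _)
    have e1 : ∑ y, massB b y * (rel r0 (H.lab y) (H'.lab y) + anc (H.lab y) (H'.lab y)) =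
        R + A := by
      rw [sum_massB, hR, hA, ← sum_add_distrib]
      refine sum_congr rfl fun c _ => ?_
      rw [sum_add_distrib, mul_add]
    have e2 : ∑ c : Fin k → X, b c * ∑ i, (anc (H.lab (c i)) (H'.lab (c i)) +
        5 * tau * rel r0 (H.lab (c i)) (H'.lab (c i))) = A + 5 * tau * R := by
      rw [hR, hA, mul_sum, ← sum_add_distrib]
      refine sum_congr rfl fun c _ => ?_
      rw [sum_add_distrib, ← mul_sum]
      ring
    have e3 : PsiB TS s.t H' b ≤ PsiB TS s.t H b + CT * Lg k * R := by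
      unfold PsiB
      rw [hR, mul_sum, ← sum_add_distrib]
      refine sum_le_sum fun c _ => ?_
      have := TS.lip s.t (fun i => H'.lab (c i)) (fun i => H.lab (c i))
      simp_rw [rel_comm (H'.lab _) (H.lab _)] at this
      have := mul_le_mul_of_nonneg_left this (hb c)
      linarith
    have hL := coreA_Lg hk
    have hM : (0 : ℝ) ≤ M := Nat.cast_nonneg M
    have e4 : 4 * (A + 5 * tau * R) + CP * (CT * Lg k * R) ≤ CJ CT k * (R + A) := by
      unfold CP CJ tau
      have p1 : 0 ≤ CT * Lg k * A := by positivity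
      have p2 : R + A ≤ Lg k * (R + A) := le_mul_of_one_le_left (by linarith) hL
      nlinarith
    have e5 : CP * PsiB TS s.t H' b ≤ CP * (PsiB TS s.t H b + CT * Lg k * R) :=
      mul_le_mul_of_nonneg_left e3 (by unfold CP tau; norm_num)
    rw [e2] at b2
    rw [sum_add_distrib, e1]
    have e6 : (M : ℝ) * (4 * (A + 5 * tau * R) + CP * PsiB TS s.t H' b) ≤
        M * (CP * PsiB TS s.t H b + CJ CT k * (R + A)) :=
      mul_le_mul_of_nonneg_left (by linarith) hM
    linarith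

/-- move offline servers in the belief -/
theorem reach_move (hr : 0 < r0) (hCT : 0 ≤ CT) (hk : 1 ≤ k) (d : ES.D)
    (b : (Fin k → X) → ℝ) {Θ : Type} [Fintype Θ] (β : Θ → ℝ) (hβ : ∀ θ, 0 ≤ β θ)
    (o : Θ → Fin k → X) (j : Θ → Fin k) (σ : X) :
    Reach TS ES d (b + push β o) d (b + push β fun θ => Function.update (o θ) (j θ) σ)
      (∑ θ, β θ * (ES.φ d σ - ES.φ d (o θ (j θ)) +
        ∫ ω, rel r0 ((ES.emb d ω).lab (o θ (j θ))) ((ES.emb d ω).lab σ) ∂ES.P))
      (fun _ => True) := by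
  refine ⟨fun ω => ∑ θ, β θ * rel r0 ((ES.emb d ω).lab (o θ (j θ))) ((ES.emb d ω).lab σ),
    ES.integrable d d fun H _ => ∑ θ, β θ * rel r0 (H.lab (o θ (j θ))) (H.lab σ), ?_, 0,
    fun M ω s => ⟨s, fun _ => 0, fun m => Tr.refl _, fun _ => trivial, ?_⟩⟩
  · rw [integral_finsetSum _ fun θ _ => ES.integrable d d fun H _ =>
      β θ * rel r0 (H.lab (o θ (j θ))) (H.lab σ)]
    simp_rw [integral_const_mul]
    unfold PhiB
    simp_rw [Pi.add_apply, add_mul, sum_add_distrib, sum_push]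
    rw [add_assoc, add_assoc, ← sum_add_distrib, ← sum_add_distrib]
    refine le_of_eq (congrArg _ (sum_congr rfl fun θ _ => ?_))
    have : ∑ i, ES.φ d (Function.update (o θ) (j θ) σ i) =
        ∑ i, ES.φ d (o θ i) + (ES.φ d σ - ES.φ d (o θ (j θ))) := by
      rw [← sub_eq_iff_eq_add', ← sum_sub_distrib, sum_eq_single (j θ)]
      · simp
      · intro i _ hi
        simp [Function.update_of_ne hi]
      · intro h
        exact absurd (mem_univ _) h
    rw [this]
    ring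
  · dsimp only
    set H := ES.emb d ω
    set R := ∑ θ, β θ * rel r0 (H.lab (o θ (j θ))) (H.lab σ) with hR
    have hR0 : 0 ≤ R := sum_nonneg fun θ _ => mul_nonneg (hβ θ) (rel_nonneg hr _ _)
    have e3 : PsiB TS s.t H (b + push β fun θ => Function.update (o θ) (j θ) σ) ≤
        PsiB TS s.t H (b + push β o) + CT * Lg k * R := by
      unfold PsiB
      simp_rw [Pi.add_apply, add_mul, sum_add_distrib, sum_push]
      rw [hR, mul_sum, add_assoc, ← sum_add_distrib]
      refine add_le_add le_rfl (sum_le_sum fun θ _ => ?_)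
      have h1 := TS.lip s.t (fun i => H.lab (Function.update (o θ) (j θ) σ i))
        (fun i => H.lab (o θ i))
      have h2 : ∑ i, rel r0 (H.lab (Function.update (o θ) (j θ) σ i)) (H.lab (o θ i)) =
          rel r0 (H.lab (o θ (j θ))) (H.lab σ) := by
        rw [sum_eq_single (j θ)]
        · rw [Function.update_self, rel_comm]
        · intro i _ hi
          rw [Function.update_of_ne hi, rel_self]
        · intro h
          exact absurd (mem_univ _) h
      rw [h2] at h1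
      have := mul_le_mul_of_nonneg_left h1 (hβ θ)
      linarith
    have hL := coreA_Lg hk
    have hM : (0 : ℝ) ≤ M := Nat.cast_nonneg M
    have e4 : CP * (CT * Lg k * R) ≤ CJ CT k * R := by
      unfold CP CJ tau
      have p1 : 0 ≤ Lg k * R := by positivity
      nlinarith
    have e5 := mul_le_mul_of_nonneg_left e3 (show 0 ≤ CP by unfold CP tau; norm_num)
    rw [sum_const_zero, zero_add, add_zero]
    exact mul_le_mul_of_nonneg_left (by linarith) hM

/-- cover a point that every offline configuration occupies -/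
theorem reach_cover (hr : 0 < r0) (hsep : ∀ x y : X, dist x y ≤ r0 → x = y) (hCT : 0 ≤ CT)
    (hk : 1 ≤ k) (d : ES.D) (b : (Fin k → X) → ℝ) (hb : ∀ c, 0 ≤ b c) (hb1 : ∑ c, b c = 1) (σ : X)
    (hσ : ∀ c, b c ≠ 0 → ∃ i, c i = σ) :
    Reach TS ES d b d b 0 (fun P => σ ∈ P) := by
  refine ⟨fun _ => 0, integrable_zero _ _ _, by simp, 32 * tau * errT Λ r0 n, fun M ω s => ?_⟩
  obtain ⟨s', t, a1, a2, -, a4⟩ := coreA_step TS hr s (ES.emb d ω) (ES.emb d ω) a0 b hb hb1
  refine ⟨s', t, a1, fun m => ?_, by simpa using a2⟩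
  refine mem_pos hr hsep s'.N _ s'.bal (ES.emb d ω) σ a0 (ES.near d ω σ) (a4 _ fun c hc => ?_) m
  obtain ⟨i, hi⟩ := hσ c hc
  exact ⟨i, by rw [hi]⟩

end Crest.Agent.R314
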