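import Crest.Agent.R314.CoreA

/-! Core: serving one request by doubling the moved fraction of the belief. -/

set_option autoImplicit false

namespace Crest.Agent.R314

open Finset MeasureTheory

variable {Λ X : Type} [Fintype Λ] [DecidableEq Λ] [MetricSpace X] [Fintype X] [DecidableEq X]
  {r0 : ℝ} {n k : ℕ} {a0 : X} {CT CE : ℝ}

omit [MetricSpace X] [Fintype X] in
theorem CoreB_push_smul {Θ : Type} [Fintype Θ] (β : Θ → ℝ) (o : Θ → Fin k → X) (m : ℝ) :
    push (fun θ => m * β θ) o = m • push β o := by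
  funext c
  simp only [push, Pi.smul_apply, smul_eq_mul, mul_sum, mul_ite, mul_zero]

omit [MetricSpace X] [Fintype X] in
theorem CoreB_push_nonneg {Θ : Type} [Fintype Θ] {β : Θ → ℝ} (hβ : ∀ θ, 0 ≤ β θ)
    (o : Θ → Fin k → X) (c : Fin k → X) : 0 ≤ push β o c :=
  sum_nonneg fun θ _ => by split_ifs; exacts [hβ θ, le_rfl]

theorem CoreB_push_sum {Θ : Type} [Fintype Θ] {β : Θ → ℝ} (hβ1 : ∑ θ, β θ = 1)
    (o : Θ → Fin k → X) : ∑ c, push β o c = 1 := by
  simpa only [mul_one, hβ1] using sum_push β o fun _ => 1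

theorem reach_request (TS : TSys Λ X r0 n k CT) (ES : ESys Λ X r0 n k a0 CE) (hr : 0 < r0)
    (hsep : ∀ x y : X, dist x y ≤ r0 → x = y) (hCT : 0 ≤ CT) (hCE : 0 ≤ CE) (hk : 1 ≤ k)
    (d : ES.D) {Θ : Type} [Fintype Θ] (β : Θ → ℝ) (hβ : ∀ θ, 0 ≤ β θ) (hβ1 : ∑ θ, β θ = 1)
    (o : Θ → Fin k → X) (j : Θ → Fin k) (σ : X) (ζ : ℝ) (hζ : 0 < ζ) :
    ∃ d', Reach TS ES d (push β o) d' (push β fun θ => Function.update (o θ) (j θ) σ)
      (3 * CE * Lg k * ∑ θ, β θ * dist (o θ (j θ)) σ + ζ) (fun P => σ ∈ P) := by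
  obtain ⟨o', ho'⟩ : ∃ o' : Θ → Fin k → X, o' = fun θ => Function.update (o θ) (j θ) σ := ⟨_, rfl⟩
  obtain ⟨b, hb⟩ : ∃ b : ℝ → (Fin k → X) → ℝ, ∀ l, b l = (1 - l) • push β o + l • push β o' :=
    ⟨_, fun _ => rfl⟩
  obtain ⟨D, hD⟩ : ∃ D, D = ∑ θ, β θ * dist (o θ (j θ)) σ := ⟨_, rfl⟩
  have hD0 : 0 ≤ D := hD ▸ sum_nonneg fun θ _ => mul_nonneg (hβ θ) dist_nonneg
  have hk' : (1 : ℝ) ≤ k := by exact_mod_cast hk
  have hLg : 1 ≤ Lg k := le_add_of_nonneg_right (Real.log_nonneg hk')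
  have move : ∀ (d : ES.D) (l m : ℝ), 0 ≤ m → Reach TS ES d (b l) d (b (l + m))
      (m * ∑ θ, β θ * (ES.φ d σ - ES.φ d (o θ (j θ)) +
        ∫ ω, rel r0 ((ES.emb d ω).lab (o θ (j θ))) ((ES.emb d ω).lab σ) ∂ES.P))
      (fun _ => True) := by
    intro d l m hm
    have h := reach_move TS ES hr hCT hk d ((1 - l - m) • push β o + l • push β o')
      (fun θ => m * β θ) (fun θ => mul_nonneg hm (hβ θ)) o j σ
    rw [← ho', CoreB_push_smul, CoreB_push_smul] at h
    simp only [mul_assoc, ← mul_sum] at h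
    convert h using 1
    · rw [hb]; module
    · rw [hb]; module
  have step : ∀ (d : ES.D) (l z : ℝ), 0 < l → l ≤ 1 → 0 < z → ∃ d', Reach TS ES d (b l) d'
      (b (l + l)) (z + l * (CE * (1 + Real.log (k / l)) * D)) (fun _ => True) := by
    intro d l z hl hl1 hz
    obtain ⟨d', h1, h2⟩ := reach_emb TS ES hr hCT hk d (b l)
      (fun c => by
        rw [hb]
        exact add_nonneg (mul_nonneg (sub_nonneg.2 hl1) (CoreB_push_nonneg hβ _ c))
          (mul_nonneg hl.le (CoreB_push_nonneg hβ _ c)))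
      (by
        simp only [hb, Pi.add_apply, Pi.smul_apply, smul_eq_mul, sum_add_distrib, ← mul_sum,
          CoreB_push_sum hβ1]
        ring) σ l z hl
      (by
        have c0 : ∀ c : Fin k → X, 0 ≤ ∑ i, if c i = σ then (1 : ℝ) else 0 := fun c =>
          sum_nonneg fun i _ => by split_ifs <;> norm_num
        have h3 : 0 ≤ ∑ θ, β θ * ∑ i, if o θ i = σ then (1 : ℝ) else 0 :=
          sum_nonneg fun θ _ => mul_nonneg (hβ θ) (c0 _)
        have h4 : 1 ≤ ∑ θ, β θ * ∑ i, if o' θ i = σ then (1 : ℝ) else 0 := by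
          refine hβ1.ge.trans (sum_le_sum fun θ _ => le_mul_of_one_le_right (hβ θ) ?_)
          refine le_trans (le_of_eq ?_) (single_le_sum
            (f := fun i => if o' θ i = σ then (1 : ℝ) else 0)
            (fun i _ => by split_ifs <;> norm_num) (mem_univ (j θ)))
          simp [ho']
        unfold massB
        simp only [hb, Pi.add_apply, Pi.smul_apply, smul_eq_mul, add_mul, sum_add_distrib,
          mul_assoc, ← mul_sum, sum_push]
        nlinarith [mul_nonneg (sub_nonneg.2 hl1) h3]) hz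
    refine ⟨d', (h1.trans TS ES (move d' l l hl.le)).mono TS ES ?_⟩
    refine add_le_add le_rfl (mul_le_mul_of_nonneg_left ?_ hl.le)
    rw [hD, mul_sum]
    exact sum_le_sum fun θ _ =>
      (mul_le_mul_of_nonneg_left (h2 _) (hβ θ)).trans (le_of_eq (by ring))
  have main : ∀ z : ℝ, 0 < z → ∀ (N : ℕ) (d : ES.D), ∃ d', Reach TS ES d (b ((1 / 2) ^ N)) d' (b 1)
      (CE * D * (Lg k * (1 - (1 / 2) ^ N) + (2 - (N + 2) * (1 / 2) ^ N)) + N * z)
      (fun _ => True) := by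
    intro z hz N
    induction N with
    | zero =>
      intro d
      have h := move d 1 0 le_rfl
      refine ⟨d, ?_⟩
      simpa using h
    | succ N ih =>
      intro d
      obtain ⟨d₁, h1⟩ := step d ((1 / 2) ^ (N + 1)) z (by positivity)
        (pow_le_one₀ (by norm_num) (by norm_num)) hz
      rw [show ((1 : ℝ) / 2) ^ (N + 1) + (1 / 2) ^ (N + 1) = (1 / 2) ^ N by ring] at h1
      obtain ⟨d₂, h2⟩ := ih d₁
      refine ⟨d₂, (h1.trans TS ES h2).mono TS ES ?_⟩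
      have h3 : 1 + Real.log (k / (1 / 2) ^ (N + 1)) ≤ Lg k + (N + 1) := by
        rw [one_div, inv_pow, div_inv_eq_mul, Real.log_mul (by positivity) (by positivity),
          Real.log_pow, Lg]
        have h4 : Real.log 2 ≤ 1 := by linarith [Real.log_two_lt_d9]
        have h5 : ((N + 1 : ℕ) : ℝ) * Real.log 2 ≤ ((N + 1 : ℕ) : ℝ) * 1 := by gcongr
        push_cast at h5 ⊢
        linarith
      have h4 : (1 / 2) ^ (N + 1) * (CE * (1 + Real.log (k / (1 / 2) ^ (N + 1))) * D) ≤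
          (1 / 2) ^ (N + 1) * (CE * (Lg k + (N + 1)) * D) := by gcongr
      push_cast
      refine (add_le_add (add_le_add le_rfl h4) le_rfl).trans (le_of_eq ?_)
      ring
  obtain ⟨K, hK⟩ : ∃ K, K = ∑ θ, β θ * (ES.φ d σ - ES.φ d (o θ (j θ)) +
      ∫ ω, rel r0 ((ES.emb d ω).lab (o θ (j θ))) ((ES.emb d ω).lab σ) ∂ES.P) := ⟨_, rfl⟩
  obtain ⟨N, hN⟩ := exists_pow_lt_of_lt_one (x := ζ / 2 / (|K| + 1)) (y := (1 / 2 : ℝ))
    (by positivity) (by norm_num)
  have h1 := move d 0 ((1 / 2) ^ N) (by positivity)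
  rw [zero_add, ← hK] at h1
  obtain ⟨d', h2⟩ := main (ζ / 2 / (N + 1)) (by positivity) N d
  have e0 : b 0 = push β o := by rw [hb]; module
  have e1 : b 1 = push β o' := by rw [hb]; module
  rw [e0] at h1
  rw [e1] at h2
  have h3 := reach_cover TS ES hr hsep hCT hk d' (push β o') (CoreB_push_nonneg hβ _)
    (CoreB_push_sum hβ1 _) σ fun c hc => by
      obtain ⟨θ, -, hθ⟩ := exists_ne_zero_of_sum_ne_zero hc
      have : o' θ = c := by by_contra h; exact hθ (if_neg h)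
      exact ⟨j θ, by rw [← this, ho']; simp⟩
  rw [← ho', ← hD]
  refine ⟨d', ((h1.trans TS ES h2).trans TS ES h3).mono TS ES ?_⟩
  have hp : (0 : ℝ) < (1 / 2) ^ N := by positivity
  have a1 : (1 / 2) ^ N * K ≤ ζ / 2 := by
    rw [lt_div_iff₀ (by positivity)] at hN
    nlinarith [le_abs_self K]
  have a2 : (N : ℝ) * (ζ / 2 / (N + 1)) ≤ ζ / 2 := by
    rw [← mul_div_assoc, div_le_iff₀ (by positivity)]
    nlinarith
  have a3 : CE * D * (Lg k * (1 - (1 / 2) ^ N) + (2 - (N + 2) * (1 / 2) ^ N)) ≤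
      CE * D * (3 * Lg k) := by
    refine mul_le_mul_of_nonneg_left ?_ (mul_nonneg hCE hD0)
    have b1 : 0 ≤ Lg k * (1 / 2) ^ N := by positivity
    have b2 : 0 ≤ ((N : ℝ) + 2) * (1 / 2) ^ N := by positivity
    linarith
  linarith

end Crest.Agent.R314
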