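import Crest.Agent.R314.CoreB

/-! Core: induction over the requests and the Bayesian bound. -/

set_option autoImplicit false
set_option linter.unusedSectionVars false
open Crest.LogicCS.KServer

namespace Crest.Agent.R314

open Finset MeasureTheory

section
variable {Λ X : Type} [Fintype Λ] [DecidableEq Λ] [MetricSpace X] [Fintype X] [DecidableEq X]
  {r0 : ℝ} {n k : ℕ} {a0 : X} {CT CE : ℝ}

theorem CoreC.dcost_congr {a a' : List X → Fin k} (h : ∀ l, l ≠ [] → a l = a' l) (c : Fin k → X)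
    (σ : List X) : dcost a c σ = dcost a' c σ := by
  cases σ with
  | nil => rfl
  | cons x σ =>
    have e : (fun l => a (x :: l)) = fun l => a' (x :: l) := funext fun l => h _ (List.cons_ne_nil _ _)
    rw [dcost, dcost, e, h _ (List.cons_ne_nil _ _)]

theorem CoreC.pathCost_nonneg (c : Fin k → X) (w : List (X × Fin k)) : 0 ≤ pathCost c w := by
  induction w generalizing c with
  | nil => exact le_rfl
  | cons p w ih => exact add_nonneg dist_nonneg (ih _)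

theorem CoreC.PhiB_push (ES : ESys Λ X r0 n k a0 CE) (d : ES.D) {Θ : Type} [Fintype Θ] (β : Θ → ℝ)
    (o : Θ → Fin k → X) : PhiB ES d (push β o) = ∑ θ, β θ * ∑ i, ES.φ d (o θ i) :=
  sum_push β o fun c => ∑ i, ES.φ d (c i)

theorem CoreC.PsiB_push (TS : TSys Λ X r0 n k CT) (t : TS.T) (H : HT Λ X n) {Θ : Type} [Fintype Θ]
    (β : Θ → ℝ) (o : Θ → Fin k → X) :
    PsiB TS t H (push β o) = ∑ θ, β θ * TS.ψ t fun i => H.lab (o θ i) :=
  sum_push β o fun c => TS.ψ t fun i => H.lab (c i)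

theorem CoreC.Lg_nonneg (k : ℕ) : 0 ≤ Lg k := by
  have := Real.log_natCast_nonneg k
  rw [Lg]; linarith

theorem CoreC.CP_nonneg : 0 ≤ CP := by unfold CP tau; norm_num

theorem CoreC.CJ_nonneg (hCT : 0 ≤ CT) (k : ℕ) : 0 ≤ CJ CT k := by
  have := CoreC.Lg_nonneg k
  unfold CJ tau; positivity

/-- the homogeneous form of the statement of `core_ind` -/
def CoreC.Gd (TS : TSys Λ X r0 n k CT) (ES : ESys Λ X r0 n k a0 CE) {Θ : Type} [Fintype Θ]
    (β : Θ → ℝ) (w : Θ → List (X × Fin k)) (o : Θ → Fin k → X) (d : ES.D) (z : ℝ) : Prop :=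
  ∃ J : ES.Ω → ℝ, Integrable J ES.P ∧
    ∫ ω, J ω ∂ES.P ≤ ∑ θ, β θ * (∑ i, ES.φ d (o θ i) + 3 * CE * Lg k * pathCost (o θ) (w θ) + z) ∧
    ∃ E : ℝ, ∀ (M : ℕ) (ω : ES.Ω) (s : St TS M) (c : Fin M → Fin k → X) (e : Fin M → ℝ),
      (∀ m, Tr (cfgM (c m)) (pos r0 (s.N m) (ES.emb d ω) a0) (e m)) →
      ∃ a : Fin M → List X → Fin k,
        ∑ θ, β θ * ∑ m, dcost (a m) (c m) ((w θ).map Prod.fst) ≤
          ∑ θ, β θ * (∑ m, e m + M * (CP * TS.ψ s.t fun i => (ES.emb d ω).lab (o θ i))) +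
            M * (CJ CT k * J ω) + E

namespace CoreC
variable {TS : TSys Λ X r0 n k CT} {ES : ESys Λ X r0 n k a0 CE} {Θ : Type} [Fintype Θ]
  {β : Θ → ℝ} {w : Θ → List (X × Fin k)} {o : Θ → Fin k → X} {d : ES.D} {z : ℝ}

theorem nn1 (hCE : 0 ≤ CE) (hz : 0 ≤ z) (θ : Θ) :
    0 ≤ ∑ i, ES.φ d (o θ i) + 3 * CE * Lg k * pathCost (o θ) (w θ) + z := by
  have h1 : 0 ≤ ∑ i, ES.φ d (o θ i) := sum_nonneg fun i _ => ES.nonneg _ _
  have h2 := Lg_nonneg k
  have h3 := pathCost_nonneg (o θ) (w θ)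
  positivity

theorem nn2 {M : ℕ} {e : Fin M → ℝ} (he : ∀ m, 0 ≤ e m) (t : TS.T) (u : Fin k → Lab Λ X n) :
    0 ≤ ∑ m, e m + M * (CP * TS.ψ t u) := by
  have h1 : 0 ≤ ∑ m, e m := sum_nonneg fun m _ => he m
  have h2 := CP_nonneg
  have h3 := TS.nonneg t u
  positivity

theorem Gd.nil (hCE : 0 ≤ CE) (hk : 1 ≤ k) (hβ : ∀ θ, 0 ≤ β θ) (hz : 0 ≤ z)
    (h : ∀ θ, β θ ≠ 0 → w θ = []) : Gd TS ES β w o d z := by
  refine ⟨fun _ => 0, integrable_zero _ _ _, ?_, 0, fun M ω s c e he => ⟨fun _ _ => ⟨0, hk⟩, ?_⟩⟩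
  · rw [integral_zero]
    exact sum_nonneg fun θ _ => mul_nonneg (hβ θ) (nn1 hCE hz θ)
  · rw [mul_zero, mul_zero, add_zero, add_zero]
    refine sum_le_sum fun θ _ => ?_
    by_cases h0 : β θ = 0
    · rw [h0, zero_mul, zero_mul]
    · refine mul_le_mul_of_nonneg_left ?_ (hβ θ)
      rw [h θ h0]
      exact le_of_eq_of_le (sum_eq_zero fun m _ => rfl) (nn2 (fun m => (he m).nonneg) _ _)

theorem Gd.scale (h : Gd TS ES β w o d z) {μ : ℝ} (hμ : 0 ≤ μ) :
    Gd TS ES (fun θ => μ * β θ) w o d z := by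
  obtain ⟨J, h1, h2, E, h3⟩ := h
  refine ⟨fun ω => μ * J ω, h1.const_mul μ, ?_, μ * E, fun M ω s c e he => ?_⟩
  · rw [integral_const_mul]
    simp only [mul_assoc μ, ← mul_sum]
    exact mul_le_mul_of_nonneg_left h2 hμ
  · obtain ⟨a, ha⟩ := h3 M ω s c e he
    refine ⟨a, ?_⟩
    simp only [mul_assoc μ, ← mul_sum]
    have := mul_le_mul_of_nonneg_left ha hμ
    linarith

theorem Gd.one (hr : 0 < r0) (hsep : ∀ x y : X, dist x y ≤ r0 → x = y) (hCT : 0 ≤ CT)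
    (hCE : 0 ≤ CE) (hk : 1 ≤ k) (hβ : ∀ θ, 0 ≤ β θ) (hβ1 : ∑ θ, β θ = 1) {ζ : ℝ} (hζ : 0 < ζ)
    {x : X} {j : Θ → Fin k} {w' : Θ → List (X × Fin k)}
    (hw : ∀ θ, β θ ≠ 0 → w θ = (x, j θ) :: w' θ)
    (ih : ∀ d', Gd TS ES β w' (fun θ => Function.update (o θ) (j θ) x) d' z) :
    Gd TS ES β w o d (z + ζ) := by
  obtain ⟨d', J₁, a1, a2, E₁, a3⟩ := reach_request TS ES hr hsep hCT hCE hk d β hβ hβ1 o j x ζ hζ
  obtain ⟨J₂, b1, b2, E₂, b3⟩ := ih d'
  have cst : ∀ y : ℝ, ∑ θ, β θ * y = y := fun y => by rw [← sum_mul, hβ1, one_mul]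
  refine ⟨fun ω => J₁ ω + J₂ ω, a1.add b1, ?_, E₁ + E₂, fun M ω s c e he => ?_⟩
  · rw [integral_add a1 b1]
    have e1 : ∑ θ, β θ * (∑ i, ES.φ d (o θ i) + 3 * CE * Lg k * pathCost (o θ) (w θ) + (z + ζ)) =
        ∑ θ, β θ * (∑ i, ES.φ d (o θ i) + 3 * CE * Lg k * (dist (o θ (j θ)) x +
          pathCost (Function.update (o θ) (j θ) x) (w' θ)) + (z + ζ)) := by
      refine sum_congr rfl fun θ _ => ?_
      by_cases h0 : β θ = 0
      · rw [h0, zero_mul, zero_mul]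
      · rw [hw θ h0, pathCost]
    rw [e1]
    rw [PhiB_push, PhiB_push] at a2
    simp only [mul_add, sum_add_distrib, cst, mul_left_comm (β _) (3 * CE * Lg k), ← mul_sum]
      at a2 b2 ⊢
    linarith
  · obtain ⟨s', t, c1, c2, c3⟩ := a3 M ω s
    choose i hi using fun m => Tr.lazy (c m) ((he m).trans (c1 m)) (c2 m)
    obtain ⟨a', ha'⟩ := b3 M ω s' _ _ hi
    refine ⟨fun m l => if l.tail = [] then i m else a' m l.tail, ?_⟩
    have e1 : ∑ θ, β θ * ∑ m, dcost (fun l => if l.tail = [] then i m else a' m l.tail) (c m)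
        ((w θ).map Prod.fst) = ∑ θ, β θ * (∑ m, dist (c m (i m)) x +
          ∑ m, dcost (a' m) (Function.update (c m) (i m) x) ((w' θ).map Prod.fst)) := by
      refine sum_congr rfl fun θ _ => ?_
      by_cases h0 : β θ = 0
      · rw [h0, zero_mul, zero_mul]
      · rw [hw θ h0, ← sum_add_distrib]
        congr 1
        refine sum_congr rfl fun m _ => ?_
        rw [List.map_cons, dcost]
        simp only [List.tail_cons, if_true]
        congr 1
        exact dcost_congr (fun l hl => if_neg hl) _ _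
    rw [e1]
    rw [PsiB_push, PsiB_push] at c3
    simp only [mul_add, sum_add_distrib, sum_sub_distrib, cst, mul_left_comm (β _) (M : ℝ),
      mul_left_comm (β _) CP, ← mul_sum] at c3 ha' ⊢
    linarith

/-- the part of the weights whose first request is `x` -/
noncomputable def part (β : Θ → ℝ) (w : Θ → List (X × Fin k)) (x : X) (θ : Θ) : ℝ :=
  if (w θ).head?.map Prod.fst = some x then β θ else 0

theorem part_nonneg (hβ : ∀ θ, 0 ≤ β θ) (x : X) (θ : Θ) : 0 ≤ part β w x θ := by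
  rw [part]; split_ifs
  exacts [hβ θ, le_rfl]

theorem sum_part_le (hβ : ∀ θ, 0 ≤ β θ) {g : Θ → ℝ} (hg : ∀ θ, 0 ≤ g θ) :
    ∑ x, ∑ θ, part β w x θ * g θ ≤ ∑ θ, β θ * g θ := by
  rw [sum_comm]
  refine sum_le_sum fun θ _ => ?_
  rw [← sum_mul]
  refine mul_le_mul_of_nonneg_right ?_ (hg θ)
  simp only [part]
  cases w θ with
  | nil => simpa using hβ θ
  | cons p l => simp

theorem Gd.glue (hCE : 0 ≤ CE) (hk : 1 ≤ k) (hβ : ∀ θ, 0 ≤ β θ) (hz : 0 ≤ z)
    (h : ∀ x, Gd TS ES (part β w x) w o d z) : Gd TS ES β w o d z := by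
  choose J h1 h2 E h3 using h
  refine ⟨fun ω => ∑ x, J x ω, integrable_finsetSum _ fun x _ => h1 x, ?_, ∑ x, E x,
    fun M ω s c e he => ?_⟩
  · rw [integral_finsetSum _ fun x _ => h1 x]
    exact (sum_le_sum fun x _ => h2 x).trans (sum_part_le hβ (nn1 hCE hz))
  · choose a ha using fun x => h3 x M ω s c e he
    refine ⟨fun m l => l.head?.elim ⟨0, hk⟩ fun x => a x m l, ?_⟩
    have e1 : ∑ θ, β θ * ∑ m, dcost (fun l => l.head?.elim ⟨0, hk⟩ fun x => a x m l) (c m)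
        ((w θ).map Prod.fst) =
        ∑ x, ∑ θ, part β w x θ * ∑ m, dcost (a x m) (c m) ((w θ).map Prod.fst) := by
      rw [sum_comm]
      refine sum_congr rfl fun θ _ => ?_
      simp only [part]
      cases w θ with
      | nil => simp [dcost]
      | cons p l =>
        simp only [List.head?_cons, Option.map_some, Option.some.injEq, ite_mul, zero_mul,
          sum_ite_eq, mem_univ, if_true]
        rfl
    rw [e1]
    refine (sum_le_sum fun x _ => ha x).trans ?_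
    rw [sum_add_distrib, sum_add_distrib, ← mul_sum, ← mul_sum]
    have := sum_part_le (w := w) hβ fun θ =>
      nn2 (fun m => (he m).nonneg) s.t fun i => (ES.emb d ω).lab (o θ i)
    linarith

theorem ind (hr : 0 < r0) (hsep : ∀ x y : X, dist x y ≤ r0 → x = y) (hCT : 0 ≤ CT)
    (hCE : 0 ≤ CE) (hk : 1 ≤ k) {ζ : ℝ} (hζ : 0 < ζ) (T : ℕ) :
    ∀ (β : Θ → ℝ) (w : Θ → List (X × Fin k)) (o : Θ → Fin k → X) (d : ES.D), (∀ θ, 0 ≤ β θ) →
      (∀ θ, (w θ).length ≤ T) → Gd TS ES β w o d (ζ * T) := by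
  induction T with
  | zero =>
    intro β w o d hβ hw
    exact Gd.nil hCE hk hβ (by positivity) fun θ _ => List.length_eq_zero_iff.1 (Nat.le_zero.1 (hw θ))
  | succ T ih =>
    intro β w o d hβ hw
    refine Gd.glue hCE hk hβ (by positivity) fun x => ?_
    have hp := part_nonneg (w := w) hβ x
    rcases (sum_nonneg fun θ (_ : θ ∈ univ) => hp θ).eq_or_lt with h0 | h0
    · exact Gd.nil hCE hk hp (by positivity) fun θ h =>
        absurd ((sum_eq_zero_iff_of_nonneg fun θ _ => hp θ).1 h0.symm θ (mem_univ θ)) h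
    · set μ := ∑ θ, part β w x θ with hμ
      have e : part β w x = fun θ => μ * (μ⁻¹ * part β w x θ) :=
        funext fun θ => (mul_inv_cancel_left₀ h0.ne' _).symm
      have hp' : ∀ θ, 0 ≤ μ⁻¹ * part β w x θ := fun θ => mul_nonneg (inv_nonneg.2 h0.le) (hp θ)
      rw [e, Nat.cast_succ, mul_add, mul_one]
      refine Gd.scale ?_ h0.le
      refine Gd.one hr hsep hCT hCE hk hp' (by rw [← mul_sum, inv_mul_cancel₀ h0.ne']) hζ (x := x)
        (j := fun θ => (w θ).head?.elim ⟨0, hk⟩ Prod.snd) (w' := fun θ => (w θ).tail)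
        (fun θ h => ?_) fun d' => ih _ _ _ d' hp' fun θ => ?_
      · have h1 : (w θ).head?.map Prod.fst = some x := by
          by_contra h2
          exact h (by rw [part, if_neg h2, mul_zero])
        revert h1
        cases w θ with
        | nil => simp
        | cons p l =>
          intro h1
          have : p.1 = x := by simpa using h1
          subst this
          rfl
      · have := hw θ
        rw [List.length_tail]
        omega

end CoreC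

theorem core_ind (TS : TSys Λ X r0 n k CT) (ES : ESys Λ X r0 n k a0 CE) (hr : 0 < r0)
    (hsep : ∀ x y : X, dist x y ≤ r0 → x = y) (hCT : 0 ≤ CT) (hCE : 0 ≤ CE) (hk : 1 ≤ k)
    {Θ : Type} [Fintype Θ] (ζ : ℝ) (hζ : 0 < ζ) :
    ∀ (T : ℕ) (β : Θ → ℝ) (_ : ∀ θ, 0 ≤ β θ) (_ : ∑ θ, β θ = 1) (w : Θ → List (X × Fin k))
      (_ : ∀ θ, (w θ).length ≤ T) (o : Θ → Fin k → X) (d : ES.D),
      ∃ J : ES.Ω → ℝ, Integrable J ES.P ∧
        ∫ ω, J ω ∂ES.P ≤ PhiB ES d (push β o) +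
          3 * CE * Lg k * ∑ θ, β θ * pathCost (o θ) (w θ) + ζ * T ∧
        ∃ E : ℝ, ∀ (M : ℕ) (ω : ES.Ω) (s : St TS M) (c : Fin M → Fin k → X) (e : Fin M → ℝ),
          (∀ m, Tr (cfgM (c m)) (pos r0 (s.N m) (ES.emb d ω) a0) (e m)) →
          ∃ a : Fin M → List X → Fin k,
            ∑ m, ∑ θ, β θ * dcost (a m) (c m) ((w θ).map Prod.fst) ≤
              ∑ m, e m + M * (CP * PsiB TS s.t (ES.emb d ω) (push β o) + CJ CT k * J ω) + E := by
  intro T β hβ hβ1 w hw o d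
  obtain ⟨J, h1, h2, E, h3⟩ := CoreC.ind (TS := TS) hr hsep hCT hCE hk hζ T β w o d hβ hw
  have cst : ∀ y : ℝ, ∑ θ, β θ * y = y := fun y => by rw [← sum_mul, hβ1, one_mul]
  refine ⟨J, h1, ?_, E, fun M ω s c e he => ?_⟩
  · rw [CoreC.PhiB_push]
    simpa only [mul_add, sum_add_distrib, cst, mul_left_comm (β _) (3 * CE * Lg k), ← mul_sum]
      using h2
  · obtain ⟨a, ha⟩ := h3 M ω s c e he
    refine ⟨a, ?_⟩
    rw [CoreC.PsiB_push, sum_comm]
    simp only [mul_add, sum_add_distrib, cst, mul_left_comm (β _) (M : ℝ),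
      mul_left_comm (β _) CP, ← mul_sum] at ha ⊢
    linarith

end

theorem core {CT CE : ℝ} (hCT : 0 ≤ CT) (hCE : 0 ≤ CE) (hT : TSysExists CT) (hE : ESysExists CE) :
    BayesBound (12 * CE * (32 * tau * CT + 20 * tau)) := by
  classical
  intro k hk X _ _ s
  have hk1 : 1 ≤ k := by omega
  obtain ⟨r0, n, hr, hsep, ⟨ES⟩⟩ := hE X (s ⟨0, hk1⟩) k hk1
  obtain ⟨TS⟩ := hT (Option (X ⊕ X)) X r0 hr n k hk1
  set Δ : ℝ := ∑ p : X × X, dist p.1 p.2 with hΔ
  have hΔ' : ∀ x y : X, dist x y ≤ Δ := fun x y =>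
    single_le_sum (f := fun p : X × X => dist p.1 p.2) (fun _ _ => dist_nonneg) (mem_univ (x, y))
  set Ψ : ℝ := ∑ H : HT (Option (X ⊕ X)) X n, TS.ψ TS.t0 fun i => H.lab (s i) with hΨ
  set Φ : ℝ := ∑ i, ES.φ ES.d0 (s i) with hΦ
  refine ⟨k * Δ + CP * Ψ + CJ CT k * (Φ + 1) + 1, fun Θ _ β w hβ hβ1 => ?_⟩
  have cst : ∀ y : ℝ, ∑ θ, β θ * y = y := fun y => by rw [← sum_mul, hβ1, one_mul]
  set T : ℕ := univ.sup fun θ => (w θ).length with hTd
  obtain ⟨J, h1, h2, E, h3⟩ := core_ind TS ES hr hsep hCT hCE hk1 (1 / ((T : ℝ) + 1))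
    (by positivity) T β hβ hβ1 w (fun θ => le_sup (f := fun θ => (w θ).length) (mem_univ θ))
    (fun _ => s) ES.d0
  obtain ⟨ω, hω⟩ := exists_le_integral h1
  obtain ⟨N, hN, hN'⟩ := bal_exists (M := ⌈E⌉₊ + 1) (TS.al TS.t0) (TS.valid _ TS.ok0) k
    (TS.root _ TS.ok0)
  have hc : (cfgM s).card = k := by simp [cfgM]
  obtain ⟨a, ha⟩ := h3 (⌈E⌉₊ + 1) ω ⟨TS.t0, N, TS.ok0, hN, hN'⟩ (fun _ => s) (fun _ => k * Δ)
    fun m => by
      have := Tr.of_card (P := cfgM s) (P' := pos r0 (N m) (ES.emb ES.d0 ω) (s ⟨0, hk1⟩)) hΔ'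
        (by rw [hc, card_pos, hN'])
      rwa [hc] at this
  set Pc : ℝ := ∑ θ, β θ * pathCost s (w θ) with hPc
  have hPc0 : 0 ≤ Pc := sum_nonneg fun θ _ => mul_nonneg (hβ θ) (CoreC.pathCost_nonneg _ _)
  rw [CoreC.PhiB_push, cst] at h2
  rw [CoreC.PsiB_push, cst] at ha
  have b1 : 1 / ((T : ℝ) + 1) * T ≤ 1 := by
    rw [div_mul_eq_mul_div, one_mul, div_le_one (by positivity)]; linarith
  have b2 : (TS.ψ TS.t0 fun i => (ES.emb ES.d0 ω).lab (s i)) ≤ Ψ :=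
    single_le_sum (f := fun H : HT (Option (X ⊕ X)) X n => TS.ψ TS.t0 fun i => H.lab (s i))
      (fun _ _ => TS.nonneg _ _) (mem_univ _)
  have b3 : Lg k ≤ 2 * Real.log (k + 1) := by
    have hk' : (2 : ℝ) ≤ k := by exact_mod_cast hk
    have c1 : Real.log k ≤ Real.log (k + 1) := Real.log_le_log (by linarith) (by linarith)
    have c2 : 1 ≤ Real.log (k + 1) := by
      rw [Real.le_log_iff_exp_le (by linarith)]
      linarith [Real.exp_one_lt_d9]
    rw [Lg]; linarith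
  have b4 : CJ CT k * (3 * CE * Lg k * Pc) ≤
      12 * CE * (32 * tau * CT + 20 * tau) * Real.log (k + 1) ^ 2 * Pc := by
    have c0 := CoreC.Lg_nonneg k
    have c1 : Lg k ^ 2 ≤ (2 * Real.log (k + 1)) ^ 2 := pow_le_pow_left₀ c0 b3 2
    have c2 : 0 ≤ 3 * CE * (32 * tau * CT + 20 * tau) * Pc := by unfold tau; positivity
    have := mul_le_mul_of_nonneg_left c1 c2
    rw [CJ]
    linarith
  have b5 : CJ CT k * J ω ≤ CJ CT k * (Φ + 3 * CE * Lg k * Pc + 1) :=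
    mul_le_mul_of_nonneg_left (by linarith) (CoreC.CJ_nonneg hCT k)
  have b6 := mul_le_mul_of_nonneg_left b2 CoreC.CP_nonneg
  have b7 : E ≤ ((⌈E⌉₊ + 1 : ℕ) : ℝ) := by
    push_cast; linarith [Nat.le_ceil E]
  have hM : (0 : ℝ) ≤ ((⌈E⌉₊ + 1 : ℕ) : ℝ) := Nat.cast_nonneg _
  obtain ⟨m, -, hm⟩ := exists_le_of_sum_le (s := (univ : Finset (Fin (⌈E⌉₊ + 1)))) univ_nonempty
    (f := fun m => ∑ θ, β θ * dcost (a m) s ((w θ).map Prod.fst))
    (g := fun _ => 12 * CE * (32 * tau * CT + 20 * tau) * Real.log (k + 1) ^ 2 * Pc +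
      (k * Δ + CP * Ψ + CJ CT k * (Φ + 1) + 1)) (ha.trans (by
        simp only [sum_const, card_univ, Fintype.card_fin, nsmul_eq_mul]
        have b8 : CP * (TS.ψ TS.t0 fun i => (ES.emb ES.d0 ω).lab (s i)) + CJ CT k * J ω ≤
            12 * CE * (32 * tau * CT + 20 * tau) * Real.log (k + 1) ^ 2 * Pc +
              (CP * Ψ + CJ CT k * (Φ + 1)) := by linarith
        have := mul_le_mul_of_nonneg_left b8 hM
        linarith))
  exact ⟨a m, hm⟩

end Crest.Agent.R314
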