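import Crest.Agent.R314.PosA

/-! Positions: cost of changing the partition (movement of the anchors). -/

set_option autoImplicit false

namespace Crest.Agent.R314

open Finset

variable {Λ X : Type} [Fintype Λ] [DecidableEq Λ] [MetricSpace X]

/-- movement of the anchors above the threshold `β` -/
noncomputable def PosB_mov (r0 β : ℝ) : {n : ℕ} → NT Λ n → HT Λ X n → X → HT Λ X n → X → ℝ
  | 0, N, _, a, _, a' => (NT.tot N : ℝ) * max (dist a a' - β) 0
  | n + 1, N, H, a, H', a' => (N.1 : ℝ) * max (dist a a' - β) 0 +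
      ∑ c, PosB_mov r0 β (N.2 c) (H.2 c).2 (clip (2 * rr r0 (n + 1)) a (H.2 c).1)
        (H'.2 c).2 (clip (2 * rr r0 (n + 1)) a' (H'.2 c).1)

/-- the anchors on the path of `y` move by at most `g` -/
def PosB_Dom (r0 : ℝ) : {n : ℕ} → HT Λ X n → X → HT Λ X n → X → X → ℝ → Prop
  | 0, _, a, _, a', _, g => dist a a' ≤ g
  | n + 1, H, a, H', a', y, g => dist a a' ≤ g ∧
      PosB_Dom r0 (H.2 (H'.1 y)).2 (clip (2 * rr r0 (n + 1)) a (H.2 (H'.1 y)).1)
        (H'.2 (H'.1 y)).2 (clip (2 * rr r0 (n + 1)) a' (H'.2 (H'.1 y)).1) y g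

omit [DecidableEq Λ] in
theorem PosB_tr (r0 : ℝ) : ∀ {n : ℕ} (N : NT Λ n) (H : HT Λ X n) (a : X) (H' : HT Λ X n) (a' : X),
    Tr (pos r0 N H a) (pos r0 N H' a') (PosB_mov r0 0 N H a H' a')
  | 0, N, _, a, _, a' => by
    simp only [pos, PosB_mov, sub_zero, max_eq_left (dist_nonneg (x := a) (y := a'))]
    exact Tr.replicate _ a a'
  | n + 1, N, H, a, H', a' => by
    simp only [pos, PosB_mov, sub_zero, max_eq_left (dist_nonneg (x := a) (y := a'))]
    exact (Tr.replicate _ a a').add (Tr.sum _ fun c _ => PosB_tr r0 _ _ _ _ _)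

theorem PosB_max {β φ : ℝ} (h : β ≤ φ) (x : ℝ) : max (x - β) 0 ≤ φ - β + max (x - φ) 0 :=
  max_le (by linarith [le_max_left (x - φ) 0]) (by linarith [le_max_right (x - φ) 0])

omit [DecidableEq Λ] in
theorem PosB_shift (r0 : ℝ) {β φ : ℝ} (h : β ≤ φ) :
    ∀ {n : ℕ} (N : NT Λ n) (H : HT Λ X n) (a : X) (H' : HT Λ X n) (a' : X),
      PosB_mov r0 β N H a H' a' ≤ (φ - β) * N.tot + PosB_mov r0 φ N H a H' a'
  | 0, N, _, a, _, a' => by
    simp only [PosB_mov]
    nlinarith [mul_le_mul_of_nonneg_left (PosB_max h (dist a a')) (Nat.cast_nonneg (NT.tot N))]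
  | n + 1, N, H, a, H', a' => by
    have h1 := mul_le_mul_of_nonneg_left (PosB_max h (dist a a')) (Nat.cast_nonneg N.1)
    have h2 := sum_le_sum fun c (_ : c ∈ univ) => PosB_shift r0 h (N.2 c) (H.2 c).2
      (clip (2 * rr r0 (n + 1)) a (H.2 c).1) (H'.2 c).2 (clip (2 * rr r0 (n + 1)) a' (H'.2 c).1)
    rw [sum_add_distrib, ← mul_sum] at h2
    simp only [PosB_mov, NT.tot]
    push_cast
    nlinarith

theorem PosB_clip {ρ : ℝ} (hρ : 0 ≤ ρ) (a z : X) : dist a (clip ρ a z) ≤ ρ := by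
  unfold clip
  split_ifs with h
  · exact h
  · simpa using hρ

omit [Fintype Λ] [DecidableEq Λ] in
theorem PosB_Dom.le {r0 : ℝ} : ∀ {n : ℕ} {H : HT Λ X n} {a : X} {H' : HT Λ X n} {a' y : X} {g : ℝ},
    PosB_Dom r0 H a H' a' y g → dist a a' ≤ g
  | 0, _, _, _, _, _, _, h => h
  | _ + 1, _, _, _, _, _, _, h => h.1

omit [Fintype Λ] [DecidableEq Λ] in
theorem PosB_dom1 {r0 : ℝ} (hr : 0 < r0) : ∀ {n : ℕ} (H : HT Λ X n) (a : X) (H' : HT Λ X n)
    (a' y : X) (g : ℝ), dist a a' + 4 * SS r0 (n + 1) ≤ g → PosB_Dom r0 H a H' a' y g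
  | 0, _, a, _, a', _, g, h => by
    have := SS_nonneg hr (0 + 1)
    change dist a a' ≤ g
    linarith
  | n + 1, H, a, H', a', y, g, h => by
    have h0 := SS_nonneg hr (n + 1 + 1)
    refine ⟨by linarith, PosB_dom1 hr _ _ _ _ _ _ ?_⟩
    have hρ : 0 ≤ 2 * rr r0 (n + 1) := by linarith [rr_pos hr (n + 1)]
    have h1 := PosB_clip hρ a (H.2 (H'.1 y)).1
    have h2 := PosB_clip hρ a' (H'.2 (H'.1 y)).1
    have h3 := dist_triangle4 (clip (2 * rr r0 (n + 1)) a (H.2 (H'.1 y)).1) a a'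
      (clip (2 * rr r0 (n + 1)) a' (H'.2 (H'.1 y)).1)
    rw [dist_comm _ a] at h3
    rw [SS_succ] at h
    linarith

omit [Fintype Λ] [DecidableEq Λ] in
theorem PosB_near {r0 : ℝ} : ∀ {n : ℕ} {H : HT Λ X n} {y a : X}, Near r0 H y a → dist y a ≤ rr r0 n
  | 0, _, _, _, h => h
  | _ + 1, _, _, _, h => h.1

omit [Fintype Λ] [DecidableEq Λ] in
theorem PosB_clip_eq {r0 : ℝ} (hr : 0 < r0) {n : ℕ} {H : HT Λ X (n + 1)} {y a : X}
    (h : Near r0 H y a) : clip (2 * rr r0 (n + 1)) a (H.2 (H.1 y)).1 = (H.2 (H.1 y)).1 := by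
  have h1 := h.1
  have h2 := (PosB_near h.2).trans (rr_mono hr (Nat.le_succ n))
  have h3 := dist_triangle_left a (H.2 (H.1 y)).1 y
  exact if_pos (by linarith)

omit [Fintype Λ] in
theorem PosB_dom2 {r0 : ℝ} (hr : 0 < r0) : ∀ {n : ℕ} (H : HT Λ X n) (a : X) (H' : HT Λ X n)
    (a' y : X) (g : ℝ), Near r0 H y a → Near r0 H' y a' →
    max (dist a a') (anc (H.lab y) (H'.lab y)) + 5 * tau * rel r0 (H.lab y) (H'.lab y) ≤ g →
    PosB_Dom r0 H a H' a' y g
  | 0, H, a, H', a', y, g, _, _, h => by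
    have h1 := le_max_left (dist a a') (anc (H.lab y) (H'.lab y))
    simp only [rel, mul_zero, add_zero] at h
    exact h1.trans h
  | n + 1, H, a, H', a', y, g, hH, hH', h => by
    have h1 := le_max_left (dist a a') (anc (H.lab y) (H'.lab y))
    have h2 := le_max_right (dist a a') (anc (H.lab y) (H'.lab y))
    by_cases hc : H.1 y = H'.1 y
    · have h3 : 0 ≤ 5 * tau * rel r0 (H.lab y) (H'.lab y) :=
        mul_nonneg (by unfold tau; norm_num) (rel_nonneg hr _ _)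
      refine ⟨by linarith, ?_⟩
      rw [PosB_clip_eq hr hH']
      have e : rel r0 (H.lab y) (H'.lab y) =
          rel r0 (HT.lab (H.2 (H.1 y)).2 y) (HT.lab (H'.2 (H'.1 y)).2 y) := if_pos hc
      have e' : anc (H.lab y) (H'.lab y) = max (dist (H.2 (H.1 y)).1 (H'.2 (H'.1 y)).1)
          (anc (HT.lab (H.2 (H.1 y)).2 y) (HT.lab (H'.2 (H'.1 y)).2 y)) := rfl
      have := PosB_dom2 hr (H.2 (H.1 y)).2 (H.2 (H.1 y)).1 (H'.2 (H'.1 y)).2 (H'.2 (H'.1 y)).1 y g
        hH.2 hH'.2 (by rw [← e, ← e']; linarith)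
      have e2 := PosB_clip_eq hr hH
      rw [hc] at e2 this
      rw [e2]
      exact this
    · refine PosB_dom1 hr _ _ _ _ _ _ ?_
      have e : rel r0 (H.lab y) (H'.lab y) = SS r0 (n + 1) := if_neg hc
      have h3 := SS_nonneg hr n
      have h4 := rr_pos hr n
      rw [e, SS_succ] at h
      rw [SS_succ, SS_succ, rr_succ]
      unfold tau at h ⊢
      linarith

/-- the offline mass above the threshold -/
noncomputable def PosB_W {Θ : Type} [Fintype Θ] {k : ℕ} (b : Θ → ℝ) (p : Θ → Fin k → Option X)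
    (G : Θ → Fin k → ℝ) (β : ℝ) : ℝ :=
  ∑ θ, b θ * ∑ i, if (p θ i).isSome then max (G θ i - β) 0 else 0

omit [MetricSpace X] in
theorem PosB_W_nonneg {Θ : Type} [Fintype Θ] {k : ℕ} {b : Θ → ℝ} (hb : ∀ θ, 0 ≤ b θ)
    (p : Θ → Fin k → Option X) (G : Θ → Fin k → ℝ) (β : ℝ) : 0 ≤ PosB_W b p G β :=
  sum_nonneg fun θ _ => mul_nonneg (hb θ) (sum_nonneg fun i _ => by
    split_ifs
    exacts [le_max_right _ _, le_rfl])

omit [MetricSpace X] in
theorem PosB_W_shift {Θ α : Type} [Fintype Θ] {k : ℕ} (b : Θ → ℝ) (p : Θ → Fin k → Option X)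
    (G : Θ → Fin k → ℝ) (f : X → α) {β φ : ℝ} (h : β ≤ φ)
    (hG : ∀ θ i y, p θ i = some y → φ ≤ G θ i) :
    PosB_W b p G β = (φ - β) * ∑ θ, b θ * (cntO (fun i => (p θ i).map f) : ℝ) + PosB_W b p G φ := by
  unfold PosB_W cntO
  rw [mul_sum, ← sum_add_distrib]
  refine sum_congr rfl fun θ _ => ?_
  rw [mul_left_comm, ← mul_add, card_filter]
  push_cast
  congr 1
  rw [mul_sum, ← sum_add_distrib]
  refine sum_congr rfl fun i _ => ?_
  cases hp : p θ i with
  | none => simp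
  | some y =>
    have := hG θ i y hp
    simp only [Option.isSome_some, if_true, Option.map_some, mul_one]
    rw [max_eq_left (by linarith), max_eq_left (by linarith)]
    ring

omit [MetricSpace X] in
theorem PosB_W_split {Θ : Type} [Fintype Θ] {k : ℕ} (b : Θ → ℝ) (p : Θ → Fin k → Option X)
    (G : Θ → Fin k → ℝ) (s : X → Λ) (β : ℝ) :
    ∑ c, PosB_W b (fun θ i => (p θ i).filter fun y => s y = c) G β = PosB_W b p G β := by
  unfold PosB_W
  rw [sum_comm]
  refine sum_congr rfl fun θ _ => ?_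
  rw [← mul_sum, sum_comm]
  congr 1
  refine sum_congr rfl fun i _ => ?_
  cases hp : p θ i with
  | none => simp [hp]
  | some y => simp [hp]

omit [Fintype Λ] [MetricSpace X] in
theorem PosB_subL {n : ℕ} (H : HT Λ X (n + 1)) (c : Λ) (o : Option X) :
    subL c (o.map H.lab) = (o.filter fun y => H.1 y = c).map (HT.lab (H.2 c).2) := by
  cases o with
  | none => rfl
  | some y =>
    by_cases h : H.1 y = c
    · subst h
      simp [subL, HT.lab, Option.filter_some]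
    · simp [subL, HT.lab, Option.filter_some, h]

omit [MetricSpace X] in
theorem PosB_tot {M k : ℕ} {Θ : Type} [Fintype Θ] (b : Θ → ℝ) : ∀ {n : ℕ} (N : Fin M → NT Λ n)
    (A : AL Λ n) (e : Θ → Fin k → Option (Lab Λ X n)), Bal N A → A.Valid → AL.Dom b A e →
    ∑ m, ((N m).tot : ℝ) ≤ M * (4 * ∑ θ, b θ * (cntO (e θ) : ℝ))
  | 0, N, A, e, hN, hA, hD => by
    rw [← Nat.cast_sum, hN.2]
    exact (Nat.floor_le (mul_nonneg (Nat.cast_nonneg M) hA)).trans
      (mul_le_mul_of_nonneg_left hD (Nat.cast_nonneg M))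
  | _ + 1, N, A, e, hN, hA, hD => by
    rw [← Nat.cast_sum, hN.2.1]
    exact (Nat.floor_le (mul_nonneg (Nat.cast_nonneg M) hA.1)).trans
      (mul_le_mul_of_nonneg_left hD.1 (Nat.cast_nonneg M))

/-- reduction to thresholds above the movement of the root anchor -/
theorem PosB_red {r0 : ℝ} {M k n : ℕ} {Θ : Type} [Fintype Θ] (b : Θ → ℝ) (N : Fin M → NT Λ n)
    (A : AL Λ n) (H : HT Λ X n) (a : X) (H' : HT Λ X n) (a' : X) (p : Θ → Fin k → Option X)
    (G : Θ → Fin k → ℝ) (hN : Bal N A) (hA : A.Valid)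
    (hD : AL.Dom b A fun θ i => (p θ i).map H'.lab)
    (hG : ∀ θ i y, p θ i = some y → PosB_Dom r0 H a H' a' y (G θ i))
    (h : ∀ β, dist a a' ≤ β → ∑ m, PosB_mov r0 β (N m) H a H' a' ≤ M * (4 * PosB_W b p G β))
    (β : ℝ) : ∑ m, PosB_mov r0 β (N m) H a H' a' ≤ M * (4 * PosB_W b p G β) := by
  rcases le_total (dist a a') β with hβ | hβ
  · exact h β hβ
  have h1 := sum_le_sum fun m (_ : m ∈ univ) => PosB_shift r0 hβ (N m) H a H' a'
  rw [sum_add_distrib, ← mul_sum] at h1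
  have h2 := mul_le_mul_of_nonneg_left (PosB_tot b N A _ hN hA hD) (sub_nonneg.2 hβ)
  have h3 := h _ le_rfl
  rw [PosB_W_shift b p G H'.lab hβ fun θ i y hy => (hG θ i y hy).le]
  nlinarith

theorem PosB_thr {r0 : ℝ} {M k : ℕ} {Θ : Type} [Fintype Θ] {b : Θ → ℝ} (hb : ∀ θ, 0 ≤ b θ)
    (G : Θ → Fin k → ℝ) : ∀ {n : ℕ} (N : Fin M → NT Λ n) (A : AL Λ n) (H : HT Λ X n) (a : X)
    (H' : HT Λ X n) (a' : X) (p : Θ → Fin k → Option X), Bal N A → A.Valid →
    (AL.Dom b A fun θ i => (p θ i).map H'.lab) →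
    (∀ θ i y, p θ i = some y → PosB_Dom r0 H a H' a' y (G θ i)) →
    ∀ β, ∑ m, PosB_mov r0 β (N m) H a H' a' ≤ M * (4 * PosB_W b p G β)
  | 0, N, A, H, a, H', a', p, hN, hA, hD, hG => by
    refine PosB_red b N A H a H' a' p G hN hA hD hG fun β hβ => ?_
    have := PosB_W_nonneg hb p G β
    simp only [PosB_mov, max_eq_right (sub_nonpos.2 hβ), mul_zero, sum_const_zero]
    positivity
  | n + 1, N, A, H, a, H', a', p, hN, hA, hD, hG => by
    refine PosB_red b N A H a H' a' p G hN hA hD hG fun β hβ => ?_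
    simp only [PosB_mov, max_eq_right (sub_nonpos.2 hβ), mul_zero, zero_add]
    rw [sum_comm, ← PosB_W_split b p G H'.1 β, mul_sum, mul_sum]
    refine sum_le_sum fun c _ => PosB_thr hb G (fun m => (N m).2 c) (A.2 c) _ _ _ _ _
      (hN.2.2.2 c) (hA.2.2 c) ?_ ?_ β
    · simpa only [PosB_subL] using hD.2 c
    · intro θ i y hy
      obtain ⟨h1, h2⟩ := Option.filter_eq_some_iff.1 hy
      obtain rfl : H'.1 y = c := of_decide_eq_true h2
      exact (hG θ i y h1).2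

/-- Moving the anchors from those of `H` to those of `H'` is paid by the offline mass. -/
theorem tr_pos_anchor {r0 : ℝ} (hr : 0 < r0) {M n k : ℕ} {Θ : Type} [Fintype Θ] (b : Θ → ℝ)
    (hb : ∀ θ, 0 ≤ b θ) (o : Θ → Fin k → X) (N : Fin M → NT Λ n) (A : AL Λ n) (hN : Bal N A)
    (hA : A.Valid) (H H' : HT Λ X n) (a : X) (hH : ∀ y, Near r0 H y a) (hH' : ∀ y, Near r0 H' y a)
    (hD : AL.Dom b A fun θ i => some (H'.lab (o θ i))) :
    ∃ t : Fin M → ℝ, (∀ m, Tr (pos r0 (N m) H a) (pos r0 (N m) H' a) (t m)) ∧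
      ∑ m, t m ≤ M * (4 * ∑ θ, b θ * ∑ i, (anc (H.lab (o θ i)) (H'.lab (o θ i)) +
        5 * tau * rel r0 (H.lab (o θ i)) (H'.lab (o θ i)))) := by
  refine ⟨fun m => PosB_mov r0 0 (N m) H a H' a, fun m => PosB_tr r0 _ _ _ _ _, ?_⟩
  refine (PosB_thr (r0 := r0) hb (fun θ i => anc (H.lab (o θ i)) (H'.lab (o θ i)) +
    5 * tau * rel r0 (H.lab (o θ i)) (H'.lab (o θ i))) N A H a H' a (fun θ i => some (o θ i))
    hN hA hD (fun θ i y hy => ?_) 0).trans_eq ?_
  · obtain rfl : o θ i = y := Option.some.inj hy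
    refine PosB_dom2 hr _ _ _ _ _ _ (hH _) (hH' _) ?_
    rw [dist_self, max_eq_right (anc_nonneg _ _)]
  · unfold PosB_W
    congr 2
    refine sum_congr rfl fun θ _ => ?_
    congr 1
    refine sum_congr rfl fun i _ => ?_
    simp only [Option.isSome_some, if_true, sub_zero]
    exact max_eq_left (add_nonneg (anc_nonneg _ _)
      (mul_nonneg (by unfold tau; norm_num) (rel_nonneg hr _ _)))

end Crest.Agent.R314
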