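import Crest.Agent.R314.Round

/-! Balanced rounding of fractional allocations on trees. -/

set_option autoImplicit false

namespace Crest.Agent.R314

open Finset

variable {Λ : Type} [Fintype Λ] [DecidableEq Λ]

omit [DecidableEq Λ] in
theorem RoundT_tot {M : ℕ} : ∀ {n : ℕ} {N : Fin M → NT Λ n} {A : AL Λ n}, Bal N A →
    Bal1 (fun m => (N m).tot) ∧ ∑ m, (N m).tot = ⌊(M : ℝ) * A.val⌋₊
  | 0, _, _, h => h
  | _ + 1, _, _, h => ⟨h.1, h.2.1⟩

omit [DecidableEq Λ] in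
theorem RoundT_val : ∀ {n : ℕ} {A : AL Λ n}, A.Valid → 0 ≤ A.val
  | 0, _, h => h
  | _ + 1, _, h => h.1

theorem RoundT_floor {M a b : ℝ} (hM : 0 ≤ M) (ha : 0 ≤ a) (hb : 0 ≤ b) :
    |(⌊M * a⌋₊ : ℝ) - ⌊M * b⌋₊| ≤ M * |a - b| + 1 := by
  have h1 := Nat.floor_le (mul_nonneg hM ha)
  have h2 := Nat.floor_le (mul_nonneg hM hb)
  have h3 := Nat.lt_floor_add_one (M * a)
  have h4 := Nat.lt_floor_add_one (M * b)
  have h5 := mul_le_mul_of_nonneg_left (le_abs_self (a - b)) hM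
  have h6 := mul_le_mul_of_nonneg_left (neg_abs_le (a - b)) hM
  rw [abs_le]
  constructor <;> linarith

theorem bal_tree {r0 : ℝ} (hr : 0 < r0) {M : ℕ} : ∀ {n : ℕ} (N : Fin M → NT Λ n) (A A' : AL Λ n)
    (_ : Bal N A) (_ : A.Valid) (_ : A'.Valid) (ρ' : Fin M → ℕ) (_ : Bal1 ρ')
    (_ : ∑ m, ρ' m = ⌊(M : ℝ) * A'.val⌋₊),
    ∃ N' : Fin M → NT Λ n, Bal N' A' ∧ (∀ m, (N' m).tot = ρ' m) ∧
      ∑ m, NT.dist r0 (N m) (N' m) ≤
        rr r0 n * ∑ m, |((N m).tot : ℝ) - ρ' m| + 16 * (M * AL.dist r0 A A' + errT Λ r0 n) := by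
  intro n
  induction n with
  | zero =>
    intro N A A' _ _ _ ρ' h1 h2
    refine ⟨ρ', ⟨h1, h2⟩, fun _ => rfl, ?_⟩
    have := rr_pos hr 0
    simp only [NT.dist, AL.dist, errT, sum_const_zero, mul_zero, add_zero]
    positivity
  | succ n ih =>
    intro N A A' hN hA hA' ρ' h1 h2
    have hM : (0 : ℝ) ≤ M := Nat.cast_nonneg M
    have hrr := rr_pos hr n
    let B : Fin M → Option Λ → ℕ := fun m j => j.elim (N m).1 fun c => ((N m).2 c).tot
    let g' : Λ → ℕ := fun c => ⌊(M : ℝ) * (A'.2 c).val⌋₊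
    have hB : ∀ m, ∑ j, B m j = (N m).tot := fun m => Fintype.sum_option _
    have hg' : ∑ c, g' c ≤ ∑ m, ρ' m := by
      rw [h2]
      refine Nat.le_floor ?_
      push_cast
      refine le_trans ?_ (mul_le_mul_of_nonneg_left hA'.2.1 hM)
      rw [mul_sum]
      exact sum_le_sum fun c _ => Nat.floor_le (mul_nonneg hM (RoundT_val (hA'.2.2 c)))
    obtain ⟨B', b1, b2, b3, b4⟩ := bal_matrix B
      (fun j => by
        cases j with
        | none => exact hN.2.2.1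
        | some c => exact (RoundT_tot (hN.2.2.2 c)).1)
      (by simp only [hB]; exact hN.1) ρ' (fun j => j.elim (∑ m, ρ' m - ∑ c, g' c) g') h1
      (by rw [Fintype.sum_option]; exact (Nat.sub_add_cancel hg').symm)
    choose N' c1 c2 c3 using fun c => ih (fun m => (N m).2 c) (A.2 c) (A'.2 c) (hN.2.2.2 c)
      (hA.2.2 c) (hA'.2.2 c) (fun m => B' m (some c)) (b1 _) (b3 _)
    have ht : ∀ m, NT.tot (Λ := Λ) (n := n + 1) (B' m none, fun c => N' c m) = ρ' m := fun m => by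
      rw [← b2, Fintype.sum_option]
      exact congrArg _ (sum_congr rfl fun c _ => c2 c m)
    refine ⟨fun m => (B' m none, fun c => N' c m), ⟨?_, ?_, b1 none, c1⟩, ht, ?_⟩
    · simp only [ht]; exact h1
    · simp only [ht]; exact h2
    set D := ∑ m, |((N m).tot : ℝ) - ρ' m| with hD
    have hD0 : 0 ≤ D := sum_nonneg fun _ _ => abs_nonneg _
    have d1 : ∑ c, |((∑ m, B m (some c) : ℕ) : ℝ) - g' c| ≤
        ∑ c, (M * |(A.2 c).val - (A'.2 c).val| + 1) := sum_le_sum fun c _ => by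
      rw [show ∑ m, B m (some c) = _ from (RoundT_tot (hN.2.2.2 c)).2]
      exact RoundT_floor hM (RoundT_val (hA.2.2 c)) (RoundT_val (hA'.2.2 c))
    have d2 : |((∑ m, B m none : ℕ) : ℝ) - (∑ m, ρ' m - ∑ c, g' c : ℕ)| ≤
        D + ∑ c, |((∑ m, B m (some c) : ℕ) : ℝ) - g' c| := by
      refine le_trans (le_of_eq ?_) ((abs_sub _ _).trans
        (add_le_add (abs_sum_le_sum_abs _ _) (abs_sum_le_sum_abs _ _)))
      simp only [← hB, Fintype.sum_option]
      push_cast [hg']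
      rw [sum_sub_distrib, sum_sub_distrib, sum_add_distrib, sum_comm]
      ring_nf
    have d3 : ∑ c, ∑ m, |(((N m).2 c).tot : ℝ) - B' m (some c)| ≤
        ∑ m, ∑ j, |(B m j : ℝ) - B' m j| := by
      rw [sum_comm]
      refine sum_le_sum fun m _ => ?_
      rw [Fintype.sum_option]
      exact le_add_of_nonneg_left (abs_nonneg _)
    simp only [hB] at b4
    rw [Fintype.sum_option (fun j => |((∑ m, B m j : ℕ) : ℝ) - _|)] at b4
    simp only [Option.elim] at b4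
    have d4 : ∑ c, ∑ m, |(((N m).2 c).tot : ℝ) - B' m (some c)| ≤
        8 * D + 8 * ∑ c, (M * |(A.2 c).val - (A'.2 c).val| + 1) := by linarith
    calc _ = ∑ c, (rr r0 n * ∑ m, |(((N m).2 c).tot : ℝ) - B' m (some c)| +
          ∑ m, NT.dist r0 ((N m).2 c) (N' c m)) := by
          simp only [NT.dist, c2]
          rw [sum_comm]
          simp only [sum_add_distrib, mul_sum]
      _ ≤ ∑ c, (2 * rr r0 n * ∑ m, |(((N m).2 c).tot : ℝ) - B' m (some c)| +
          16 * (M * AL.dist r0 (A.2 c) (A'.2 c) + errT Λ r0 n)) :=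
          sum_le_sum fun c _ => by linarith [c3 c]
      _ ≤ 2 * rr r0 n * (8 * D + 8 * ∑ c, (M * |(A.2 c).val - (A'.2 c).val| + 1)) +
          ∑ c, 16 * (M * AL.dist r0 (A.2 c) (A'.2 c) + errT Λ r0 n) := by
          rw [sum_add_distrib, ← mul_sum]
          gcongr
      _ = 16 * rr r0 n * D + 16 * (M * AL.dist r0 A A' + errT Λ r0 (n + 1)) := by
          simp only [AL.dist, errT, sum_add_distrib, ← mul_sum, sum_const, card_univ, nsmul_eq_mul]
          ring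
      _ ≤ _ := by
          rw [rr_succ, tau]
          nlinarith [mul_nonneg hrr.le hD0]

omit [DecidableEq Λ] in
theorem RoundT_zero (M : ℕ) : ∀ n : ℕ, ∃ (N : NT Λ n) (A : AL Λ n),
    N.tot = 0 ∧ A.val = 0 ∧ A.Valid ∧ Bal (fun _ : Fin M => N) A
  | 0 => ⟨(0 : ℕ), (0 : ℝ), rfl, rfl, le_rfl, fun _ _ => Nat.le_succ _, by simp [NT.tot, AL.val]⟩
  | n + 1 => by
    obtain ⟨N, A, h1, h2, h3, h4⟩ := RoundT_zero M n
    exact ⟨(0, fun _ => N), (0, fun _ => A), by simp [NT.tot, h1], rfl,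
      ⟨le_rfl, by simp [h2], fun _ => h3⟩, fun _ _ => Nat.le_succ _, by simp [NT.tot, AL.val, h1],
      fun _ _ => Nat.le_succ _, fun _ => h4⟩

/-- existence of a first balanced rounding -/
theorem bal_exists {M : ℕ} {n : ℕ} (A : AL Λ n) (hA : A.Valid) (k : ℕ) (hk : A.val = k) :
    ∃ N : Fin M → NT Λ n, Bal N A ∧ ∀ m, (N m).tot = k := by
  obtain ⟨N, A₀, -, -, h3, h4⟩ := RoundT_zero (Λ := Λ) M n
  obtain ⟨N', a, b, -⟩ := bal_tree one_pos _ A₀ A h4 h3 hA (fun _ => k) (fun _ _ => Nat.le_succ _)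
    (by rw [hk, ← Nat.cast_mul, Nat.floor_natCast]; simp)
  exact ⟨N', a, b⟩

end Crest.Agent.R314
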