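import Crest.Agent.R314.Sys
import Crest.Agent.R314.PosB
import Crest.Agent.R314.RoundT

/-! Core: beliefs, copies and the relation `Reach`. -/

set_option autoImplicit false

namespace Crest.Agent.R314

open Finset MeasureTheory

variable {Λ X : Type} [Fintype Λ] [DecidableEq Λ] [MetricSpace X] [Fintype X] [DecidableEq X]
  {r0 : ℝ} {n k : ℕ} {a0 : X} {CT CE : ℝ}

/-- the law of the configuration `o θ` under the weights `β` -/
noncomputable def push {Θ : Type} [Fintype Θ] (β : Θ → ℝ) (o : Θ → Fin k → X) :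
    (Fin k → X) → ℝ := fun c => ∑ θ, if o θ = c then β θ else 0

/-- expected number of offline servers at `y` -/
noncomputable def massB (b : (Fin k → X) → ℝ) (y : X) : ℝ :=
  ∑ c, b c * ∑ i, if c i = y then (1 : ℝ) else 0

/-- the embedding potential of a belief -/
noncomputable def PhiB (ES : ESys Λ X r0 n k a0 CE) (d : ES.D) (b : (Fin k → X) → ℝ) : ℝ :=
  ∑ c, b c * ∑ i, ES.φ d (c i)

/-- the tree potential of a belief -/
noncomputable def PsiB (TS : TSys Λ X r0 n k CT) (t : TS.T) (H : HT Λ X n)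
    (b : (Fin k → X) → ℝ) : ℝ :=
  ∑ c, b c * TS.ψ t fun i => H.lab (c i)

/-- a tree state with `M` balanced integral copies -/
structure St (TS : TSys Λ X r0 n k CT) (M : ℕ) where
  t : TS.T
  N : Fin M → NT Λ n
  ok : TS.ok t
  bal : Bal N (TS.al t)
  tot : ∀ m, (N m).tot = k

/-- weight of the tree potential -/
def CP : ℝ := 32 * tau

/-- weight of the random charges -/
noncomputable def CJ (CT : ℝ) (k : ℕ) : ℝ := (32 * tau * CT + 20 * tau) * Lg k

/-- From the embedding state `d` and belief `b` one can pass to `d'`, `b'` at amortised cost `c`,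
ending with virtual configurations that satisfy `Q`. -/
def Reach (TS : TSys Λ X r0 n k CT) (ES : ESys Λ X r0 n k a0 CE) (d : ES.D)
    (b : (Fin k → X) → ℝ) (d' : ES.D) (b' : (Fin k → X) → ℝ) (c : ℝ) (Q : Multiset X → Prop) :
    Prop :=
  ∃ J : ES.Ω → ℝ, Integrable J ES.P ∧
    PhiB ES d' b' + ∫ ω, J ω ∂ES.P ≤ PhiB ES d b + c ∧
    ∃ E : ℝ, ∀ (M : ℕ) (ω : ES.Ω) (s : St TS M), ∃ (s' : St TS M) (t : Fin M → ℝ),
      (∀ m, Tr (pos r0 (s.N m) (ES.emb d ω) a0) (pos r0 (s'.N m) (ES.emb d' ω) a0) (t m)) ∧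
      (∀ m, Q (pos r0 (s'.N m) (ES.emb d' ω) a0)) ∧
      ∑ m, t m + M * (CP * PsiB TS s'.t (ES.emb d' ω) b') ≤
        M * (CP * PsiB TS s.t (ES.emb d ω) b + CJ CT k * J ω) + E

end Crest.Agent.R314
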