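import Crest.Agent.R314.EProb

/-! Module C: contexts, objective, approximate equilibria, the logarithmic mass calculus and the
gradient functional. -/

set_option autoImplicit false

namespace Crest.Agent.R314

open Finset

variable {X : Type} [MetricSpace X] [Fintype X] [DecidableEq X] [Nonempty X]

/-- the context of a node inside the whole state -/
structure Ctx (X : Type) where
  /-- a heir is allowed -/
  allow : Prop
  /-- the mark of the parent, if the node is a heir child -/
  par : Option X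
  /-- mass in the shells of the chain above -/
  P : ℝ
  /-- mass of the gauge -/
  mG : ℝ
  /-- the other weights of the gauge -/
  Wr : ℕ → ℝ

/-- tolerances: tie-break weight `κ`, error `η`, least positive branch probability `t0` -/
structure Tol where
  κ : ℝ
  η : ℝ
  t0 : ℝ

structure Tol.Hyp (t : Tol) (p : Par) (X : Type) [MetricSpace X] (n : ℕ) : Prop where
  κ_pos : 0 < t.κ
  η_nonneg : 0 ≤ t.η
  η_le : t.η * (64 * p.G ^ 2) ≤ t.κ * p.r0
  t0_pos : 0 < t.t0
  t0_le : t.t0 ≤ 1
  cap_ge : ∀ l, l < n → ∀ c y : X, 0 < cap p l c y → t.t0 ≤ cap p l c y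
  cap_le : ∀ l, l < n → ∀ c y : X, cap p l c y < 1 → t.t0 ≤ 1 - cap p l c y

namespace Dom

variable {n : ℕ}

/-- the pointwise part of the objective -/
noncomputable def Val (p : Par) (par : Option X) (D : Dom X n) (y : X) : ℝ :=
  D.LV p y + D.PV p y + Hterm p par D y

noncomputable def obj (p : Par) (t : Tol) (c : Ctx X) (m : X → ℝ) (D : Dom X n) : ℝ :=
  ∑ y, m y * D.Val p c.par y + c.mG * p.nrm n (fun l => c.Wr l + D.Wt l) +
    c.P * (C3 * (lnkO c.par D + D.len)) + t.κ * (D.Links + lnkO c.par D / 2 ^ n)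

/-- movement of the anchor of the node itself -/
def adist (par : Option X) (D D' : Dom X n) : ℝ := par.elim 0 fun c => dist (bc c D) (bc c D')

/-- validity inside a context -/
def VC (p : Par) (c : Ctx X) (D : Dom X n) : Prop :=
  D.Valid p ∧ (c.allow ∨ D.ctr = none) ∧ lnkO c.par D ≤ p.r n / 16

/-- approximate equilibrium -/
def Eq (p : Par) (t : Tol) (c : Ctx X) (m : X → ℝ) (D : Dom X n) : Prop :=
  ∀ D' : Dom X n, VC p c D' → obj p t c m D ≤ obj p t c m D' +
    ∑ y, m y * dlt p D D' y (adist c.par D D') + c.P * adist c.par D D' + t.η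

/-- the mass of a branch -/
noncomputable def mb (p : Par) (m : X → ℝ) (D : Dom X (n + 1)) (b : Br X) : X → ℝ :=
  fun y => m y * D.tb p b y

/-- mass of the shell -/
noncomputable def msh (p : Par) (m : X → ℝ) (D : Dom X (n + 1)) : ℝ := ∑ y, m y * (1 - D.hc p y)

/-- mass of the gauge of the shell -/
noncomputable def gM (p : Par) (c : Ctx X) (m : X → ℝ) (D : Dom X (n + 1)) : ℝ :=
  if D.heir.isSome then msh p m D else c.mG

/-- weights of the gauge of the shell -/
def gW (c : Ctx X) (D : Dom X (n + 1)) (l : ℕ) : ℝ :=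
  (if D.heir.isSome then 0 else c.Wr l) + D.Wsh l

/-- the context of a child -/
noncomputable def cctx (p : Par) (c : Ctx X) (m : X → ℝ) (D : Dom X (n + 1)) : Br X → Ctx X
  | some none => ⟨True, D.ctr, c.P + msh p m D, ∑ y, m y * D.hc p y, fun _ => 0⟩
  | none => ⟨False, none, 0, gM p c m D, fun l => gW c D l - D.next.Wt l⟩
  | some (some z) =>
      ⟨True, none, 0, gM p c m D, fun l => gW c D l - (D.child (some (some z))).Wt l⟩

/-- normalised logarithmic value of a branch -/
noncomputable def Yb (p : Par) (c : Ctx X) (D : Dom X (n + 1)) : Br X → X → ℝ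
  | some none, y => p.nrm n (D.child (some none)).Wt + (D.child (some none)).LV p y
  | b, y => p.nrm (n + 1) (gW c D) + D.lv0 p b y + (D.child b).LV p y

/-- the heir is centred at `σ` -/
def Good (p : Par) (σ : X) (D : Dom X (n + 1)) : Prop :=
  ∃ q, D.heir = some q ∧ dist σ q.1 ≤ p.r n / 20

/-- the gradient functional -/
noncomputable def Diff (p : Par) (par : Option X) (D : Dom X n) (σ x : X) : ℝ :=
  D.Val p par σ - D.Val p par x + D.cut p x σ

end Dom

/-- a node in approximate equilibrium, without the assumptions on the mass near the request -/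
structure Sit0 (p : Par) (t : Tol) {n : ℕ} (c : Ctx X) (m : X → ℝ) (D : Dom X n) : Prop where
  hyp : p.Hyp X n
  tol : t.Hyp p X n
  vc : D.VC p c
  eq : D.Eq p t c m
  m_nonneg : ∀ y, 0 ≤ m y
  P_nonneg : 0 ≤ c.P
  mG_nonneg : 0 ≤ c.mG
  Wr_nonneg : ∀ l, l < n → 0 ≤ c.Wr l
  par_allow : c.par.isSome → c.allow
  plink : Dom.lnkO c.par D ≤ p.r n / 32

/-- a node in approximate equilibrium on the path of the request `σ` -/
structure Sit (p : Par) (t : Tol) (σ : X) {n : ℕ} (c : Ctx X) (m : X → ℝ) (D : Dom X n) : Prop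
    extends Sit0 p t c m D where
  small : t.κ ≤ t.t0 ^ n * m σ
  mG_pos : 0 < c.mG
  loc : c.allow → ∀ y, m y ≠ 0 → dist y σ ≤ p.r n

/-! ### the logarithmic mass calculus -/

/-- mass of the ball of radius `ρ` around `σ` -/
noncomputable def Mb (m : X → ℝ) (σ : X) (ρ : ℝ) : ℝ := ∑ y, if dist y σ ≤ ρ then m y else 0

noncomputable def ell (m : X → ℝ) (σ : X) (ρ : ℝ) : ℝ := -Real.log (Mb m σ ρ)

noncomputable def Lam (p : Par) (m : X → ℝ) (σ : X) : ℕ → ℝ
  | 0 => ell m σ 0
  | j + 1 => (ell m σ (4 * p.r (j + 1)) + Lam p m σ j) / 2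

noncomputable def Dl (p : Par) (m : X → ℝ) (σ : X) (n : ℕ) : ℝ := Lam p m σ n - ell m σ (4 * p.r n)

noncomputable def Pi1 (p : Par) (m : X → ℝ) (σ : X) (n : ℕ) : ℝ := Lam p m σ 0 - Lam p m σ n

noncomputable def Pi2 (p : Par) (m : X → ℝ) (σ : X) (n : ℕ) (P : ℝ) : ℝ :=
  Real.log ((Mb m σ (4 * p.r n) + P) / m σ)

/-- the mass near `σ` is concentrated (for a node of height `n+2`) -/
def Heavy (p : Par) (m : X → ℝ) (σ : X) (n : ℕ) : Prop :=
  Mb m σ (4 * p.r (n + 2)) ≤ (1 + 1 / C3) * Mb m σ (p.r n / 4)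

/-- the excess of a branch -/
noncomputable def Dom.Yx (p : Par) (σ : X) (m : X → ℝ) {n : ℕ} (D : Dom X (n + 1)) (b : Br X) : ℝ :=
  Lam p (Dom.mb p m D b) σ n - ell m σ (4 * p.r (n + 1))

/-- the base level of the branch values -/
noncomputable def Dom.beta (p : Par) (σ : X) (c : Ctx X) (m : X → ℝ) {n : ℕ} (D : Dom X (n + 1)) :
    ℝ :=
  if D.heir.isSome then 0 else K0 * p.S (n + 1) * (Real.log c.mG + ell m σ (4 * p.r (n + 1)))

end Crest.Agent.R314
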