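import Crest.Agent.R314.Sys

/-!
Module C: states of the embedding (`Dom`), branch probabilities, weights, the potentials
`LV` (logarithmic loss) and `PV` (structural penalties), validity.

A node of height `n+1` has scale `r = p.r n`.  A point `y` is captured by the *heir* mark `c` with
probability `cap n c y`, by a *top* mark `z` with probability `cap n z y` (marks are `r`-separated,
so at most one of them can capture `y`), and otherwise it goes to a *token cell* chosen by
exponential clocks with rates `nu`; all token cells use the same child `next`.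
-/

set_option autoImplicit false

namespace Crest.Agent.R314

open Finset

/-- static parameters: the bottom scale and the number of token radii -/
structure Par where
  r0 : ℝ
  G : ℕ

def K0 : ℝ := 8
def Gam : ℝ := 2 ^ 36
def C2 : ℝ := 2 ^ 43
def C1 : ℝ := 2 ^ 60
def C3 : ℝ := C1 + 2 * C2

namespace Par
def r (p : Par) (n : ℕ) : ℝ := rr p.r0 n
def S (p : Par) (n : ℕ) : ℝ := SS p.r0 n
/-- token radii, `1 ≤ m ≤ G` -/
noncomputable def rad (p : Par) (n m : ℕ) : ℝ := p.r n / 2 + m * (p.r n / (2 * p.G))
/-- probabilities of the token radii -/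
noncomputable def om (p : Par) (m : ℕ) : ℝ := 2 * m / (p.G * (p.G + 1))
/-- weighted logarithm of the total weights of the levels `< n` -/
noncomputable def nrm (p : Par) (n : ℕ) (W : ℕ → ℝ) : ℝ :=
  K0 * ∑ l ∈ range n, p.r l * Real.log (W l)
end Par

def clamp (t : ℝ) : ℝ := max 0 (min 1 t)

variable {X : Type} [MetricSpace X] [Fintype X] [DecidableEq X]

/-- standing assumptions on the parameters for the levels `< n` -/
structure Par.Hyp (p : Par) (X : Type) [MetricSpace X] (n : ℕ) : Prop where
  r0_pos : 0 < p.r0
  sep : ∀ x y : X, dist x y ≤ p.r0 → x = y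
  G_pos : 1 ≤ p.G
  fine : ∀ l, l < n → p.r l ≤ 2 * p.G * p.r0

/-- capture probability: `1` within `r/4`, `0` beyond `r/2` -/
noncomputable def cap (p : Par) (n : ℕ) (c y : X) : ℝ :=
  Real.sin (Real.pi / 2 * clamp (2 - 4 * dist y c / p.r n)) ^ 2

/-- ramp: `0` within `r/8`, `1` beyond `3r/16` -/
noncomputable def chi (p : Par) (n : ℕ) (c y : X) : ℝ := clamp (16 * dist y c / p.r n - 2)

/-- weights restricted to a ball -/
noncomputable def ballF (ν : X → ℝ) (y : X) (ρ : ℝ) (z : X) : ℝ := if dist y z ≤ ρ then ν z else 0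

/-- weight of a ball -/
noncomputable def ballW (ν : X → ℝ) (y : X) (ρ : ℝ) : ℝ := ∑ z, ballF ν y ρ z

/-- token loss -/
noncomputable def tok (p : Par) (n : ℕ) (ν : X → ℝ) (y : X) : ℝ :=
  -∑ m ∈ range p.G, p.om (m + 1) * Real.log (ballW ν y (p.rad n (m + 1)))

/-- bound for the probability that two token choices differ -/
noncomputable def dwin (p : Par) (n : ℕ) (ν : X → ℝ) (y : X) (ν' : X → ℝ) (y' : X) : ℝ :=
  ∑ m ∈ range p.G, p.om (m + 1) *
    (1 - (∑ z, min (ballF ν y (p.rad n (m + 1)) z) (ballF ν' y' (p.rad n (m + 1)) z)) /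
      ∑ z, max (ballF ν y (p.rad n (m + 1)) z) (ballF ν' y' (p.rad n (m + 1)) z))

/-- loss of the plain state with weights `f l` on the levels `l < n` -/
noncomputable def PL (p : Par) (n : ℕ) (f : ℕ → X → ℝ) (y : X) : ℝ :=
  K0 * ∑ l ∈ range n, p.r l * tok p l (f l) y

structure Node (X α : Type) where
  /-- the heir mark and its child -/
  heir : Option (X × α)
  /-- outer weights (used when there is a heir) -/
  w : ℕ → ℝ
  /-- token weights -/
  nu : X → ℝ
  /-- top marks: weight and child -/
  top : X → Option (ℝ × α)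
  /-- the common child of the token cells -/
  next : α

def Dom (X : Type) : ℕ → Type
  | 0 => PUnit
  | n + 1 => Node X (Dom X n)

/-- branches: `none` token cells, `some none` heir, `some (some z)` top mark `z` -/
abbrev Br (X : Type) := Option (Option X)

namespace Dom

variable {n : ℕ}

def heir (D : Dom X (n + 1)) : Option (X × Dom X n) := Node.heir D
def w (D : Dom X (n + 1)) : ℕ → ℝ := Node.w D
def nu (D : Dom X (n + 1)) : X → ℝ := Node.nu D
def top (D : Dom X (n + 1)) : X → Option (ℝ × Dom X n) := Node.top D
def next (D : Dom X (n + 1)) : Dom X n := Node.next D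
def mk (heir : Option (X × Dom X n)) (w : ℕ → ℝ) (nu : X → ℝ) (top : X → Option (ℝ × Dom X n))
    (next : Dom X n) : Dom X (n + 1) := Node.mk heir w nu top next

/-- capture probability of the heir -/
noncomputable def hc (p : Par) (D : Dom X (n + 1)) (y : X) : ℝ :=
  D.heir.elim 0 fun q => cap p n q.1 y
/-- capture probability of the top mark `z` -/
noncomputable def tc (p : Par) (D : Dom X (n + 1)) (z y : X) : ℝ :=
  (D.top z).elim 0 fun _ => cap p n z y
/-- branch probabilities -/
noncomputable def tb (p : Par) (D : Dom X (n + 1)) : Br X → X → ℝ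
  | none, y => 1 - D.hc p y - ∑ z, D.tc p z y
  | some none, y => D.hc p y
  | some (some z), y => D.tc p z y

def child (D : Dom X (n + 1)) : Br X → Dom X n
  | none => D.next
  | some none => D.heir.elim D.next Prod.snd
  | some (some z) => (D.top z).elim D.next Prod.snd

/-- the branch is present -/
def pres (D : Dom X (n + 1)) : Br X → Prop
  | none => True
  | some none => D.heir.isSome
  | some (some z) => (D.top z).isSome

def setChild (D : Dom X (n + 1)) : Br X → Dom X n → Dom X (n + 1)
  | none, E => mk D.heir D.w D.nu D.top E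
  | some none, E => mk (D.heir.map fun q => (q.1, E)) D.w D.nu D.top D.next
  | some (some z), E =>
      mk D.heir D.w D.nu (Function.update D.top z ((D.top z).map fun q => (q.1, E))) D.next

/-- shell weights in terms of the weights `W` of the children -/
def wshAux (W : Dom X n → ℕ → ℝ) (D : Dom X (n + 1)) (l : ℕ) : ℝ :=
  if l = n then ∑ z, D.nu z + ∑ z, (D.top z).elim 0 Prod.fst
  else W D.next l + ∑ z, (D.top z).elim 0 fun q => W q.2 l

/-- total weights seen from outside -/
def Wt : {n : ℕ} → Dom X n → ℕ → ℝ
  | 0, _ => fun _ => 1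
  | _ + 1, D => fun l => if D.heir.isSome then D.w l else wshAux Wt D l

/-- total weights of the shell (tokens and top marks) -/
def Wsh (D : Dom X (n + 1)) : ℕ → ℝ := wshAux Wt D

/-- the loss of the level of the node itself -/
noncomputable def lv0 (p : Par) (D : Dom X (n + 1)) : Br X → X → ℝ
  | none, y => K0 * p.r n * tok p n D.nu y
  | some none, _ => 0
  | some (some z), _ => -(K0 * p.r n * Real.log ((D.top z).elim 1 Prod.fst))

/-- the normaliser added on a branch -/
noncomputable def gau (p : Par) (D : Dom X (n + 1)) : Br X → ℝ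
  | some none => p.nrm n (Wt (D.child (some none)))
  | _ => if D.heir.isSome then p.nrm (n + 1) D.Wsh else 0

/-- logarithmic loss -/
noncomputable def LV (p : Par) : {n : ℕ} → Dom X n → X → ℝ
  | 0, _, _ => 0
  | n + 1, D, y => (if D.heir.isSome then -p.nrm (n + 1) D.w else 0) +
      ∑ b, D.tb p b y * (D.gau p b + D.lv0 p b y + LV p (D.child b) y)

/-- centre of the heir -/
def ctr : {n : ℕ} → Dom X n → Option X
  | 0, _ => none
  | _ + 1, D => D.heir.map Prod.fst

/-- link from the mark `c` to the centre of the child `D` -/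
def lnk (c : X) (D : Dom X n) : ℝ := D.ctr.elim 0 fun c' => dist c c'

def lnkO (par : Option X) (D : Dom X n) : ℝ := par.elim 0 fun c => lnk c D

/-- length of the chain of heirs -/
def len : {n : ℕ} → Dom X n → ℝ
  | 0, _ => 0
  | _ + 1, D => D.heir.elim 0 fun q => lnk q.1 q.2 + len q.2

/-- bottom centre of the chain of heirs that starts with the mark `c` and the child `D` -/
def bc : {n : ℕ} → X → Dom X n → X
  | 0, c, _ => c
  | _ + 1, c, D => D.heir.elim c fun q => bc q.1 q.2

noncomputable def hcap (p : Par) : {n : ℕ} → Dom X n → X → ℝ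
  | 0, _, _ => 0
  | _ + 1, D, y => D.hc p y

/-- the link penalty of a point of a heir child `D` whose parent mark is `par` -/
noncomputable def Hterm (p : Par) (par : Option X) (D : Dom X n) (y : X) : ℝ :=
  par.elim 0 fun c => lnk c D * (C1 * chi p n c y + C2 * (1 - D.hcap p y))

noncomputable def pv (p : Par) (D : Dom X (n + 1)) : Br X → X → ℝ
  | some none, y => Hterm p D.ctr (D.child (some none)) y
  | _, _ => Gam * p.r n + C3 * D.len

/-- structural penalties -/
noncomputable def PV (p : Par) : {n : ℕ} → Dom X n → X → ℝ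
  | 0, _, _ => 0
  | _ + 1, D, y => ∑ b, D.tb p b y * (D.pv p b y + PV p (D.child b) y)

/-- all links (tie-break) -/
noncomputable def Links : {n : ℕ} → Dom X n → ℝ
  | 0, _ => 0
  | n + 1, D => D.heir.elim 0 (fun q => lnk q.1 q.2 / 2 ^ n + Links q.2) + Links D.next +
      ∑ z, (D.top z).elim 0 fun q => Links q.2

def Valid (p : Par) : {n : ℕ} → Dom X n → Prop
  | 0, _ => True
  | n + 1, D => (∀ l, 0 < D.w l) ∧ (∀ z, 0 < D.nu z) ∧
      (∀ z q, D.top z = some q → 0 < q.1 ∧ Valid p q.2) ∧
      (∀ z z', (D.top z).isSome → (D.top z').isSome → z ≠ z' → p.r n ≤ dist z z') ∧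
      (Valid p D.next ∧ D.next.ctr = none) ∧
      ∀ q, D.heir = some q → Valid p q.2 ∧ lnk q.1 q.2 ≤ p.r n / 16 ∧
        ∀ z, (D.top z).isSome → p.r n ≤ dist q.1 z

/-! ### operations -/

/-- the state without marks -/
def plain (f : ℕ → X → ℝ) : (n : ℕ) → Dom X n
  | 0 => PUnit.unit
  | n + 1 => mk none (fun _ => 1) (f n) (fun _ => none) (plain f n)

/-- a heir at `c` with child `E` and a plain shell -/
def heirOf (c : X) (w : ℕ → ℝ) (f : ℕ → X → ℝ) (E : Dom X n) : Dom X (n + 1) :=
  mk (some (c, E)) w (f n) (fun _ => none) (plain f n)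

def flatShAux (F : Dom X n → ℕ → X → ℝ) (D : Dom X (n + 1)) (l : ℕ) (z : X) : ℝ :=
  if l = n then D.nu z + (D.top z).elim 0 Prod.fst
  else F D.next l z + ∑ z', (D.top z').elim 0 fun q => F q.2 l z

/-- plain weights that imitate `D` -/
noncomputable def flat : {n : ℕ} → Dom X n → ℕ → X → ℝ
  | 0, _ => fun _ _ => 1
  | n + 1, D => fun l z => D.heir.elim (flatShAux flat D l z) fun q =>
      D.w l * (flatShAux flat D l z / D.Wsh l / 2 +
        (if l = n then (if z = q.1 then 1 else 0) else flat q.2 l z / Wt q.2 l) / 2)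

/-- plain weights that imitate the shell of `D` -/
noncomputable def flatSh (D : Dom X (n + 1)) : ℕ → X → ℝ := flatShAux flat D

/-- halve the outer weights -/
noncomputable def scale : {n : ℕ} → Dom X n → Dom X n
  | 0, D => D
  | _ + 1, D => if D.heir.isSome then mk D.heir (fun l => D.w l / 2) D.nu D.top D.next
      else mk D.heir D.w (fun z => D.nu z / 2) (fun z => (D.top z).map fun q => (q.1 / 2, scale q.2))
        (scale D.next)

/-- halve the weights within `Q` of `σ` (heirless states) -/
noncomputable def half (σ : X) (Q : ℝ) : {n : ℕ} → Dom X n → Dom X n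
  | 0, D => D
  | _ + 1, D => mk D.heir D.w (fun z => if dist z σ ≤ Q then D.nu z / 2 else D.nu z)
      (fun z => if dist z σ ≤ Q then (D.top z).map fun q => (q.1 / 2, scale q.2) else D.top z)
      (half σ Q D.next)

/-- the weights within `Q` of `σ` (heirless states) -/
noncomputable def Loc (σ : X) (Q : ℝ) : {n : ℕ} → Dom X n → ℕ → ℝ
  | 0, _ => fun _ => 1
  | n + 1, D => fun l =>
      if l = n then ∑ z, if dist z σ ≤ Q then D.nu z + (D.top z).elim 0 Prod.fst else 0
      else Loc σ Q D.next l + ∑ z, if dist z σ ≤ Q then (D.top z).elim 0 fun q => Wt q.2 l else 0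

/-- plain weights that imitate the part within `Q` of `σ` (heirless states) -/
noncomputable def fl (σ : X) (Q : ℝ) : {n : ℕ} → Dom X n → ℕ → X → ℝ
  | 0, _ => fun _ _ => 1
  | n + 1, D => fun l z =>
      if l = n then (if dist z σ ≤ Q then D.nu z + (D.top z).elim 0 Prod.fst else 0)
      else fl σ Q D.next l z +
        ∑ z', if dist z' σ ≤ Q then (D.top z').elim 0 fun q => flat q.2 l z else 0

/-- remove the top marks near `σ` (heirless states), moving their weights and the extra weights
`f` to the tokens -/
noncomputable def clr (p : Par) (σ : X) (Q : ℝ) : {n : ℕ} → Dom X n → (ℕ → X → ℝ) → Dom X n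
  | 0, D, _ => D
  | n + 1, D, f => mk D.heir D.w
      (fun z => D.nu z + f n z +
        if dist z σ + p.S (n + 1) ≤ Q then (D.top z).elim 0 Prod.fst else 0)
      (fun z => if dist z σ + p.S (n + 1) ≤ Q then none else D.top z)
      (clr p σ Q D.next fun l z => f l z +
        ∑ z', if dist z' σ + p.S (n + 1) ≤ Q then (D.top z').elim 0 fun q => flat q.2 l z else 0)

/-- add a top mark -/
def addTop (D : Dom X (n + 1)) (σ : X) (a : ℝ) (E : Dom X n) : Dom X (n + 1) :=
  mk D.heir D.w D.nu (Function.update D.top σ (some (a, E))) D.next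

end Dom

end Crest.Agent.R314
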