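import Crest.Agent.R314.EDefs

/-! Module C: the randomness, the random partition `emb`, the expected distances `dlt`, `cut`. -/

set_option autoImplicit false

namespace Crest.Agent.R314

open Finset MeasureTheory ProbabilityTheory

variable {X : Type} [MetricSpace X] [Fintype X] [DecidableEq X]

/-- `z` wins the race of the clocks `E` with rates `w` -/
def IsWin (w E : X → ℝ) (z : X) : Prop := 0 < w z ∧ ∀ z', E z * w z' ≤ E z' * w z

/-- some element satisfying `P`, or the default -/
noncomputable def pick (P : X → Prop) (y : X) : X :=
  open Classical in if h : ∃ z, P z then Classical.choose h else y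

noncomputable def win (w E : X → ℝ) (y : X) : X := pick (IsWin w E) y

/-- randomness of one level: capture variable, token radius, clocks -/
abbrev Om1 (p : Par) (X : Type) := unitInterval × Fin p.G × (X → ℝ)

noncomputable def Pidx (p : Par) : Measure (Fin p.G) :=
  ∑ m : Fin p.G, ENNReal.ofReal (p.om (m.val + 1)) • Measure.dirac m

noncomputable def Pclk (X : Type) [Fintype X] : Measure (X → ℝ) :=
  Measure.pi fun _ => expMeasure 1

noncomputable def P1 (p : Par) (X : Type) [Fintype X] : Measure (Om1 p X) :=
  (volume : Measure unitInterval).prod ((Pidx p).prod (Pclk X))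

def Om (p : Par) (X : Type) : ℕ → Type
  | 0 => PUnit
  | n + 1 => Om1 p X × Om p X n

instance Om.measurableSpace (p : Par) (X : Type) : (n : ℕ) → MeasurableSpace (Om p X n)
  | 0 => (⊤ : MeasurableSpace PUnit)
  | n + 1 =>
    letI := Om.measurableSpace p X n
    inferInstanceAs (MeasurableSpace (Om1 p X × Om p X n))

noncomputable def PP (p : Par) (X : Type) [Fintype X] : (n : ℕ) → Measure (Om p X n)
  | 0 => Measure.dirac PUnit.unit
  | n + 1 => (P1 p X).prod (PP p X n)

/-- the symbols: `none` heir, `inl z` top mark, `inr z` token cell -/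
abbrev Sy (X : Type) := Option (X ⊕ X)

namespace Dom

variable {n : ℕ}

/-- the branch taken by `y` -/
noncomputable def br (p : Par) (D : Dom X (n + 1)) (U : ℝ) (y : X) : Br X :=
  open Classical in
  if U < D.hc p y then some none
  else if ∃ z, U < D.tc p z y then some (some (pick (fun z => U < D.tc p z y) y)) else none

noncomputable def sym (p : Par) (D : Dom X (n + 1)) (ω : Om1 p X) (y : X) : Sy X :=
  match D.br p ω.1 y with
  | some none => none
  | some (some z) => some (Sum.inl z)
  | none => some (Sum.inr (win (ballF D.nu y (p.rad n (ω.2.1.val + 1))) ω.2.2 y))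

/-- the anchor of the heir branch -/
noncomputable def hanc [Nonempty X] (D : Dom X (n + 1)) : X :=
  D.heir.elim (Classical.arbitrary X) fun q => bc q.1 q.2

/-- the random partition -/
noncomputable def emb [Nonempty X] (p : Par) : {n : ℕ} → Dom X n → Om p X n → HT (Sy X) X n
  | 0, _, _ => PUnit.unit
  | _ + 1, D, ω => (D.sym p ω.1, fun c =>
      match c with
      | none => (D.hanc, emb p (D.child (some none)) ω.2)
      | some (Sum.inl z) => (z, emb p (D.child (some (some z))) ω.2)
      | some (Sum.inr z) => (z, emb p D.next ω.2))

/-- expected change of the label of `y` (an anchor above has moved by `a`) -/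
noncomputable def dlt [Nonempty X] (p : Par) (D D' : Dom X n) (y : X) (a : ℝ) : ℝ :=
  ∫ ω, (rel p.r0 ((D.emb p ω).lab y) ((D'.emb p ω).lab y) +
    max a (anc ((D.emb p ω).lab y) ((D'.emb p ω).lab y))) ∂PP p X n

/-- expected tree distance -/
noncomputable def cut [Nonempty X] (p : Par) (D : Dom X n) (x y : X) : ℝ :=
  ∫ ω, rel p.r0 ((D.emb p ω).lab x) ((D.emb p ω).lab y) ∂PP p X n

/-- movement of the anchor of a branch -/
noncomputable def bdist [Nonempty X] (D D' : Dom X (n + 1)) : Br X → ℝ
  | some none => dist D.hanc D'.hanc
  | _ => 0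

end Dom

end Crest.Agent.R314
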