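import Crest.Agent.R314.Grad

/-! Module C: the embedding system. -/

set_option autoImplicit false
set_option linter.unusedSectionVars false

namespace Crest.Agent.R314

open Finset 

namespace EStepAux

/-- finitely many positive numbers have a positive lower bound -/
theorem exists_lb {α : Type} [Fintype α] (f : α → ℝ) :
    ∃ t : ℝ, 0 < t ∧ t ≤ 1 ∧ ∀ a, 0 < f a → t ≤ f a := by
  classical
  have h : ∀ s : Finset α, ∃ t : ℝ, 0 < t ∧ t ≤ 1 ∧ ∀ a ∈ s, 0 < f a → t ≤ f a := by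
    intro s
    induction s using Finset.induction_on with
    | empty => exact ⟨1, one_pos, le_rfl, by simp⟩
    | insert a s _ ih =>
      obtain ⟨t, h0, h1, h2⟩ := ih
      by_cases ha : 0 < f a
      · refine ⟨min t (f a), lt_min h0 ha, (min_le_left _ _).trans h1, fun b hb hb0 => ?_⟩
        rcases mem_insert.1 hb with rfl | hb
        · exact min_le_right _ _
        · exact (min_le_left _ _).trans (h2 b hb hb0)
      · refine ⟨t, h0, h1, fun b hb hb0 => ?_⟩
        rcases mem_insert.1 hb with rfl | hb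
        · exact absurd hb0 ha
        · exact h2 b hb hb0
  obtain ⟨t, h0, h1, h2⟩ := h univ
  exact ⟨t, h0, h1, fun a => h2 a (mem_univ a)⟩

variable {X : Type} [MetricSpace X] [Fintype X] [DecidableEq X]

theorem exists_par (X : Type) [MetricSpace X] [Fintype X] :
    ∃ (p : Par) (n : ℕ), p.Hyp X n ∧ ∀ x y : X, dist x y ≤ p.r n / 48 := by
  obtain ⟨t, h0, -, h2⟩ := exists_lb fun q : X × X => dist q.1 q.2
  obtain ⟨n, hn⟩ := pow_unbounded_of_one_lt (48 * (∑ q : X × X, dist q.1 q.2) / (t / 2))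
    (by norm_num : (1 : ℝ) < 65536)
  refine ⟨⟨t / 2, 65536 ^ n⟩, n, ⟨half_pos h0, fun x y h => ?_, Nat.one_le_pow _ _ (by norm_num),
    fun l hl => ?_⟩, fun x y => ?_⟩
  · by_contra hne
    have h3 := h2 (x, y) (dist_pos.2 hne)
    have h4 : dist x y ≤ t / 2 := h
    have h5 : t ≤ dist x y := h3
    linarith
  · have h3 : rr (t / 2) l ≤ rr (t / 2) n := rr_mono (half_pos h0) hl.le
    have h4 : 0 < rr (t / 2) n := rr_pos (half_pos h0) n
    show rr (t / 2) l ≤ 2 * ((65536 ^ n : ℕ) : ℝ) * (t / 2)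
    have h5 : rr (t / 2) n = ((65536 ^ n : ℕ) : ℝ) * (t / 2) := by
      unfold rr tau
      push_cast
      ring
    linarith
  · have h3 : dist x y ≤ ∑ q : X × X, dist q.1 q.2 :=
      single_le_sum (f := fun q : X × X => dist q.1 q.2) (fun _ _ => dist_nonneg) (mem_univ (x, y))
    rw [div_lt_iff₀ (half_pos h0)] at hn
    show dist x y ≤ t / 2 * (65536 : ℝ) ^ n / 48
    linarith

theorem exists_t0 (p : Par) (X : Type) [MetricSpace X] [Fintype X] (n : ℕ) :
    ∃ t : ℝ, 0 < t ∧ t ≤ 1 ∧ (∀ l, l < n → ∀ c y : X, 0 < cap p l c y → t ≤ cap p l c y) ∧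
      ∀ l, l < n → ∀ c y : X, cap p l c y < 1 → t ≤ 1 - cap p l c y := by
  obtain ⟨t, h0, h1, h2⟩ := exists_lb fun q : Fin n × X × X => cap p q.1 q.2.1 q.2.2
  obtain ⟨t', h0', -, h2'⟩ := exists_lb fun q : Fin n × X × X => 1 - cap p q.1 q.2.1 q.2.2
  exact ⟨min t t', lt_min h0 h0', (min_le_left _ _).trans h1,
    fun l hl c y h => (min_le_left _ _).trans (h2 (⟨l, hl⟩, c, y) h),
    fun l hl c y h => (min_le_right _ _).trans (h2' (⟨l, hl⟩, c, y) (sub_pos.2 h))⟩

/-- approximate minimisers -/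
theorem exists_almost_min {α : Type} (F : α → ℝ) (a : α) (h0 : ∀ b, 0 ≤ F b) {η : ℝ}
    (hη : 0 < η) : ∃ b, ∀ b', F b ≤ F b' + η := by
  have : Nonempty α := ⟨a⟩
  have hb : BddBelow (Set.range F) := ⟨0, by rintro _ ⟨b, rfl⟩; exact h0 b⟩
  obtain ⟨b, h⟩ := exists_lt_of_ciInf_lt (f := F) (lt_add_of_pos_right (⨅ b, F b) hη)
  exact ⟨b, fun b' => h.le.trans (add_le_add_left (ciInf_le hb b') η)⟩

variable [Nonempty X] {p : Par} {n : ℕ}

/-- the potential -/
noncomputable def phi (p : Par) (D : Dom X n) (y : X) : ℝ := p.nrm n D.Wt + D.LV p y + D.PV p y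

/-- the context of the root -/
def root (X : Type) (k : ℕ) : Ctx X := ⟨True, none, 0, k, fun _ => 0⟩

theorem val_none (D : Dom X n) (y : X) : D.Val p none y = D.LV p y + D.PV p y := by
  simp [Dom.Val, Dom.Hterm]

theorem obj_root (t : Tol) {k : ℕ} {μ : X → ℝ} (hk : ∑ y, μ y = k) (D : Dom X n) :
    D.obj p t (root X k) μ = ∑ y, μ y * phi p D y + t.κ * D.Links := by
  simp only [Dom.obj, root, val_none, Dom.lnkO, Option.elim, zero_add, zero_mul, add_zero, zero_div,
    phi, add_assoc, mul_add (μ _) (p.nrm n D.Wt), sum_add_distrib, ← sum_mul, hk]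
  ring

theorem phi_nonneg (hp : p.Hyp X n) {D : Dom X n} (h : D.Valid p) (y : X) : 0 ≤ phi p D y :=
  add_nonneg (h.nrm_add_LV_nonneg hp.r0_pos hp.G_pos y) (h.PV_bounds hp.r0_pos hp.G_pos y).1

theorem step (hp : p.Hyp X n) (hd : ∀ x y : X, dist x y ≤ p.r n / 48) {k : ℕ} (hk1 : 1 ≤ k)
    {d : Dom X n} (hv : d.Valid p) (μ : X → ℝ) (σ : X) (lam ζ : ℝ) (hμ : ∀ y, 0 ≤ μ y)
    (hk : ∑ y, μ y = k) (hlam : 0 < lam) (hσ : lam ≤ μ σ) (hζ : 0 < ζ) :
    ∃ d' : Dom X n, d'.Valid p ∧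
      ∑ y, μ y * phi p d' y + ∑ y, μ y * Dom.dlt p d d' y 0 ≤ ∑ y, μ y * phi p d y + ζ ∧
      ∀ x, phi p d' σ - phi p d' x + d'.cut p x σ ≤
        2 ^ 151 * (1 + Real.log (k / lam)) * dist x σ := by
  have hr := hp.r0_pos
  have hG := hp.G_pos
  have hG' : (1 : ℝ) ≤ p.G := by exact_mod_cast hG
  obtain ⟨t0, ht0, ht1, hc1, hc2⟩ := exists_t0 p X n
  have hL := Dom.Links_nonneg d
  obtain ⟨κ, hκ0, hκ1, hκ2⟩ : ∃ κ : ℝ, 0 < κ ∧ κ ≤ t0 ^ n * lam ∧ κ * (d.Links + p.r0) ≤ ζ :=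
    ⟨min (t0 ^ n * lam) (ζ / (d.Links + p.r0)), by positivity, min_le_left _ _,
      (le_div_iff₀ (by positivity)).1 (min_le_right _ _)⟩
  let t : Tol := ⟨κ, κ * p.r0 / (64 * p.G ^ 2), t0⟩
  have hη0 : 0 < t.η := by show 0 < κ * p.r0 / (64 * p.G ^ 2); positivity
  have hη1 : t.η ≤ κ * p.r0 := div_le_self (by positivity) (by nlinarith)
  have ht : t.Hyp p X n := ⟨hκ0, hη0.le, (div_mul_cancel₀ _ (by positivity)).le, ht0, ht1, hc1, hc2⟩
  obtain ⟨⟨d', hv'⟩, hmin⟩ := exists_almost_min (α := {D : Dom X n // D.Valid p})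
    (fun D => D.1.obj p t (root X k) μ + ∑ y, μ y * Dom.dlt p d D.1 y 0) ⟨d, hv⟩ (fun D => by
      rw [obj_root t hk]
      exact add_nonneg (add_nonneg (sum_nonneg fun y _ => mul_nonneg (hμ y) (phi_nonneg hp D.2 y))
        (mul_nonneg hκ0.le (Dom.Links_nonneg _)))
        (sum_nonneg fun y _ => mul_nonneg (hμ y) (Dom.le_dlt hr hG _ _ y 0))) hη0
  have hrn := Par.r_pos hr n
  have hk0 : (0 : ℝ) < k := by exact_mod_cast hk1
  refine ⟨d', hv', ?_, fun x => ?_⟩
  · have h1 := hmin ⟨d, hv⟩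
    simp only [obj_root t hk, Dom.dlt_self hr hG d _ le_rfl, mul_zero, sum_const_zero,
      add_zero] at h1
    have h2 : 0 ≤ t.κ * d'.Links := mul_nonneg hκ0.le (Dom.Links_nonneg _)
    have h3 : t.κ * d.Links + κ * p.r0 ≤ ζ := by rw [mul_add] at hκ2; exact hκ2
    linarith
  · have hs : Sit p t σ (root X k) μ d' :=
      { hyp := hp
        tol := ht
        vc := ⟨hv', Or.inl trivial, by show (0 : ℝ) ≤ _; positivity⟩
        eq := fun D hD => by
          have h1 := hmin ⟨D, hD.1⟩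
          have h2 : ∑ y, μ y * Dom.dlt p d D y 0 ≤
              ∑ y, μ y * Dom.dlt p d d' y 0 + ∑ y, μ y * Dom.dlt p d' D y 0 := by
            rw [← sum_add_distrib]
            refine sum_le_sum fun y _ => ?_
            rw [← mul_add]
            exact mul_le_mul_of_nonneg_left (Dom.dlt_triangle hr hG d d' D y) (hμ y)
          show _ ≤ _ + ∑ y, μ y * Dom.dlt p d' D y 0 + 0 * 0 + t.η
          simp only at h1
          linarith
        m_nonneg := hμ
        P_nonneg := le_rfl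
        mG_nonneg := hk0.le
        Wr_nonneg := fun _ _ => le_rfl
        par_allow := fun _ => trivial
        plink := by show (0 : ℝ) ≤ _; positivity
        small := hκ1.trans (mul_le_mul_of_nonneg_left hσ (by positivity))
        mG_pos := hk0
        loc := fun _ y _ => (hd y σ).trans (by linarith) }
    have h1 := hs.grad (x := x) Cl.A ⟨trivial, fun c' h => by cases h⟩ (hd x σ)
    have hσ0 : 0 < μ σ := hlam.trans_le hσ
    have hle : μ σ ≤ k := hk ▸ single_le_sum (fun y _ => hμ y) (mem_univ σ)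
    have hlog : Real.log (k / μ σ) ≤ Real.log (k / lam) :=
      Real.log_le_log (by positivity) (div_le_div_of_nonneg_left hk0.le hlam hσ)
    have hlog0 : 0 ≤ Real.log (k / lam) :=
      Real.log_nonneg ((one_le_div hlam).2 (hσ.trans hle))
    have h2 : Pi1 p μ σ n ≤ Real.log (k / lam) := by
      have := (Pi1_bounds hr hμ hσ0 n).2
      rw [hk] at this
      exact this.trans hlog
    have h3 : Pi2 p μ σ n 0 ≤ Real.log (k / lam) := by
      refine le_trans ?_ hlog
      unfold Pi2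
      rw [add_zero]
      have h4 : μ σ ≤ Mb μ σ (4 * p.r n) := le_Mb hμ (by positivity)
      have h5 : Mb μ σ (4 * p.r n) ≤ k := hk ▸ Mb_le_sum hμ _
      exact Real.log_le_log (div_pos (hσ0.trans_le h4) hσ0) (div_le_div_of_nonneg_right h5 hσ0.le)
    have h4 : d'.Diff p (root X k).par σ x = phi p d' σ - phi p d' x + d'.cut p x σ := by
      show d'.Val p none σ - d'.Val p none x + _ = _
      rw [val_none, val_none, phi, phi]
      ring
    rw [h4] at h1
    refine h1.trans ?_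
    have h5 : (2 : ℝ) ^ 84 * (Pi1 p μ σ n + Pi2 p μ σ n (Cl.P (root X k) Cl.A)) + Cl.e Cl.A + 1 ≤
        2 ^ 85 * (1 + Real.log (k / lam)) := by
      show (2 : ℝ) ^ 84 * (Pi1 p μ σ n + Pi2 p μ σ n 0) + 0 + 1 ≤ _
      linarith
    calc _ ≤ 2 ^ 66 * dist x σ * (2 ^ 85 * (1 + Real.log (k / lam))) :=
          mul_le_mul_of_nonneg_left h5 (mul_nonneg (by norm_num) dist_nonneg)
      _ = _ := by ring

end EStepAux

theorem esys_exists : ESysExists (2 ^ 151) := by
  intro X _ _ _ a0 k hk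
  have : Nonempty X := ⟨a0⟩
  obtain ⟨p, n, hp, hd⟩ := EStepAux.exists_par X
  have hr := hp.r0_pos
  have hG := hp.G_pos
  have := PP_prob (p := p) (X := X) hG n
  refine ⟨p.r0, n, hr, hp.sep, ⟨
    { D := {D : Dom X n // D.Valid p}
      Ω := Om p X n
      P := PP p X n
      emb := fun d ω => d.1.emb p ω
      meas := fun d H => Dom.measurableSet_emb d.1 H
      near := fun d ω y => d.2.near hr hG ω y a0
        ((hd y a0).trans (by have := Par.r_pos hr n; linarith))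
      φ := fun d y => EStepAux.phi p d.1 y
      nonneg := fun d y => EStepAux.phi_nonneg hp d.2 y
      d0 := ⟨Dom.plain (fun _ _ => 1) n, Dom.plain_valid hr hG fun _ _ _ => one_pos⟩
      step := fun d μ σ lam ζ hμ hs hl hσ hζ => ?_ }⟩⟩
  obtain ⟨d', hv', h1, h2⟩ := EStepAux.step hp hd hk d.2 μ σ lam ζ hμ hs hl hσ hζ
  refine ⟨⟨d', hv'⟩, ?_, h2⟩
  simp only [Dom.dlt, max_eq_right (anc_nonneg _ _)] at h1
  exact h1

end Crest.Agent.R314
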