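import Crest.Agent.R314.Tok
import Crest.Agent.R314.Clock

/-! Module C: the random partition: measurability, closeness of anchors, elementary bounds. -/

set_option autoImplicit false
set_option linter.unusedSectionVars false

namespace Crest.Agent.R314

open Finset MeasureTheory ProbabilityTheory

variable {X : Type} [MetricSpace X] [Fintype X] [DecidableEq X] [Nonempty X] {p : Par} {n : ℕ}

theorem P1_prob (hG : 1 ≤ p.G) : IsProbabilityMeasure (P1 p X) := by
  have : IsProbabilityMeasure (Pidx p) := ⟨by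
    simp only [Pidx, Measure.coe_finsetSum, Finset.sum_apply, Measure.smul_apply, measure_univ,
      smul_eq_mul, mul_one]
    rw [← ENNReal.ofReal_sum_of_nonneg fun _ _ => om_nonneg _,
      Fin.sum_univ_eq_sum_range (fun m => p.om (m + 1)), sum_om hG, ENNReal.ofReal_one]⟩
  unfold P1
  infer_instance

theorem PP_prob (hG : 1 ≤ p.G) : ∀ n : ℕ, IsProbabilityMeasure (PP p X n) := by
  intro n
  induction n with
  | zero => exact inferInstanceAs (IsProbabilityMeasure (@Measure.dirac PUnit ⊤ PUnit.unit))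
  | succ n ih =>
    have := P1_prob (X := X) hG
    exact inferInstanceAs (IsProbabilityMeasure ((P1 p X).prod (PP p X n)))

/-- all fibres are measurable -/
def EmbFM {Ω T : Type} [MeasurableSpace Ω] (f : Ω → T) : Prop :=
  ∀ t, MeasurableSet {ω | f ω = t}

section FM
variable {Ω Ω' T T' : Type} [MeasurableSpace Ω] [MeasurableSpace Ω']

theorem EmbFM.const (t : T) : EmbFM fun _ : Ω => t := fun _ => MeasurableSet.const _

theorem EmbFM.dep [Finite T] {f : Ω → T} (hf : EmbFM f) {G : T → Ω → T'} (hG : ∀ t, EmbFM (G t)) :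
    EmbFM fun ω => G (f ω) ω := fun t' => by
  have : {ω | G (f ω) ω = t'} = ⋃ t, {ω | f ω = t} ∩ {ω | G t ω = t'} := by
    ext ω; simp
  rw [this]
  exact MeasurableSet.iUnion fun t => (hf t).inter (hG t t')

theorem EmbFM.map [Finite T] {f : Ω → T} (hf : EmbFM f) (g : T → T') : EmbFM fun ω => g (f ω) :=
  hf.dep (G := fun t _ => g t) fun _ => EmbFM.const _

theorem EmbFM.comp {f : Ω → T} (hf : EmbFM f) {g : Ω' → Ω} (hg : Measurable g) :
    EmbFM fun ω => f (g ω) := fun t => hg (hf t)

theorem EmbFM.prod {f : Ω → T} {g : Ω → T'} (hf : EmbFM f) (hg : EmbFM g) :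
    EmbFM fun ω => (f ω, g ω) := fun t => by
  have : {ω | (f ω, g ω) = t} = {ω | f ω = t.1} ∩ {ω | g ω = t.2} := by
    ext ω; simp [Prod.ext_iff]
  rw [this]
  exact (hf _).inter (hg _)

theorem EmbFM.pi [Finite T] {f : Ω → T → T'} (hf : ∀ i, EmbFM fun ω => f ω i) : EmbFM f := fun t => by
  have : {ω | f ω = t} = ⋂ i, {ω | f ω i = t i} := by
    ext ω; simp [funext_iff]
  rw [this]
  exact MeasurableSet.iInter fun i => hf i _

theorem EmbFM.ite {c : Ω → Prop} {inst : ∀ ω, Decidable (c ω)} (hc : MeasurableSet {ω | c ω})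
    {f g : Ω → T} (hf : EmbFM f) (hg : EmbFM g) : EmbFM fun ω => @ite _ (c ω) (inst ω) (f ω) (g ω) :=
  fun t => by
    have : {ω | @_root_.ite _ (c ω) (inst ω) (f ω) (g ω) = t} =
        {ω | c ω} ∩ {ω | f ω = t} ∪ {ω | c ω}ᶜ ∩ {ω | g ω = t} := by
      ext ω; by_cases h : c ω <;> simp [h]
    rw [this]
    exact (hc.inter (hf t)).union (hc.compl.inter (hg t))

theorem EmbFM.integrable [Finite T] {f : Ω → T} (hf : EmbFM f) (g : T → ℝ) (μ : Measure Ω)
    [IsFiniteMeasure μ] : Integrable (fun ω => g (f ω)) μ := by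
  obtain ⟨C, hC⟩ := Finite.exists_le fun t => ‖g t‖
  let _ : MeasurableSpace T := ⊤
  have h1 : Measurable f := measurable_to_countable' hf
  exact Integrable.of_bound (measurable_from_top.comp h1).aestronglyMeasurable C
    (.of_forall fun ω => hC _)

end FM

theorem Emb_near_dist {Λ : Type} {r0 : ℝ} : ∀ {n : ℕ} {H : HT Λ X n} {y a : X},
    Near r0 H y a → dist y a ≤ rr r0 n
  | 0, _, _, _, h => h
  | _ + 1, _, _, _, h => h.1

theorem Emb_anc_le {Λ : Type} {r0 : ℝ} (hr : 0 < r0) : ∀ {n : ℕ} {H H' : HT Λ X n} {y a a' : X},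
    Near r0 H y a → Near r0 H' y a' → anc (H.lab y) (H'.lab y) ≤ 2 * SS r0 n
  | 0, _, _, _, _, _, _, _ => by simp [anc, SS_zero]
  | n + 1, H, H', y, _, _, h, h' => by
    have a1 := Emb_near_dist h.2
    have a2 := Emb_near_dist h'.2
    have a3 := Emb_anc_le hr h.2 h'.2
    have a4 := dist_triangle_left (H.2 (H.1 y)).1 (H'.2 (H'.1 y)).1 y
    have a5 := SS_nonneg hr n
    have a6 := rr_pos hr n
    rw [SS_succ]
    exact max_le (by change dist (H.2 (H.1 y)).1 (H'.2 (H'.1 y)).1 ≤ _; linarith)
      (a3.trans (by linarith))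

namespace Dom

theorem measurableSet_br (D : Dom X (n + 1)) (y : X) (b : Br X) :
    MeasurableSet {U : unitInterval | D.br p U y = b} := by
  have hlt : ∀ a : ℝ, MeasurableSet {U : unitInterval | (U : ℝ) < a} := fun a =>
    measurableSet_lt measurable_subtype_coe measurable_const
  refine EmbFM.ite (hlt _) (EmbFM.const _) (EmbFM.ite ?_ ?_ (EmbFM.const _)) b
  · rw [Set.ofPred_exists]
    exact MeasurableSet.iUnion fun z => hlt _
  · exact EmbFM.map (fun z => measurableSet_pick (fun (U : unitInterval) z => (U : ℝ) < D.tc p z y)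
      (fun z => hlt _) y z) fun z => some (some z)

theorem measurableSet_sym (D : Dom X (n + 1)) (s : X → Sy X) :
    MeasurableSet {ω : Om1 p X | D.sym p ω = s} := by
  refine EmbFM.pi (fun y => ?_) s
  refine EmbFM.dep (EmbFM.comp (D.measurableSet_br (p := p) y) measurable_fst)
    (G := fun b (ω : Om1 p X) => match b with
      | some none => (none : Sy X)
      | some (some z) => some (Sum.inl z)
      | none => some (Sum.inr (win (ballF D.nu y (p.rad n (ω.2.1.val + 1))) ω.2.2 y))) ?_
  rintro (_ | _ | z)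
  · refine EmbFM.map (f := fun ω : Om1 p X => win (ballF D.nu y (p.rad n (ω.2.1.val + 1))) ω.2.2 y)
      ?_ fun z => some (Sum.inr z)
    exact EmbFM.dep (f := fun ω : Om1 p X => ω.2.1)
      (fun m => measurable_snd.fst (measurableSet_singleton m))
      (G := fun m ω => win (ballF D.nu y (p.rad n (m.val + 1))) ω.2.2 y) fun m =>
        EmbFM.comp (measurableSet_win _ y) measurable_snd.snd
  · exact EmbFM.const _
  · exact EmbFM.const _

theorem measurableSet_emb : ∀ {n : ℕ} (D : Dom X n) (H : HT (Sy X) X n),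
    MeasurableSet {ω : Om p X n | D.emb p ω = H} := by
  intro n
  induction n with
  | zero => exact fun _ _ => trivial
  | succ n ih =>
    intro D
    refine EmbFM.prod (Ω := Om1 p X × Om p X n)
      (EmbFM.comp (D.measurableSet_sym (p := p)) measurable_fst) (EmbFM.pi ?_)
    rintro (_ | z | z) <;> exact (EmbFM.const _).prod (EmbFM.comp (ih _) measurable_snd)

theorem integrable_emb (hG : 1 ≤ p.G) (D D' : Dom X n) (g : HT (Sy X) X n → HT (Sy X) X n → ℝ) :
    Integrable (fun ω => g (D.emb p ω) (D'.emb p ω)) (PP p X n) := by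
  have := PP_prob (X := X) hG n
  exact (EmbFM.prod (D.measurableSet_emb (p := p)) (D'.measurableSet_emb (p := p))).integrable
    (fun t => g t.1 t.2) _

theorem Emb_lnk_nonneg (c : X) (D : Dom X n) : 0 ≤ lnk c D := by
  unfold lnk
  cases D.ctr
  · exact le_rfl
  · exact dist_nonneg

theorem Valid.len_bounds (hr : 0 < p.r0) : ∀ {n : ℕ} {D : Dom X n} (_ : D.Valid p),
    0 ≤ D.len ∧ D.len ≤ p.S n / 16 := by
  intro n
  induction n with
  | zero => exact fun _ => ⟨le_rfl, by simp [len, Par.S, SS_zero]⟩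
  | succ n ih =>
    intro D h
    have a1 := Par.S_nonneg hr (n + 1)
    unfold len
    cases hq : D.heir with
    | none => exact ⟨le_rfl, by simp only [Option.elim_none]; positivity⟩
    | some q =>
      obtain ⟨b1, b2, -⟩ := h.2.2.2.2.2 q hq
      obtain ⟨c1, c2⟩ := ih b1
      have := Emb_lnk_nonneg q.1 q.2
      simp only [Option.elim_some, Par.S_succ]
      constructor <;> linarith

theorem dist_bc_le : ∀ {n : ℕ} (c : X) (D : Dom X n), dist c (bc c D) ≤ lnk c D + D.len := by
  intro n
  induction n with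
  | zero => intro c D; simp [bc, lnk, ctr, len]
  | succ n ih =>
    intro c D
    cases hq : D.heir with
    | none => simp [bc, lnk, ctr, len, hq]
    | some q =>
      rw [bc, len, lnk, ctr]
      simp only [hq, Option.elim_some, Option.map_some]
      linarith [dist_triangle c q.1 (bc q.1 q.2), ih q.1 q.2]

theorem Emb_br_heir {D : Dom X (n + 1)} {U : ℝ} {y : X} (h : D.br p U y = some none) :
    U < D.hc p y := by
  unfold br at h
  split_ifs at h with h1 h2
  · exact h1
  · simp at h

theorem Emb_br_top {D : Dom X (n + 1)} {U : ℝ} {y z : X} (h : D.br p U y = some (some z)) :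
    U < D.tc p z y := by
  unfold br at h
  split_ifs at h with h1 h2
  · simp at h
  · have := pick_spec _ h2 y
    simp only [Option.some.injEq] at h
    rwa [h] at this

theorem Valid.near (hr : 0 < p.r0) (hG : 1 ≤ p.G) : ∀ {n : ℕ} {D : Dom X n} (_ : D.Valid p)
    (ω : Om p X n) (y a : X) (_ : dist y a ≤ p.r n), Near p.r0 (D.emb p ω) y a := by
  intro n
  induction n with
  | zero => exact fun _ _ _ _ h => h
  | succ n ih =>
    intro D h ω y a ha
    refine ⟨ha, ?_⟩
    have r0 := Par.r_pos hr n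
    have hU : (0 : ℝ) ≤ ω.1.1 := ω.1.1.2.1
    rcases hb : D.br p ω.1.1 y with _ | _ | z
    · have e : (D.emb p ω).1 y = some (Sum.inr
          (win (ballF D.nu y (p.rad n (ω.1.2.1.val + 1))) ω.1.2.2 y)) := by
        change D.sym p ω.1 y = _
        simp only [sym, hb]
      rw [e]
      refine ih (h.child none) ω.2 y _ ?_
      change dist y (win _ _ _) ≤ _
      rcases win_spec (ballF D.nu y (p.rad n (ω.1.2.1.val + 1))) ω.1.2.2 y with h1 | h1
      · rw [h1, dist_self]; exact r0.le
      · refine le_trans ?_ (rad_bounds (n := n) hr hG (Nat.succ_le_of_lt ω.1.2.1.2)).2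
        by_contra h2
        rw [ballF, if_neg h2] at h1
        exact lt_irrefl _ h1
    · have e : (D.emb p ω).1 y = none := by
        change D.sym p ω.1 y = _
        simp only [sym, hb]
      rw [e]
      refine ih (h.child (some none)) ω.2 y _ ?_
      change dist y D.hanc ≤ _
      obtain ⟨q, hq, h1⟩ := dist_lt_of_heir (D := D) hr (hU.trans_lt (Emb_br_heir hb))
      obtain ⟨b1, b2, -⟩ := h.2.2.2.2.2 q hq
      have b3 := (b1.len_bounds hr).2
      have b4 := Par.S_le hr n
      have b5 := Par.S_nonneg hr n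
      simp only [hanc, hq, Option.elim_some]
      linarith [dist_triangle y q.1 (bc q.1 q.2), dist_bc_le q.1 q.2]
    · have e : (D.emb p ω).1 y = some (Sum.inl z) := by
        change D.sym p ω.1 y = _
        simp only [sym, hb]
      rw [e]
      refine ih (h.child (some (some z))) ω.2 y _ ?_
      change dist y z ≤ _
      linarith [dist_lt_of_top (D := D) hr (hU.trans_lt (Emb_br_top hb))]

theorem Emb_int (hG : 1 ≤ p.G) (D D' : Dom X n) (y : X) (a : ℝ) :
    Integrable (fun ω => rel p.r0 ((D.emb p ω).lab y) ((D'.emb p ω).lab y) +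
      max a (anc ((D.emb p ω).lab y) ((D'.emb p ω).lab y))) (PP p X n) :=
  integrable_emb hG D D' fun H H' => rel p.r0 (H.lab y) (H'.lab y) + max a (anc (H.lab y) (H'.lab y))

theorem Emb_const (hG : 1 ≤ p.G) (n : ℕ) (a : ℝ) : ∫ _, a ∂PP p X n = a := by
  have := PP_prob (X := X) hG n
  simp

variable (hr : 0 < p.r0) (hG : 1 ≤ p.G)
include hr hG

theorem dlt_self (D : Dom X n) (y : X) {a : ℝ} (ha : 0 ≤ a) : dlt p D D y a = a := by
  simp only [dlt, rel_self, anc_self, zero_add, max_eq_left ha]
  exact Emb_const hG n a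

theorem le_dlt (D D' : Dom X n) (y : X) (a : ℝ) : a ≤ dlt p D D' y a := by
  have := PP_prob (X := X) hG n
  rw [← Emb_const (X := X) hG n a]
  refine integral_mono (integrable_const _) (Emb_int hG D D' y _) fun ω => ?_
  rw [Emb_const hG]
  exact le_add_of_nonneg_of_le (rel_nonneg hr _ _) (le_max_left _ _)

theorem dlt_mono (D D' : Dom X n) (y : X) {a a' : ℝ} (h : a ≤ a') :
    dlt p D D' y a ≤ dlt p D D' y a' := by
  exact integral_mono (Emb_int hG D D' y _) (Emb_int hG D D' y _) fun ω =>
    add_le_add le_rfl (max_le_max h le_rfl)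

theorem dlt_triangle (D D' D'' : Dom X n) (y : X) :
    dlt p D D'' y 0 ≤ dlt p D D' y 0 + dlt p D' D'' y 0 := by
  unfold dlt
  rw [← integral_add (Emb_int hG D D' y _) (Emb_int hG D' D'' y _)]
  refine integral_mono (Emb_int hG D D'' y _) ((Emb_int hG D D' y _).add (Emb_int hG D' D'' y _))
    fun ω => ?_
  simp only [max_eq_right (anc_nonneg _ _)]
  linarith [rel_triangle hr ((D.emb p ω).lab y) ((D'.emb p ω).lab y) ((D''.emb p ω).lab y),
    anc_triangle ((D.emb p ω).lab y) ((D'.emb p ω).lab y) ((D''.emb p ω).lab y)]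

theorem dlt_crude {D D' : Dom X n} (h : D.Valid p) (h' : D'.Valid p) (y : X) {a : ℝ}
    (ha : 0 ≤ a) : dlt p D D' y a ≤ 4 * p.S n + a := by
  have := PP_prob (X := X) hG n
  rw [← Emb_const (X := X) hG n (4 * p.S n + a)]
  refine integral_mono (Emb_int hG D D' y _) (integrable_const _) fun ω => ?_
  have h0 : dist y y ≤ p.r n := by rw [dist_self]; exact (Par.r_pos hr n).le
  have a1 := Emb_anc_le hr (h.near hr hG ω y y h0) (h'.near hr hG ω y y h0)
  have a2 := rel_le hr ((D.emb p ω).lab y) ((D'.emb p ω).lab y)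
  have a3 := SS_nonneg hr n
  have a4 : max a (anc ((D.emb p ω).lab y) ((D'.emb p ω).lab y)) ≤ 2 * SS p.r0 n + a :=
    max_le (by linarith) (by linarith)
  simp only [Par.S]
  linarith

theorem cut_bounds (D : Dom X n) (x y : X) : 0 ≤ D.cut p x y ∧ D.cut p x y ≤ p.S n := by
  have := PP_prob (X := X) hG n
  refine ⟨integral_nonneg fun ω => rel_nonneg hr _ _, ?_⟩
  rw [← Emb_const (X := X) hG n (p.S n)]
  exact integral_mono (integrable_emb hG D D fun H H' => rel p.r0 (H.lab x) (H'.lab y))
    (integrable_const _) fun ω => rel_le hr _ _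

theorem cut_self (D : Dom X n) (x : X) : D.cut p x x = 0 := by
  simp only [cut, rel_self, integral_zero]

end Dom

end Crest.Agent.R314
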