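import Crest.Agent.R314.ValA

/-! Module C: flattening. -/

set_option autoImplicit false
set_option linter.unusedSectionVars false

namespace Crest.Agent.R314

open Finset 

variable {X : Type} [MetricSpace X] [Fintype X] [DecidableEq X] [Nonempty X] {p : Par} {n : ℕ}

namespace Dom

theorem Flat_none {D : Dom X (n + 1)} (h : D.heir = none) : D.flat = D.flatSh := by
  funext l z
  show D.heir.elim _ _ = _
  rw [h]
  rfl

theorem Flat_some {D : Dom X (n + 1)} {q : X × Dom X n} (h : D.heir = some q) (l : ℕ) (z : X) :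
    D.flat l z = D.w l * (D.flatSh l z / D.Wsh l / 2 +
      (if l = n then (if z = q.1 then 1 else 0) else flat q.2 l z / Wt q.2 l) / 2) := by
  show D.heir.elim _ _ = _
  rw [h]
  rfl

theorem Flat_sh_eq (D : Dom X (n + 1)) (z : X) :
    D.flatSh n z = D.nu z + (D.top z).elim 0 Prod.fst := if_pos rfl

theorem Flat_sh_ne (D : Dom X (n + 1)) {l : ℕ} (hl : l ≠ n) (z : X) :
    D.flatSh l z = D.next.flat l z + ∑ z', (D.top z').elim 0 fun q => q.2.flat l z := if_neg hl

theorem Flat_elim_nonneg {D : Dom X (n + 1)} (h : D.Valid p) {g : ℝ × Dom X n → ℝ}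
    (hg : ∀ q, 0 < q.1 → q.2.Valid p → 0 ≤ g q) (z : X) : 0 ≤ (D.top z).elim 0 g := by
  cases hq : D.top z with
  | none => exact le_rfl
  | some q => exact hg q (h.2.2.1 z q hq).1 (h.2.2.1 z q hq).2

theorem Flat_sh_pos (ih : ∀ {E : Dom X n} (_ : E.Valid p) (l : ℕ) (z : X), 0 < E.flat l z)
    {D : Dom X (n + 1)} (h : D.Valid p) (l : ℕ) (z : X) : 0 < D.flatSh l z := by
  by_cases hl : l = n
  · subst hl
    rw [Flat_sh_eq]
    exact add_pos_of_pos_of_nonneg (h.2.1 z) (Flat_elim_nonneg h (fun q hq _ => hq.le) z)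
  · rw [Flat_sh_ne D hl]
    exact add_pos_of_pos_of_nonneg (ih h.2.2.2.2.1.1 l z)
      (sum_nonneg fun z' _ => Flat_elim_nonneg h (fun q _ hq => (ih hq l z).le) z')

theorem Flat_extra_nonneg (ih : ∀ {E : Dom X n} (_ : E.Valid p) (l : ℕ) (z : X), 0 < E.flat l z)
    {q : X × Dom X n} (hq : q.2.Valid p) (l : ℕ) (z : X) :
    0 ≤ (if l = n then (if z = q.1 then 1 else 0) else flat q.2 l z / Wt q.2 l : ℝ) := by
  split_ifs
  · exact zero_le_one
  · exact le_rfl
  · exact (div_pos (ih hq l z) (hq.Wt_pos l)).le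

theorem Valid.flat_pos : ∀ {n : ℕ} {D : Dom X n} (_ : D.Valid p) (l : ℕ) (z : X),
    0 < D.flat l z := by
  intro n
  induction n with
  | zero => exact fun _ _ _ => one_pos
  | succ n ih =>
    intro D h l z
    have h1 := Flat_sh_pos ih h l z
    cases hq : D.heir with
    | none => rwa [Flat_none hq]
    | some q =>
      rw [Flat_some hq]
      have h2 := Flat_extra_nonneg ih (h.2.2.2.2.2 q hq).1 l z
      have h3 := h.Wsh_pos l
      exact mul_pos (h.1 l) (add_pos_of_pos_of_nonneg (by positivity) (by positivity))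

theorem Valid.flatSh_pos {D : Dom X (n + 1)} (h : D.Valid p) (l : ℕ) (z : X) :
    0 < D.flatSh l z :=   Flat_sh_pos Valid.flat_pos h l z

theorem Flat_sum_elim {D : Dom X (n + 1)} (h : D.Valid p) {l : ℕ}
    (ih : ∀ {E : Dom X n} (_ : E.Valid p), ∑ z, E.flat l z = E.Wt l) (z' : X) :
    ∑ z, ((D.top z').elim 0 fun q => q.2.flat l z) = (D.top z').elim 0 fun q => q.2.Wt l := by
  cases hq : D.top z' with
  | none => simp
  | some q => exact ih (h.2.2.1 z' q hq).2

theorem Valid.sum_flat : ∀ {n : ℕ} {D : Dom X n} (_ : D.Valid p) {l : ℕ} (_ : l < n),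
    ∑ z, D.flat l z = D.Wt l := by
  intro n
  induction n with
  | zero => exact fun _ _ hl => absurd hl (Nat.not_lt_zero _)
  | succ n ih =>
    intro D h l hl
    have h1 : ∑ z, D.flatSh l z = D.Wsh l := by
      by_cases hn : l = n
      · subst hn
        simp only [Flat_sh_eq, sum_add_distrib]
        exact (if_pos rfl).symm
      · have hl' : l < n := by omega
        simp only [Flat_sh_ne D hn, sum_add_distrib]
        rw [ih h.2.2.2.2.1.1 hl', sum_comm]
        simp only [Flat_sum_elim h fun hE => ih hE hl']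
        exact (if_neg hn).symm
    cases hq : D.heir with
    | none =>
      rw [Flat_none hq, h1]
      exact (if_neg (by simp [hq])).symm
    | some q =>
      have hE := (h.2.2.2.2.2 q hq).1
      have h2 : ∑ z, (if l = n then (if z = q.1 then 1 else 0) else flat q.2 l z / Wt q.2 l : ℝ)
          = 1 := by
        by_cases hn : l = n
        · simp [hn]
        · simp only [if_neg hn]
          rw [← sum_div, ih hE (by omega), div_self (hE.Wt_pos l).ne']
      have h3 : D.Wt l = D.w l := if_pos (by simp [hq])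
      simp only [Flat_some hq]
      rw [← mul_sum, sum_add_distrib, ← sum_div, ← sum_div, ← sum_div, h1, h2,
        div_self (h.Wsh_pos l).ne', h3]
      ring

variable (hr : 0 < p.r0) (hG : 1 ≤ p.G)
include hr hG

omit hG in
theorem Flat_avg {D : Dom X (n + 1)} (h : D.Valid p) (y : X) {a : ℝ} {g : Br X → ℝ}
    (hg : ∀ b, 0 < D.tb p b y → a ≤ g b) : a ≤ ∑ b, D.tb p b y * g b := by
  calc a = ∑ b, D.tb p b y * a := by rw [← sum_mul, sum_tb, one_mul]
    _ ≤ _ := sum_le_sum fun b _ => by
      rcases (h.tb_nonneg hr b y).eq_or_lt with h0 | h0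
      · rw [← h0, zero_mul, zero_mul]
      · exact mul_le_mul_of_nonneg_left (hg b h0) h0.le

omit hr hG [Fintype X] [DecidableEq X] [Nonempty X] in
theorem Flat_nrm_div {w W : ℕ → ℝ} (hw : ∀ l, 0 < w l) (hW : ∀ l, 0 < W l) (n : ℕ) :
    p.nrm n (fun l => w l / (2 * W l)) = p.nrm n w - p.nrm n W - K0 * Real.log 2 * p.S n := by
  induction n with
  | zero =>
    show K0 * 0 = K0 * 0 - K0 * 0 - K0 * Real.log 2 * 0
    simp
  | succ n ih =>
    have := hW n
    rw [Par.nrm_succ, Par.nrm_succ, Par.nrm_succ, ih, Par.S_succ,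
      Real.log_div (hw n).ne' (by positivity), Real.log_mul two_ne_zero this.ne']
    ring

omit hG in
theorem Flat_num (n : ℕ) : 6 * p.S n + K0 * Real.log 2 * p.S (n + 1) ≤ 6 * p.S (n + 1) := by
  have h1 := Par.S_le hr n
  have h2 := Par.S_nonneg hr n
  have h3 := Par.S_nonneg hr (n + 1)
  have h4 := mul_le_mul_of_nonneg_right Real.log_two_lt_d9.le h3
  rw [Par.S_succ] at h4 ⊢
  rw [show K0 = 8 from rfl]
  nlinarith

omit hG in
theorem Flat_Kr (n : ℕ) : 0 ≤ K0 * p.r n := 
  mul_nonneg (show (0 : ℝ) ≤ 8 by norm_num) (Par.r_pos hr n).le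

/-- a state `f` that dominates a shell branch -/
theorem Flat_branch {D : Dom X (n + 1)} (h : D.Valid p) {y : X} {f g : ℕ → X → ℝ}
    (hf : ∀ z, 0 ≤ f n z)
    (hn : ∀ z, dist y z ≤ p.r n → D.nu z + (D.top z).elim 0 Prod.fst ≤ f n z)
    {b : Br X} (hb : b ≠ some none) (h0 : 0 < D.tb p b y)
    (g0 : ∀ l, l < n → ∀ z, 0 ≤ g l z) (gy : ∀ l, l < n → 0 < g l y)
    (gf : ∀ l, l < n → ∀ z, g l z ≤ f l z) :
    PL p (n + 1) f y ≤ D.lv0 p b y + PL p n g y := by
  rw [PL_succ hr hG, add_comm]
  refine add_le_add ?_ (PL_anti hr hG g0 gy gf)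
  rcases b with _ | _ | z
  · exact mul_le_mul_of_nonneg_left (tok_anti hr hG (fun z => (h.2.1 z).le) (h.2.1 y) fun z hz =>
      le_trans (le_add_of_nonneg_right (Flat_elim_nonneg h (fun q hq _ => hq.le) z)) (hn z hz))
      (Flat_Kr hr n)
  · exact absurd rfl hb
  · obtain ⟨q, hq⟩ := Option.isSome_iff_exists.1 (pres_of_pos h0)
    have hd := dist_lt_of_top hr h0
    have h1 := hn z (by linarith [Par.r_pos hr n])
    rw [hq] at h1
    have h2 : q.1 ≤ f n z := le_trans (le_add_of_nonneg_left (h.2.1 z).le) h1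
    have h3 := mul_le_mul_of_nonneg_left
      (tok_le_of_near hr hG hf (h.2.2.1 z q hq).1 h2 hd.le) (Flat_Kr hr n)
    have h4 : D.lv0 p (some (some z)) y = -(K0 * p.r n * Real.log q.1) := by
      show -(K0 * p.r n * Real.log ((D.top z).elim 1 Prod.fst)) = _
      rw [hq]
      rfl
    rw [h4]
    linarith

theorem Flat_SH {D : Dom X (n + 1)} (h : D.Valid p) {y : X} {b : Br X} (hb : b ≠ some none)
    (h0 : 0 < D.tb p b y) :
    PL p (n + 1) D.flatSh y ≤ D.lv0 p b y + PL p n (D.child b).flat y := by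
  refine Flat_branch hr hG h (fun z => (h.flatSh_pos n z).le) (fun z _ => (Flat_sh_eq D z).ge) hb h0
    (fun l _ z => ((h.child b).flat_pos l z).le) (fun l _ => (h.child b).flat_pos l y)
    fun l hl z => ?_
  have hnn := fun z' => Flat_elim_nonneg h (g := fun q => q.2.flat l z)
    (fun q _ hq => (hq.flat_pos l z).le) z'
  rw [Flat_sh_ne D hl.ne]
  rcases b with _ | _ | z'
  · exact le_add_of_nonneg_right (sum_nonneg fun z' _ => hnn z')
  · exact absurd rfl hb
  · obtain ⟨q, hq⟩ := Option.isSome_iff_exists.1 (pres_of_pos h0)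
    refine le_trans ?_ (le_add_of_nonneg_left (h.2.2.2.2.1.1.flat_pos l z).le)
    refine le_trans ?_ (single_le_sum (fun z' _ => hnn z') (mem_univ z'))
    show ((D.top z').elim D.next Prod.snd).flat l z ≤ _
    rw [hq]
    exact le_rfl

omit hr hG [Nonempty X] in
theorem Flat_LV_none {D : Dom X (n + 1)} (hq : D.heir = none) (y : X) :
    D.LV p y = ∑ b, D.tb p b y * (D.gau p b + D.lv0 p b y + (D.child b).LV p y) := by
  show (if D.heir.isSome then _ else 0) + _ = _
  rw [if_neg (by simp [hq]), zero_add]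

omit hr hG [Nonempty X] in
theorem Flat_ne {D : Dom X (n + 1)} (hq : D.heir = none) {y : X} {b : Br X}
    (h0 : 0 < D.tb p b y) : b ≠ some none := by
  rintro rfl
  have : D.heir.isSome := pres_of_pos h0
  simp [hq] at this

omit hr hG [Nonempty X] in
theorem Flat_gau {D : Dom X (n + 1)} {b : Br X} (hb : b ≠ some none) :
    D.gau p b = if D.heir.isSome then p.nrm (n + 1) D.Wsh else 0 := by
  rcases b with _ | _ | z
  · rfl
  · exact absurd rfl hb
  · rfl

theorem Valid.PL_flat : ∀ {n : ℕ} {D : Dom X n} (_ : D.Valid p) (y : X),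
    PL p n D.flat y ≤ D.LV p y + 6 * p.S n := by
  intro n
  induction n with
  | zero =>
    intro D _ y
    show K0 * 0 ≤ 0 + 6 * 0
    simp
  | succ n ih =>
    intro D h y
    cases hq : D.heir with
    | none =>
      rw [Flat_none hq, Flat_LV_none hq, ← sub_le_iff_le_add]
      refine Flat_avg hr h y fun b hb => ?_
      have h1 := Flat_SH hr hG h (Flat_ne hq hb) hb
      have h2 := ih (h.child b) y
      rw [Flat_gau (Flat_ne hq hb), if_neg (by simp [hq]), Par.S_succ]
      linarith [Par.r_pos hr n]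
    | some q =>
      have hE := (h.2.2.2.2.2 q hq).1
      have hLV : D.LV p y = -p.nrm (n + 1) D.w +
          ∑ b, D.tb p b y * (D.gau p b + D.lv0 p b y + (D.child b).LV p y) := by
        show (if D.heir.isSome then _ else 0) + _ = _
        rw [if_pos (by simp [hq])]
      have hnum := Flat_num hr n
      suffices PL p (n + 1) D.flat y + p.nrm (n + 1) D.w - 6 * p.S (n + 1) ≤
          ∑ b, D.tb p b y * (D.gau p b + D.lv0 p b y + (D.child b).LV p y) by
        rw [hLV]; linarith
      refine Flat_avg hr h y fun b hb => ?_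
      have h2 := ih (h.child b) y
      have hsh : ∀ l z, 0 ≤ D.flatSh l z / D.Wsh l / 2 := fun l z => by
        have := h.flatSh_pos l z
        have := h.Wsh_pos l
        positivity
      by_cases hb' : b = some none
      · subst hb'
        have hc : D.child (some none) = q.2 := by
          show D.heir.elim _ _ = _
          rw [hq]
          rfl
        obtain ⟨q', hq', hd⟩ := dist_lt_of_heir hr hb
        obtain rfl : q = q' := Option.some.inj (hq.symm.trans hq')
        have ha : ∀ l, 0 < D.w l / (2 * q.2.Wt l) := fun l => by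
          have := h.1 l
          have := hE.Wt_pos l
          positivity
        have h3 : PL p n D.flat y ≤ PL p n (fun l z => D.w l / (2 * q.2.Wt l) * q.2.flat l z) y := by
          refine PL_anti hr hG (fun l _ z => (mul_pos (ha l) (hE.flat_pos l z)).le)
            (fun l _ => mul_pos (ha l) (hE.flat_pos l y)) fun l hl z => ?_
          rw [Flat_some hq, if_neg hl.ne, mul_add]
          refine le_trans (le_of_eq ?_) (le_add_of_nonneg_left (mul_nonneg (h.1 l).le (hsh l z)))
          ring
        rw [PL_smul hr hG (fun l _ z => (hE.flat_pos l z).le) (fun l _ => hE.flat_pos l y)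
          (fun l _ => ha l), Flat_nrm_div h.1 hE.Wt_pos] at h3
        have h4 : D.w n / 2 ≤ D.flat n q.1 := by
          rw [Flat_some hq, if_pos rfl, if_pos rfl, mul_add]
          refine le_trans (le_of_eq ?_) (le_add_of_nonneg_left (mul_nonneg (h.1 n).le (hsh n _)))
          ring
        have h5 := mul_le_mul_of_nonneg_left (tok_le_of_near hr hG
          (fun z => (h.flat_pos n z).le) (half_pos (h.1 n)) h4 hd.le) (Flat_Kr hr n)
        rw [Real.log_div (h.1 n).ne' two_ne_zero] at h5
        have h6 : D.gau p (some none) = p.nrm n q.2.Wt := by rw [← hc]; rfl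
        have h7 : D.lv0 p (some none) y = 0 := rfl
        rw [hc] at h2
        rw [h6, h7, hc, PL_succ hr hG, Par.nrm_succ]
        rw [Par.S_succ] at hnum ⊢
        linarith
      · have ha : ∀ l, 0 < D.w l / (2 * D.Wsh l) := fun l => by
          have := h.1 l
          have := h.Wsh_pos l
          positivity
        have h3 : PL p (n + 1) D.flat y ≤
            PL p (n + 1) (fun l z => D.w l / (2 * D.Wsh l) * D.flatSh l z) y := by
          refine PL_anti hr hG (fun l _ z => (mul_pos (ha l) (h.flatSh_pos l z)).le)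
            (fun l _ => mul_pos (ha l) (h.flatSh_pos l y)) fun l _ z => ?_
          rw [Flat_some hq, mul_add]
          refine le_trans (le_of_eq ?_) (le_add_of_nonneg_right (mul_nonneg (h.1 l).le
            (div_nonneg (Flat_extra_nonneg Valid.flat_pos hE l z) zero_le_two)))
          ring
        rw [PL_smul hr hG (fun l _ z => (h.flatSh_pos l z).le) (fun l _ => h.flatSh_pos l y)
          (fun l _ => ha l), Flat_nrm_div h.1 h.Wsh_pos] at h3
        have h4 := Flat_SH hr hG h hb' hb
        rw [Flat_gau hb', if_pos (by simp [hq])]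
        linarith

/-! the local version -/

omit hr hG [Nonempty X] in
theorem Flat_fl_eq (σ : X) (Q : ℝ) (D : Dom X (n + 1)) (z : X) : fl σ Q D n z =
    if dist z σ ≤ Q then D.nu z + (D.top z).elim 0 Prod.fst else 0 := if_pos rfl

omit hr hG [Nonempty X] in
theorem Flat_fl_ne (σ : X) (Q : ℝ) (D : Dom X (n + 1)) {l : ℕ} (hl : l ≠ n) (z : X) :
    fl σ Q D l z = fl σ Q D.next l z +
      ∑ z', if dist z' σ ≤ Q then (D.top z').elim 0 fun q => flat q.2 l z else 0 := if_neg hl

omit hr hG in
theorem Flat_fl_term (σ : X) (Q : ℝ) {D : Dom X (n + 1)} (h : D.Valid p) (l : ℕ) (z z' : X) :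
    0 ≤ if dist z' σ ≤ Q then (D.top z').elim 0 fun q => flat q.2 l z else 0 := by
  split_ifs
  · exact Flat_elim_nonneg h (fun q _ hq => (hq.flat_pos l z).le) z'
  · exact le_rfl

omit hr hG in
theorem Valid.fl_nonneg (σ : X) (Q : ℝ) : ∀ {n : ℕ} {D : Dom X n} (_ : D.Valid p) (l : ℕ) (z : X),
    0 ≤ fl σ Q D l z := by
  intro n
  induction n with
  | zero => exact fun _ _ _ => zero_le_one
  | succ n ih =>
    intro D h l z
    by_cases hl : l = n
    · subst hl
      rw [Flat_fl_eq]
      split_ifs
      · exact add_nonneg (h.2.1 z).le (Flat_elim_nonneg h (fun q hq _ => hq.le) z)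
      · exact le_rfl
    · rw [Flat_fl_ne σ Q D hl]
      exact add_nonneg (ih h.2.2.2.2.1.1 l z) (sum_nonneg fun z' _ => Flat_fl_term σ Q h l z z')

omit hr hG in
theorem Valid.fl_pos (σ : X) (Q : ℝ) : ∀ {n : ℕ} {D : Dom X n} (_ : D.Valid p) (l : ℕ) {z : X}
    (_ : dist z σ ≤ Q), 0 < fl σ Q D l z := by
  intro n
  induction n with
  | zero => exact fun _ _ _ _ => one_pos
  | succ n ih =>
    intro D h l z hz
    by_cases hl : l = n
    · subst hl
      rw [Flat_fl_eq, if_pos hz]
      exact add_pos_of_pos_of_nonneg (h.2.1 z) (Flat_elim_nonneg h (fun q hq _ => hq.le) z)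
    · rw [Flat_fl_ne σ Q D hl]
      exact add_pos_of_pos_of_nonneg (ih h.2.2.2.2.1.1 l hz)
        (sum_nonneg fun z' _ => Flat_fl_term σ Q h l z z')

omit hr hG in
theorem Valid.sum_fl (σ : X) (Q : ℝ) : ∀ {n : ℕ} {D : Dom X n} (_ : D.Valid p) {l : ℕ} (_ : l < n),
    ∑ z, fl σ Q D l z = Loc σ Q D l := by
  intro n
  induction n with
  | zero => exact fun _ _ hl => absurd hl (Nat.not_lt_zero _)
  | succ n ih =>
    intro D h l hl
    by_cases hn : l = n
    · subst hn
      simp only [Flat_fl_eq]
      exact (if_pos rfl).symm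
    · have hl' : l < n := by omega
      simp only [Flat_fl_ne σ Q D hn, sum_add_distrib]
      rw [ih h.2.2.2.2.1.1 hl', sum_comm]
      refine Eq.trans ?_ (if_neg hn).symm
      refine congrArg _ (sum_congr rfl fun z' _ => ?_)
      split_ifs
      · exact Flat_sum_elim h (fun hE => hE.sum_flat hl') z'
      · exact sum_const_zero

theorem Valid.PL_fl (σ : X) (Q : ℝ) : ∀ {n : ℕ} {D : Dom X n} (_ : D.Valid p) (_ : D.ctr = none)
    {y : X} (_ : dist y σ + p.S n ≤ Q), PL p n (fl σ Q D) y ≤ D.LV p y + 6 * p.S n := by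
  intro n
  induction n with
  | zero =>
    intro D _ _ y _
    show K0 * 0 ≤ 0 + 6 * 0
    simp
  | succ n ih =>
    intro D h hc y hy
    have hq : D.heir = none := Option.map_eq_none_iff.1 hc
    have hS := Par.S_nonneg hr n
    have hr' := Par.r_pos hr n
    rw [Par.S_succ] at hy
    have hnear : ∀ z, dist y z ≤ p.r n → dist z σ ≤ Q := fun z hz => by
      have := dist_triangle_left z σ y
      linarith
    rw [Flat_LV_none hq, ← sub_le_iff_le_add]
    refine Flat_avg hr h y fun b hb => ?_
    have hb' := Flat_ne hq hb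
    rw [Flat_gau hb', if_neg (by simp [hq]), Par.S_succ]
    have key := fun g => Flat_branch hr hG h (y := y) (f := fl σ Q D) (g := g)
      (h.fl_nonneg σ Q n) (fun z hz => by rw [Flat_fl_eq, if_pos (hnear z hz)]) hb' hb
    have hN := h.2.2.2.2.1
    rcases b with _ | _ | z'
    · have h1 := key (fl σ Q D.next) (fun l _ z => hN.1.fl_nonneg σ Q l z)
        (fun l _ => hN.1.fl_pos σ Q l (by linarith)) fun l hl z => by
          rw [Flat_fl_ne σ Q D hl.ne]
          exact le_add_of_nonneg_right (sum_nonneg fun z' _ => Flat_fl_term σ Q h l z z')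
      have h2 : PL p n (fl σ Q D.next) y ≤ (D.child none).LV p y + 6 * p.S n :=
        ih hN.1 hN.2 (by linarith)
      linarith
    · exact absurd rfl hb'
    · have hE := h.child (some (some z'))
      have hd := dist_lt_of_top hr hb
      have h1 := key (D.child (some (some z'))).flat (fun l _ z => (hE.flat_pos l z).le)
        (fun l _ => hE.flat_pos l y) fun l hl z => by
          obtain ⟨q, hq⟩ := Option.isSome_iff_exists.1 (pres_of_pos hb)
          rw [Flat_fl_ne σ Q D hl.ne]
          refine le_trans ?_ (le_add_of_nonneg_left (hN.1.fl_nonneg σ Q l z))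
          refine le_trans ?_ (single_le_sum (fun z' _ => Flat_fl_term σ Q h l z z') (mem_univ z'))
          rw [if_pos (hnear z' (by linarith))]
          show ((D.top z').elim D.next Prod.snd).flat l z ≤ _
          rw [hq]
          exact le_rfl
      have h2 := hE.PL_flat hr hG y
      linarith

end Dom

end Crest.Agent.R314
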