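import Crest.Agent.R314.LB
import Crest.Agent.R314.Clr

/-! Module C: the rebuild test. -/

set_option autoImplicit false
set_option linter.unusedSectionVars false

namespace Crest.Agent.R314

open Finset 

variable {X : Type} [MetricSpace X] [Fintype X] [DecidableEq X] [Nonempty X] {p : Par} {n : ℕ}
  {t : Tol} {σ : X} {c : Ctx X} {m : X → ℝ}

namespace Dom

section addTop

variable {D : Dom X (n + 1)} {a : ℝ} {E : Dom X n}

theorem Rebuild_heir (h : D.ctr = none) : D.heir = none := Option.map_eq_none_iff.1 h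

theorem Rebuild_top_self : (addTop D σ a E).top σ = some (a, E) := Function.update_self _ _ _

theorem Rebuild_top_ne {z : X} (h : z ≠ σ) : (addTop D σ a E).top z = D.top z :=
  Function.update_of_ne h _ _

theorem Rebuild_valid (h : D.Valid p) (hh : D.heir = none) (ha : 0 < a) (hE : E.Valid p)
    (hs : ∀ z, (D.top z).isSome → p.r n ≤ dist z σ) : (addTop D σ a E).Valid p := by
  obtain ⟨h1, h2, h3, h4, h5, h6⟩ := h
  refine ⟨h1, h2, fun z q hq => ?_, fun z z' hz hz' hne => ?_, h5, fun q hq => ?_⟩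
  · by_cases hz : z = σ
    · subst hz
      rw [Rebuild_top_self] at hq
      cases hq
      exact ⟨ha, hE⟩
    · rw [Rebuild_top_ne hz] at hq
      exact h3 z q hq
  · by_cases e : z = σ
    · subst e
      rw [Rebuild_top_ne hne.symm] at hz'
      rw [dist_comm]
      exact hs z' hz'
    · rw [Rebuild_top_ne e] at hz
      by_cases e' : z' = σ
      · subst e'
        exact hs z hz
      · rw [Rebuild_top_ne e'] at hz'
        exact h4 z z' hz hz' hne
  · exact absurd (hh.symm.trans hq) (by simp)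

/-- sums over the top marks -/
theorem Rebuild_sum_top (h0 : D.top σ = none) (F : X → ℝ × Dom X n → ℝ) :
    ∑ z, ((addTop D σ a E).top z).elim 0 (F z) = ∑ z, (D.top z).elim 0 (F z) + F σ (a, E) := by
  have : ∀ z, ((addTop D σ a E).top z).elim 0 (F z) =
      (D.top z).elim 0 (F z) + if z = σ then F σ (a, E) else 0 := by
    intro z
    split_ifs with hz
    · subst hz
      rw [Rebuild_top_self, h0]
      simp
    · rw [Rebuild_top_ne hz, add_zero]
  simp only [this, sum_add_distrib, sum_ite_eq', mem_univ, if_true]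

theorem Rebuild_Wt (hh : D.heir = none) (h0 : D.top σ = none) (l : ℕ) :
    (addTop D σ a E).Wt l = D.Wt l + if l = n then a else E.Wt l := by
  have h1 : (addTop D σ a E).heir = none := hh
  simp only [Wt, h1, hh, Option.isSome_none, Bool.false_eq_true, if_false, wshAux]
  split_ifs
  · rw [Rebuild_sum_top h0 fun _ => Prod.fst, ← add_assoc]
    rfl
  · rw [Rebuild_sum_top h0 fun _ q => Wt q.2 l, ← add_assoc]
    rfl

theorem Rebuild_Links (hh : D.heir = none) (h0 : D.top σ = none) :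
    (addTop D σ a E).Links = D.Links + E.Links := by
  have h1 : (addTop D σ a E).heir = none := hh
  simp only [Links, h1, hh, Option.elim_none]
  rw [Rebuild_sum_top h0 fun _ q => Links q.2, ← add_assoc]
  rfl

theorem Rebuild_child {b : Br X} (hb : b ≠ some (some σ)) :
    (addTop D σ a E).child b = D.child b := by
  rcases b with _ | _ | z
  · rfl
  · rfl
  · have : z ≠ σ := fun h => hb (by rw [h])
    simp only [child, Rebuild_top_ne this]
    rfl

theorem Rebuild_lv0 {b : Br X} (hb : b ≠ some (some σ)) (y : X) :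
    (addTop D σ a E).lv0 p b y = D.lv0 p b y := by
  rcases b with _ | _ | z
  · rfl
  · rfl
  · have : z ≠ σ := fun h => hb (by rw [h])
    simp only [lv0, Rebuild_top_ne this]

theorem Rebuild_tb (hr : 0 < p.r0) (h : (addTop D σ a E).Valid p) (h0 : D.top σ = none) (y : X)
    (b : Br X) : (addTop D σ a E).tb p b y = (1 - cap p n σ y) * D.tb p b y +
      if b = some (some σ) then cap p n σ y else 0 := by
  have e1 : (addTop D σ a E).tb p (some (some σ)) y = cap p n σ y := by
    simp only [tb, tc, Rebuild_top_self, Option.elim_some]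
  have e2 : D.tb p (some (some σ)) y = 0 := by simp only [tb, tc, h0, Option.elim_none]
  have e3 : ∀ o, o ≠ some σ → (addTop D σ a E).tb p (some o) y = D.tb p (some o) y := by
    rintro (_ | z) ho
    · rfl
    · have : z ≠ σ := fun h => ho (by rw [h])
      simp only [tb, tc, Rebuild_top_ne this]
  have e4 : ∀ o, cap p n σ y * D.tb p (some o) y = 0 := by
    intro o
    by_cases ho : o = some σ
    · rw [ho, e2, mul_zero]
    · rcases (cap_nonneg (p := p) (n := n) σ y).eq_or_lt with hc | hc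
      · rw [← hc, zero_mul]
      · rcases (h.tb_nonneg hr (some o) y).eq_or_lt with hc' | hc'
        · rw [← e3 o ho, ← hc', mul_zero]
        · exact absurd (h.mark_unique hr hc' (e1 ▸ hc)) ho
  have e5 : ∀ o, (addTop D σ a E).tb p (some o) y = (1 - cap p n σ y) * D.tb p (some o) y +
      if (some o : Br X) = some (some σ) then cap p n σ y else 0 := by
    intro o
    by_cases ho : o = some σ
    · rw [ho, e1, e2, if_pos rfl, mul_zero, zero_add]
    · rw [e3 o ho, if_neg (fun h => ho (Option.some.inj h))]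
      linarith [e4 o]
  rcases b with _ | o
  · have s1 := sum_tb (p := p) (addTop D σ a E) y
    have s2 := sum_tb (p := p) D y
    rw [Fintype.sum_option] at s1 s2
    simp only [e5, sum_add_distrib, ← mul_sum, Option.some.injEq, sum_ite_eq', mem_univ,
      if_true] at s1
    rw [if_neg (by simp), add_zero]
    have s3 : D.tb p none y = 1 - ∑ o, D.tb p (some o) y := by linarith
    rw [s3]
    linarith
  · exact e5 o

theorem Rebuild_sum (hr : 0 < p.r0) (h : (addTop D σ a E).Valid p) (h0 : D.top σ = none) (y : X)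
    {V V' : Br X → ℝ} (hV : ∀ b, b ≠ some (some σ) → V' b = V b) :
    ∑ b, (addTop D σ a E).tb p b y * V' b =
      (1 - cap p n σ y) * ∑ b, D.tb p b y * V b + cap p n σ y * V' (some (some σ)) := by
  have e2 : D.tb p (some (some σ)) y = 0 := by simp only [tb, tc, h0, Option.elim_none]
  have e3 : ∀ b, D.tb p b y * V' b = D.tb p b y * V b := by
    intro b
    by_cases hb : b = some (some σ)
    · rw [hb, e2, zero_mul, zero_mul]
    · rw [hV b hb]
  simp only [Rebuild_tb hr h h0, add_mul, sum_add_distrib, mul_assoc, e3, ← mul_sum, ite_mul,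
    zero_mul, sum_ite_eq', mem_univ, if_true]

theorem Rebuild_LV (hr : 0 < p.r0) (h : (addTop D σ a E).Valid p) (hh : D.heir = none)
    (h0 : D.top σ = none) (y : X) : (addTop D σ a E).LV p y =
      (1 - cap p n σ y) * D.LV p y + cap p n σ y * (-(K0 * p.r n * Real.log a) + E.LV p y) := by
  have h1 : (addTop D σ a E).heir = none := hh
  simp only [LV, h1, hh, Option.isSome_none, Bool.false_eq_true, if_false, zero_add]
  rw [Rebuild_sum hr h h0 y (V := fun b => D.gau p b + D.lv0 p b y + LV p (D.child b) y)]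
  · simp only [gau, h1, Option.isSome_none, Bool.false_eq_true, if_false, zero_add, lv0, child,
      Rebuild_top_self, Option.elim_some]
  · intro b hb
    rw [Rebuild_child hb, Rebuild_lv0 hb]
    rcases b with _ | _ | z
    · simp only [gau, h1, hh, Option.isSome_none, Bool.false_eq_true, if_false]
    · rfl
    · simp only [gau, h1, hh, Option.isSome_none, Bool.false_eq_true, if_false]

theorem Rebuild_PV (hr : 0 < p.r0) (h : (addTop D σ a E).Valid p) (hh : D.heir = none)
    (h0 : D.top σ = none) (y : X) : (addTop D σ a E).PV p y =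
      (1 - cap p n σ y) * D.PV p y + cap p n σ y * (Gam * p.r n + E.PV p y) := by
  have h1 : (addTop D σ a E).heir = none := hh
  simp only [PV]
  rw [Rebuild_sum hr h h0 y (V := fun b => D.pv p b y + PV p (D.child b) y)]
  · simp only [pv, len, h1, Option.elim_none, mul_zero, add_zero, child, Rebuild_top_self,
      Option.elim_some]
  · intro b hb
    rw [Rebuild_child hb]
    rcases b with _ | _ | z <;> rfl

theorem Rebuild_dlt (hr : 0 < p.r0) (hG : 1 ≤ p.G) (hD : D.Valid p) (h : (addTop D σ a E).Valid p)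
    (h0 : D.top σ = none) {y : X} (hy : cap p n σ y = 0) : dlt p D (addTop D σ a E) y 0 ≤ 0 := by
  have e1 : ∀ b, (addTop D σ a E).tb p b y = D.tb p b y := fun b => by
    rw [Rebuild_tb hr h h0, hy]
    simp
  have e2 : D.tb p (some (some σ)) y = 0 := by simp only [tb, tc, h0, Option.elim_none]
  refine (dlt_rec hr hG hD h y le_rfl).trans (le_of_eq ?_)
  have e3 : dwin p n D.nu y (addTop D σ a E).nu y = 0 :=
    dwin_congr hr hG (fun z => (hD.2.1 z).le) (hD.2.1 y) fun _ _ => rfl
  simp only [e1, min_self, sum_tb, e3, sub_self, zero_mul, mul_zero, add_zero]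
  refine sum_eq_zero fun b _ => ?_
  by_cases hb : b = some (some σ)
  · rw [hb, e2, zero_mul]
  · have e4 : bdist D (addTop D σ a E) b = 0 := by
      rcases b with _ | _ | z
      · rfl
      · exact dist_self _
      · rfl
    rw [Rebuild_child hb, e4, max_self, dlt_self hr hG _ _ le_rfl, mul_zero]

end addTop

/-- the weights of the new top mark -/
noncomputable def Rebuild_f (σ : X) (Q : ℝ) (D : Dom X n) (l : ℕ) (z : X) : ℝ :=
  fl σ Q D l z + Loc σ Q D l / Fintype.card X

/-- the child of the new top mark -/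
noncomputable def Rebuild_E (σ : X) (Q : ℝ) (D : Dom X (n + 2)) : Dom X (n + 1) :=
  heirOf σ (Loc σ Q D) (Rebuild_f σ Q D) (plain (Rebuild_f σ Q D) n)

/-- the rebuilt state -/
noncomputable def Rebuild_D (p : Par) (σ : X) (Q : ℝ) (D : Dom X (n + 2)) : Dom X (n + 2) :=
  addTop (clr p σ Q D fun _ _ => 0) σ (Loc σ Q D (n + 1)) (Rebuild_E σ Q D)

theorem Rebuild_lnk (c : X) (f : ℕ → X → ℝ) : lnk c (plain f n) = 0 := by
  rw [lnk, plain_ctr]
  rfl

section main

variable {D : Dom X (n + 2)} {Q : ℝ} (hr : 0 < p.r0) (hG : 1 ≤ p.G) (h : D.Valid p)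
  (hD : D.ctr = none) (hQ : Q = p.r (n + 1) + p.S (n + 2))
include hr hG h hD hQ

theorem Rebuild_Q : 0 ≤ Q := by
  rw [hQ]
  exact add_nonneg (Par.r_pos hr _).le (Par.S_nonneg hr _)

theorem Rebuild_f_pos (l : ℕ) (z : X) : 0 < Rebuild_f σ Q D l z :=
  add_pos_of_nonneg_of_pos (h.fl_nonneg σ Q l z)
    (div_pos (h.Loc_bounds σ (Rebuild_Q hr hG h hD hQ) hD l).1 (Nat.cast_pos.2 Fintype.card_pos))

theorem Rebuild_f_sum {l : ℕ} (hl : l < n + 2) :
    ∑ z, Rebuild_f σ Q D l z = 2 * Loc σ Q D l := by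
  have : (Fintype.card X : ℝ) ≠ 0 := Nat.cast_ne_zero.2 Fintype.card_ne_zero
  simp only [Rebuild_f, sum_add_distrib, h.sum_fl σ Q hl, sum_const, card_univ, nsmul_eq_mul]
  field_simp
  ring

theorem Rebuild_E_valid : (Rebuild_E σ Q D).Valid p :=
  heirOf_valid hr hG (fun l => (h.Loc_bounds σ (Rebuild_Q hr hG h hD hQ) hD l).1)
    (fun l _ => Rebuild_f_pos hr hG h hD hQ l)
    (plain_valid hr hG fun l _ => Rebuild_f_pos hr hG h hD hQ l)
    (by rw [Rebuild_lnk]; exact div_nonneg (Par.r_pos hr _).le (by norm_num))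

theorem Rebuild_clr_top : (clr p σ Q D fun _ _ => 0).top σ = none := by
  by_contra h0
  have := clr_top σ Q (Option.ne_none_iff_isSome.1 h0)
  rw [dist_self] at this
  linarith [Par.r_pos hr (n + 1)]

theorem Rebuild_clr_heir : (clr p σ Q D fun _ _ => 0).heir = none :=
  Rebuild_heir ((clr_ctr σ Q D _).trans hD)

theorem Rebuild_D_valid : (Rebuild_D p σ Q D).Valid p :=
  Rebuild_valid (h.clr_valid σ Q hD fun _ _ => le_rfl) (Rebuild_clr_heir hr hG h hD hQ)
    (h.Loc_bounds σ (Rebuild_Q hr hG h hD hQ) hD _).1 (Rebuild_E_valid hr hG h hD hQ)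
    fun z hz => by linarith [clr_top σ Q hz]

theorem Rebuild_D_ctr : (Rebuild_D p σ Q D).ctr = none :=
  (clr_ctr (p := p) σ Q D fun _ _ => 0).trans hD

theorem Rebuild_D_Wt {l : ℕ} (hl : l < n + 2) :
    (Rebuild_D p σ Q D).Wt l = D.Wt l + Loc σ Q D l := by
  rw [Rebuild_D, Rebuild_Wt (Rebuild_clr_heir hr hG h hD hQ) (Rebuild_clr_top hr hG h hD hQ),
    h.clr_Wt σ Q hD _ hl, sum_const_zero, add_zero, Rebuild_E, heirOf_Wt]
  split_ifs with e
  · rw [e]
  · rfl

theorem Rebuild_D_Links : (Rebuild_D p σ Q D).Links ≤ D.Links := by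
  rw [Rebuild_D, Rebuild_Links (Rebuild_clr_heir hr hG h hD hQ) (Rebuild_clr_top hr hG h hD hQ),
    Rebuild_E, heirOf_Links, Rebuild_lnk, plain_Links, zero_div, add_zero, add_zero]
  exact clr_Links σ Q D _

theorem Rebuild_Vtop {y : X} (hy : dist y σ ≤ p.r (n + 1)) :
    -(K0 * p.r (n + 1) * Real.log (Loc σ Q D (n + 1))) + (Rebuild_E σ Q D).LV p y ≤
      D.LV p y + 12 * p.S (n + 2) := by
  have hf := Rebuild_f_pos (σ := σ) hr hG h hD hQ
  have hL := fun l => (h.Loc_bounds σ (Rebuild_Q hr hG h hD hQ) hD l).1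
  have hS := Par.S_nonneg hr (n + 2)
  have h1 : ∀ j ≤ n + 2, p.nrm j (fun l => ∑ z, Rebuild_f σ Q D l z) +
      PL p j (Rebuild_f σ Q D) y ≤ p.nrm (n + 2) (fun l => ∑ z, Rebuild_f σ Q D l z) +
      PL p (n + 2) (Rebuild_f σ Q D) y := fun j hj =>
    nrm_add_PL_mono hr hG (fun l _ z => (hf l z).le) (fun l _ => hf l y) (fun _ _ => le_rfl) hj
  have h2 : p.nrm (n + 2) (fun l => ∑ z, Rebuild_f σ Q D l z) =
      K0 * Real.log 2 * p.S (n + 2) + p.nrm (n + 2) (Loc σ Q D) := by
    change K0 * ∑ l ∈ range (n + 2), p.r l * Real.log (∑ z, Rebuild_f σ Q D l z) =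
      K0 * Real.log 2 * ∑ l ∈ range (n + 2), p.r l +
        K0 * ∑ l ∈ range (n + 2), p.r l * Real.log (Loc σ Q D l)
    rw [mul_assoc, ← mul_add, mul_sum (range (n + 2)) _ (Real.log 2), ← sum_add_distrib]
    refine congrArg _ (sum_congr rfl fun l hl => ?_)
    rw [Rebuild_f_sum hr hG h hD hQ (mem_range.1 hl), Real.log_mul two_ne_zero (hL l).ne']
    ring
  have h3 : PL p (n + 2) (Rebuild_f σ Q D) y ≤ PL p (n + 2) (fl σ Q D) y :=
    PL_anti hr hG (fun l _ z => h.fl_nonneg σ Q l z) (fun l _ => h.fl_pos σ Q l (by linarith))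
      fun l _ z => le_add_of_nonneg_right (div_nonneg (hL l).le (Nat.cast_nonneg _))
  have h4 := h.PL_fl hr hG σ Q hD (y := y) (by linarith)
  have h5 : K0 * Real.log 2 * p.S (n + 2) ≤ 6 * p.S (n + 2) := by
    refine mul_le_mul_of_nonneg_right ?_ hS
    have := Real.log_two_lt_d9
    change (8 : ℝ) * _ ≤ _
    linarith
  have h6 := mul_le_mul_of_nonneg_left (h1 (n + 1) (by omega))
    (sub_nonneg.2 (cap_le_one (p := p) (n := n) σ y))
  have h7 := mul_le_mul_of_nonneg_left (h1 n (by omega)) (cap_nonneg (p := p) (n := n) σ y)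
  rw [Rebuild_E, heirOf_LV hr hG, plain_LV hr hG,
    p.nrm_congr fun l hl => plain_Wt (Rebuild_f σ Q D) hl]
  linarith [p.nrm_succ (n := n + 1) (Loc σ Q D)]

theorem Rebuild_E_PV (y : X) :
    (Rebuild_E σ Q D).PV p y = Gam * p.S (n + 1) - cap p n σ y * (Gam * p.r n) := by
  have : Hterm p (some σ) (plain (Rebuild_f σ Q D) n) y = 0 := by
    change lnk σ _ * _ = 0
    rw [Rebuild_lnk, zero_mul]
  rw [Rebuild_E, heirOf_PV hr hG, Rebuild_lnk, len_of_ctr (plain_ctr _ _), this, plain_PV hr hG,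
    p.S_succ]
  ring

theorem Rebuild_LV_le (y : X) : (Rebuild_D p σ Q D).LV p y + dlt p D (Rebuild_D p σ Q D) y 0 ≤
    D.LV p y + if dist y σ ≤ Q then 16 * p.S (n + 2) else 0 := by
  have hv := Rebuild_D_valid (σ := σ) hr hG h hD hQ
  have h1 := Rebuild_LV hr hv (Rebuild_clr_heir hr hG h hD hQ) (Rebuild_clr_top hr hG h hD hQ) y
  have h2 := h.clr_LV σ Q hr hG y hD (f := fun _ _ => 0) fun _ _ => le_rfl
  have hS := Par.S_nonneg hr (n + 2)
  have hR := Par.r_pos hr (n + 1)
  change (Rebuild_D p σ Q D).LV p y = _ at h1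
  split_ifs at h2 ⊢ with hy
  · have h3 := le_dlt hr hG D (clr p σ Q D fun _ _ => 0) y 0
    have h4 := dlt_crude hr hG h hv y le_rfl
    by_cases hy' : dist y σ ≤ p.r (n + 1)
    · have h6 := mul_le_mul_of_nonneg_left (Rebuild_Vtop hr hG h hD hQ hy')
        (cap_nonneg (p := p) (n := n + 1) σ y)
      have h7 := mul_le_mul_of_nonneg_left
        (show (clr p σ Q D fun _ _ => 0).LV p y ≤ D.LV p y + 12 * p.S (n + 2) by linarith)
        (sub_nonneg.2 (cap_le_one (p := p) (n := n + 1) σ y))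
      linarith
    · rw [cap_eq_zero hr (by linarith)] at h1
      linarith
  · have h0 : cap p (n + 1) σ y = 0 := cap_eq_zero hr (by linarith)
    have h3 := dlt_triangle hr hG D (clr p σ Q D fun _ _ => 0) (Rebuild_D p σ Q D) y
    have h4 := Rebuild_dlt hr hG (h.clr_valid σ Q hD fun _ _ => le_rfl) hv
      (Rebuild_clr_top hr hG h hD hQ) h0
    change dlt p _ (Rebuild_D p σ Q D) y 0 ≤ 0 at h4
    rw [h0] at h1
    linarith

theorem Rebuild_PV_ge (y : X) :
    Gam * p.r (n + 1) + D.tb p none y * (Gam * p.r n) ≤ D.PV p y := by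
  have hh := Rebuild_heir hD
  have hl : D.len = 0 := len_of_ctr hD
  have h1 : Gam * p.r n ≤ D.next.PV p y := by
    have h2 := Valid.PV_ge hr hG (h.child none) y
    have h3 : D.next.heir = none := Rebuild_heir h.2.2.2.2.1.2
    have h4 : (D.child none).hc p y = 0 := by
      change D.next.heir.elim _ _ = 0
      rw [h3]
      rfl
    have h5 : (D.child none).len = 0 := len_of_ctr h.2.2.2.2.1.2
    rw [h4, h5, mul_zero, add_zero, sub_zero, one_mul] at h2
    exact h2
  have h2 : ∀ b, D.tb p b y * (Gam * p.r (n + 1)) +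
      (if b = none then D.tb p none y * (Gam * p.r n) else 0) ≤
      D.tb p b y * (D.pv p b y + PV p (D.child b) y) := by
    rintro (_ | _ | z)
    · rw [if_pos rfl, ← mul_add]
      refine mul_le_mul_of_nonneg_left ?_ (h.tb_nonneg hr _ y)
      change _ ≤ Gam * p.r (n + 1) + C3 * D.len + D.next.PV p y
      rw [hl]
      linarith
    · have : D.tb p (some none) y = 0 := by
        change D.heir.elim _ _ = 0
        rw [hh]
        rfl
      simp [this]
    · rw [if_neg (by simp), add_zero]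
      refine mul_le_mul_of_nonneg_left ?_ (h.tb_nonneg hr _ y)
      change _ ≤ Gam * p.r (n + 1) + C3 * D.len + _
      rw [hl]
      linarith [(Valid.PV_bounds hr hG (h.child (some (some z))) y).1]
  have h3 := sum_le_sum fun b (_ : b ∈ univ) => h2 b
  rw [sum_add_distrib, ← sum_mul, sum_tb, one_mul, sum_ite_eq', if_pos (mem_univ _)] at h3
  exact h3

theorem Rebuild_PV_le (h0 : 1 / 2 < D.tb p none σ) (y : X) : (Rebuild_D p σ Q D).PV p y ≤
    D.PV p y + (if dist y σ ≤ Q then Gam * p.S (n + 2) else 0) -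
      if dist y σ ≤ p.r n / 4 then Gam * p.S (n + 2) + 12 / 25 * (Gam * p.r n) else 0 := by
  have hv := Rebuild_D_valid (σ := σ) hr hG h hD hQ
  have h1 := Rebuild_PV hr hv (Rebuild_clr_heir hr hG h hD hQ) (Rebuild_clr_top hr hG h hD hQ) y
  have h2 := h.clr_PV σ Q hr hG y hD (f := fun _ _ => 0) fun _ _ => le_rfl
  have hS := Par.S_nonneg hr (n + 2)
  have hρ := Par.r_pos hr n
  have hR := p.r_succ n
  have hGam : (0 : ℝ) < Gam := by unfold Gam; positivity
  change (Rebuild_D p σ Q D).PV p y = _ at h1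
  rw [Rebuild_E_PV hr hG h hD hQ] at h1
  by_cases hb : dist y σ ≤ p.r n / 4
  · have h3 := Rebuild_PV_ge hr hG h hD hQ y
    have h4 := h.tb_sub_le hr none σ y
    have h5 : 14 * dist σ y / p.r (n + 1) * √(D.tb p none σ) ≤ 1 / 100 * 1 := by
      refine mul_le_mul ?_ (Real.sqrt_le_one.2 (h.tb_le_one hr _ _)) (Real.sqrt_nonneg _)
        (by norm_num)
      rw [div_le_iff₀ (by linarith), dist_comm]
      linarith
    have h6 : 49 / 100 ≤ D.tb p none y := by
      linarith [min_le_right (D.tb p none σ) (D.tb p none y)]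
    have h7 := mul_le_mul_of_nonneg_right h6 (mul_pos hGam hρ).le
    have h8 := mul_le_mul_of_nonneg_left (Par.S_le hr n) hGam.le
    have h9 := mul_nonneg hGam.le (Par.S_nonneg hr n)
    rw [cap_eq_one hr (by linarith), cap_eq_one hr hb, p.S_succ] at h1
    rw [if_pos hb, if_pos (by linarith)]
    linarith
  · rw [if_neg hb, sub_zero]
    split_ifs at h2 ⊢ with hy
    · have h3 := (Valid.PV_bounds hr hG h y).1
      have h4 := mul_nonneg (cap_nonneg (p := p) (n := n) σ y) (mul_pos hGam hρ).le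
      have h5 : Gam * p.S (n + 2) = Gam * p.S (n + 1) + Gam * p.r (n + 1) := by
        rw [p.S_succ (n + 1), mul_add]
      have h6 := mul_le_mul_of_nonneg_left
        (show Gam * p.r (n + 1) + (Gam * p.S (n + 1) - cap p n σ y * (Gam * p.r n)) ≤
          D.PV p y + Gam * p.S (n + 2) by linarith) (cap_nonneg (p := p) (n := n + 1) σ y)
      have h7 := mul_le_mul_of_nonneg_left h2
        (sub_nonneg.2 (cap_le_one (p := p) (n := n + 1) σ y))
      linarith
    · rw [cap_eq_zero (n := n + 1) hr (by linarith)] at h1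
      linarith

end main

end Dom

theorem Rebuild_r0_le (hr : 0 < p.r0) (n : ℕ) : p.r0 ≤ p.r n := by
  induction n with
  | zero => exact le_of_eq (mul_one _).symm
  | succ n ih => linarith [p.r_succ n]

theorem Rebuild_nrm (hr : 0 < p.r0) {W W' L : ℕ → ℝ} (hW : ∀ l, l < n → 0 < W l)
    (hL : ∀ l, l < n → 0 ≤ L l) (h : ∀ l, l < n → W' l = W l + L l) :
    p.nrm n W' ≤ p.nrm n W + 8 * ∑ l ∈ range n, p.r l * (L l / W l) := by
  change (8 : ℝ) * ∑ l ∈ range n, p.r l * Real.log (W' l) ≤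
    8 * ∑ l ∈ range n, p.r l * Real.log (W l) + _
  rw [← mul_add, ← sum_add_distrib]
  refine mul_le_mul_of_nonneg_left (sum_le_sum fun l hl => ?_) (by norm_num)
  have hl' := mem_range.1 hl
  have h1 := hW l hl'
  have h2 := hL l hl'
  have h3 := Real.log_le_sub_one_of_pos (show 0 < (W l + L l) / W l by positivity)
  rw [Real.log_div (by positivity) h1.ne', add_div, div_self h1.ne'] at h3
  rw [← mul_add, h l hl']
  exact mul_le_mul_of_nonneg_left (by linarith) (Par.r_pos hr l).le

theorem Rebuild_num {ρ a A S η : ℝ} (hρ : 0 < ρ) (ha : 0 < a) (hA : A ≤ (1 + 1 / C3) * a)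
    (hS0 : 0 ≤ S) (hS : S ≤ 65538 * ρ) (hη : η ≤ a * ρ)
    (h : 0 ≤ (16 * S + Gam * S) * A - (Gam * S + 12 / 25 * (Gam * ρ)) * a + 24 * S * A + η) :
    False := by
  have e1 : Gam = 2 ^ 36 := rfl
  have e2 : 1 / C3 ≤ 1 / 2 ^ 36 := by
    unfold C3 C1 C2
    norm_num
  have h1 : A ≤ (1 + 1 / 2 ^ 36) * a := hA.trans (by gcongr)
  have h2 := mul_le_mul_of_nonneg_left h1 hS0
  have h3 := mul_le_mul_of_nonneg_right hS ha.le
  have h4 := mul_pos ha hρ
  have h5 := mul_nonneg hS0 ha.le
  rw [e1] at h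
  linarith

theorem Sit.rebuild {D : Dom X (n + 2)} (h : Sit p t σ c m D) (hD : D.ctr = none)
    (hpar : c.par = none) (hh : Heavy p m σ n) : D.tb p none σ ≤ 1 / 2 := by
  by_contra h0
  rw [not_le] at h0
  have hr := h.hyp.r0_pos
  have hG := h.hyp.G_pos
  have hv := h.vc.1
  obtain ⟨Q, hQ⟩ : ∃ Q, Q = p.r (n + 1) + p.S (n + 2) := ⟨_, rfl⟩
  have hQ0 := Dom.Rebuild_Q hr hG hv hD hQ
  have hv' := Dom.Rebuild_D_valid (σ := σ) hr hG hv hD hQ
  have hc' := Dom.Rebuild_D_ctr (σ := σ) hr hG hv hD hQ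
  have hρ := Par.r_pos hr n
  have hS0 := Par.S_nonneg hr (n + 2)
  have hS : p.S (n + 2) ≤ 65538 * p.r n := by
    linarith [p.S_succ (n + 1), p.S_succ n, p.r_succ n, Par.S_le hr n, Par.S_nonneg hr n]
  have hQ1 : Q + p.S (n + 2) ≤ 4 * p.r (n + 2) := by
    linarith [p.r_succ (n + 1), p.r_succ n]
  have he := h.eq (Dom.Rebuild_D p σ Q D) ⟨hv', Or.inr hc', by
    rw [hpar]; exact div_nonneg (Par.r_pos hr _).le (by norm_num)⟩
  simp only [Dom.obj, Dom.Val, hpar, Dom.adist, Dom.Hterm, Dom.lnkO, Option.elim_none,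
    Dom.len_of_ctr hD, Dom.len_of_ctr hc', add_zero, mul_zero, zero_div] at he
  have h1 := mul_le_mul_of_nonneg_left (Dom.Rebuild_D_Links (σ := σ) hr hG hv hD hQ) h.tol.κ_pos.le
  have h2 := mul_le_mul_of_nonneg_left (Rebuild_nrm (n := n + 2) hr
    (W := fun l => c.Wr l + D.Wt l) (W' := fun l => c.Wr l + (Dom.Rebuild_D p σ Q D).Wt l)
    (L := Dom.Loc σ Q D) (fun l hl => add_pos_of_nonneg_of_pos (h.Wr_nonneg l hl) (hv.Wt_pos l))
    (fun l _ => (hv.Loc_bounds σ hQ0 hD l).1.le)
    fun l hl => by rw [Dom.Rebuild_D_Wt hr hG hv hD hQ hl, add_assoc]) h.mG_nonneg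
  have h3 := (h.half_test hD hQ0).trans (mul_le_mul_of_nonneg_left
    (Mb_mono (σ := σ) h.m_nonneg hQ1) (by positivity))
  have h4 : ∀ y, m y * ((Dom.Rebuild_D p σ Q D).LV p y + (Dom.Rebuild_D p σ Q D).PV p y) +
      m y * Dom.dlt p D (Dom.Rebuild_D p σ Q D) y 0 ≤ m y * (D.LV p y + D.PV p y) +
      ((16 * p.S (n + 2) + Gam * p.S (n + 2)) * if dist y σ ≤ Q then m y else 0) -
      (Gam * p.S (n + 2) + 12 / 25 * (Gam * p.r n)) * if dist y σ ≤ p.r n / 4 then m y else 0 := by
    intro y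
    have a1 := mul_le_mul_of_nonneg_left (Dom.Rebuild_LV_le (σ := σ) hr hG hv hD hQ y)
      (h.m_nonneg y)
    have a2 := mul_le_mul_of_nonneg_left (Dom.Rebuild_PV_le hr hG hv hD hQ h0 y) (h.m_nonneg y)
    split_ifs at a1 a2 ⊢ <;> linarith
  have h5 := sum_le_sum fun y (_ : y ∈ univ) => h4 y
  rw [sum_add_distrib, sum_sub_distrib, sum_add_distrib, ← mul_sum, ← mul_sum] at h5
  change _ ≤ _ + _ * Mb m σ Q - _ * Mb m σ (p.r n / 4) at h5
  have hGam : (0 : ℝ) < Gam := by unfold Gam; positivity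
  have h6 := mul_le_mul_of_nonneg_left (Mb_mono (σ := σ) h.m_nonneg
    (show Q ≤ 4 * p.r (n + 2) by linarith))
    (show 0 ≤ 16 * p.S (n + 2) + Gam * p.S (n + 2) by positivity)
  have h7 : m σ ≤ Mb m σ (p.r n / 4) := le_Mb h.m_nonneg (by positivity)
  have h8 : t.η ≤ Mb m σ (p.r n / 4) * p.r n := by
    have b1 : (1 : ℝ) ≤ p.G := by exact_mod_cast hG
    have b2 : t.η ≤ t.η * (64 * p.G ^ 2) := le_mul_of_one_le_right h.tol.η_nonneg (by nlinarith)
    exact (b2.trans h.tol.η_le).trans (mul_le_mul (h.κ_le.trans h7) (Rebuild_r0_le hr n) hr.le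
      (h.mσ_pos.le.trans h7))
  exact Rebuild_num hρ (h.mσ_pos.trans_le h7) hh hS0 hS h8 (by linarith)

end Crest.Agent.R314
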