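import Crest.Agent.R314.SitC
import Crest.Agent.R314.Lam
import Crest.Agent.R314.Flat

/-! Module C: the reset test. -/

set_option autoImplicit false

namespace Crest.Agent.R314

open Finset 

variable {X : Type} [MetricSpace X] [Fintype X] [DecidableEq X] [Nonempty X] {p : Par} {n : ℕ}
  {t : Tol} {σ : X} {c : Ctx X} {m : X → ℝ}

/-- the reset state -/
noncomputable def Reset_D (σ : X) (D : Dom X (n + 2)) : Dom X (n + 2) :=
  Dom.heirOf σ D.Wt D.flat (Dom.heirOf σ (fun _ => 1) D.flat (Dom.plain D.flat n))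

theorem Reset_lnk0 (f : ℕ → X → ℝ) (σ : X) : Dom.lnk σ (Dom.plain f n) = 0 := by
  rw [Dom.lnk, Dom.plain_ctr]
  rfl

theorem Reset_lnk1 (w : ℕ → ℝ) (f : ℕ → X → ℝ) (σ z : X) (E : Dom X n) :
    Dom.lnk z (Dom.heirOf σ w f E) = dist z σ := by
  rw [Dom.lnk, Dom.heirOf_ctr]
  rfl

theorem Reset_len1 (w : ℕ → ℝ) (f : ℕ → X → ℝ) (σ : X) :
    (Dom.heirOf σ w f (Dom.plain f n)).len = 0 := by
  rw [Dom.heirOf_len, Reset_lnk0, Dom.len_of_ctr (Dom.plain_ctr f n), add_zero]

theorem Reset_len (σ : X) (D : Dom X (n + 2)) : (Reset_D σ D).len = 0 := by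
  rw [Reset_D, Dom.heirOf_len, Reset_lnk1, dist_self, Reset_len1, add_zero]

theorem Reset_Links (σ : X) (D : Dom X (n + 2)) : (Reset_D σ D).Links = 0 := by
  rw [Reset_D, Dom.heirOf_Links, Dom.heirOf_Links, Reset_lnk1, dist_self, Reset_lnk0,
    Dom.plain_Links]
  simp

theorem Reset_valid (hr : 0 < p.r0) (hG : 1 ≤ p.G) (σ : X) {D : Dom X (n + 2)} (h : D.Valid p) :
    (Reset_D σ D).Valid p := by
  refine Dom.heirOf_valid hr hG h.Wt_pos (fun l _ => h.flat_pos l)
    (Dom.heirOf_valid hr hG (fun _ => one_pos) (fun l _ => h.flat_pos l)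
      (Dom.plain_valid hr hG fun l _ => h.flat_pos l) ?_) ?_
  · rw [Reset_lnk0]
    exact (div_pos (Par.r_pos hr _) (by norm_num)).le
  · rw [Reset_lnk1, dist_self]
    exact (div_pos (Par.r_pos hr _) (by norm_num)).le

theorem Reset_LV (hr : 0 < p.r0) (hG : 1 ≤ p.G) (σ : X) {D : Dom X (n + 2)} (h : D.Valid p)
    (y : X) : (Reset_D σ D).LV p y ≤ D.LV p y + 6 * p.S (n + 2) := by
  refine le_trans ?_ (h.PL_flat hr hG y)
  have mono := fun j (hj : j ≤ n + 2) => nrm_add_PL_mono hr hG (n := n + 2) (f := D.flat)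
    (W := fun l => ∑ z, D.flat l z) (y := y) (fun l _ z => (h.flat_pos l z).le)
    (fun l _ => h.flat_pos l y) (fun _ _ => le_rfl) hj
  have a0 := mono n (by omega)
  have a1 := mono (n + 1) (by omega)
  have e2 : p.nrm (n + 2) D.Wt = p.nrm (n + 2) fun l => ∑ z, D.flat l z :=
    p.nrm_congr fun l hl => (h.sum_flat hl).symm
  have e0 : p.nrm n (Dom.plain D.flat n).Wt = p.nrm n fun l => ∑ z, D.flat l z :=
    p.nrm_congr fun l hl => Dom.plain_Wt _ hl
  rw [Reset_D, Dom.heirOf_LV hr hG, Dom.heirOf_LV hr hG, Dom.heirOf_Wt, Dom.plain_LV hr hG, e0, e2]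
  have c1 := cap_nonneg (p := p) (n := n) σ y
  have c2 := cap_le_one (p := p) (n := n) σ y
  have c3 := cap_nonneg (p := p) (n := n + 1) σ y
  have b0 := mul_le_mul_of_nonneg_left a0 c1
  have b1 := mul_le_mul_of_nonneg_left a1 (sub_nonneg.2 c2)
  have b2 := mul_le_mul_of_nonneg_left (add_le_add b1 b0) c3
  change _ ≤ PL p (n + 1 + 1) D.flat y
  change _ ≤ cap p (n + 1) σ y * ((1 - cap p n σ y) *
    ((p.nrm (n + 1 + 1) fun l => ∑ z, D.flat l z) + PL p (n + 1 + 1) D.flat y) +
    cap p n σ y * ((p.nrm (n + 1 + 1) fun l => ∑ z, D.flat l z) + PL p (n + 1 + 1) D.flat y)) at b2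
  linarith

theorem Reset_PV (hr : 0 < p.r0) (hG : 1 ≤ p.G) (σ : X) (D : Dom X (n + 2)) (y : X) :
    (Reset_D σ D).PV p y = (1 - cap p (n + 1) σ y) * (Gam * p.S (n + 2)) + cap p (n + 1) σ y *
      ((1 - cap p n σ y) * (Gam * p.S (n + 1)) + cap p n σ y * (Gam * p.S n)) := by
  rw [Reset_D, Dom.heirOf_PV hr hG, Dom.heirOf_PV hr hG, Dom.plain_PV hr hG, Reset_len1,
    Dom.len_of_ctr (Dom.plain_ctr _ n)]
  simp only [Dom.Hterm, Option.elim_some, Reset_lnk0, Reset_lnk1, dist_self, add_zero, mul_zero,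
    zero_mul, zero_add]

theorem Reset_old {D : Dom X (n + 2)} (h : Sit0 p t c m D) (hg : ¬ D.Good p σ) {y : X}
    (hy : dist y σ ≤ p.r n / 4) : Gam * p.r n ≤ D.PV p y := by
  have hr := h.hyp.r0_pos
  have hG := h.hyp.G_pos
  have hv := h.vc.1
  have r0 := Par.r_pos hr n
  have r1 := p.r_succ n
  have hGam : (0 : ℝ) ≤ Gam := by unfold Gam; norm_num
  have hC3 : (0 : ℝ) ≤ C3 := by unfold C3 C1 C2; norm_num
  have key : ∀ b, 0 < D.tb p b y → Gam * p.r n ≤ D.pv p b y + (D.child b).PV p y := by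
    intro b hb
    have h0 := ((hv.child b).PV_bounds hr hG y).1
    have h1 : Gam * p.r n ≤ Gam * p.r (n + 1) + C3 * D.len :=
      le_add_of_le_of_nonneg (mul_le_mul_of_nonneg_left (by linarith) hGam)
        (mul_nonneg hC3 (hv.len_bounds hr).1)
    match b with
    | none => exact le_add_of_le_of_nonneg h1 h0
    | some (some z) => exact le_add_of_le_of_nonneg h1 h0
    | some none =>
      obtain ⟨q, hq, -⟩ := Dom.dist_lt_of_heir hr hb
      have e : D.child (some none) = q.2 := by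
        change D.heir.elim D.next Prod.snd = q.2
        rw [hq]
        rfl
      have h2 := (hv.child (some none)).PV_ge hr hG y
      have h3 : (D.child (some none)).hc p y = 0 := by
        have h4 := h.recenter hq
        rw [e]
        unfold Dom.hc
        cases h5 : q.2.heir with
        | none => rfl
        | some q' =>
          have h6 : Dom.lnk q.1 q.2 = dist q.1 q'.1 := by
            change (q.2.heir.map Prod.fst).elim 0 _ = _
            rw [h5]
            rfl
          have h7 : p.r (n + 1) / 20 < dist σ q.1 := not_le.1 fun h8 => hg ⟨q, hq, h8⟩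
          have h9 := dist_triangle4 σ y q'.1 q.1
          rw [dist_comm σ y, dist_comm q'.1 q.1] at h9
          exact cap_eq_zero hr (by linarith)
      rw [h3, sub_zero, one_mul] at h2
      refine le_add_of_nonneg_of_le (Dom.Hterm_bounds _ _ _).1 (le_trans ?_ h2)
      exact le_add_of_nonneg_right (mul_nonneg hC3 ((hv.child _).len_bounds hr).1)
  change _ ≤ ∑ b, D.tb p b y * (D.pv p b y + (D.child b).PV p y)
  rw [← one_mul (Gam * p.r n), ← D.sum_tb (p := p) y, sum_mul]
  refine sum_le_sum fun b _ => ?_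
  rcases (hv.tb_nonneg hr b y).eq_or_lt with h0 | h0
  · rw [← h0, zero_mul, zero_mul]
  · exact mul_le_mul_of_nonneg_left (key b h0) h0.le

theorem Sit.reset {D : Dom X (n + 2)} (h : Sit p t σ c m D) (ha : c.allow)
    (hpar : ∀ c', c.par = some c' → dist σ c' ≤ p.r (n + 2) / 20) (hh : Heavy p m σ n)
    (hP : c.P ≤ Mb m σ (p.r n / 4) / C3) : D.Good p σ := by
  by_contra hg
  have hr := h.hyp.r0_pos
  have hG := h.hyp.G_pos
  have hv := h.vc.1
  have hv' := Reset_valid hr hG σ hv
  have r0 := Par.r_pos hr n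
  have r1 := p.r_succ n
  have r2 : p.r (n + 2) = 65536 * p.r (n + 1) := p.r_succ (n + 1)
  have s0 := Par.S_le hr n
  have s0' := Par.S_nonneg hr n
  have s1 := p.S_succ n
  have s2 : p.S (n + 2) = p.S (n + 1) + p.r (n + 1) := p.S_succ (n + 1)
  have hGam : Gam = 68719476736 := by unfold Gam; norm_num
  have hC1 : C1 = 1152921504606846976 := by unfold C1; norm_num
  have hC2 : C2 = 8796093022208 := by unfold C2; norm_num
  have hC3 : C3 = 1152939096792891392 := by unfold C3 C1 C2; norm_num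
  have hl : Dom.lnkO c.par (Reset_D σ D) ≤ p.r (n + 2) / 20 := by
    cases hc : c.par with
    | none => exact (div_pos (Par.r_pos hr _) (by norm_num)).le
    | some c' => exact ((Reset_lnk1 D.Wt D.flat σ c' _).trans (dist_comm _ _)).le.trans (hpar c' hc)
  have hl0 := Dom.lnkO_nonneg c.par (Reset_D σ D)
  have had : 0 ≤ Dom.adist c.par D (Reset_D σ D) ∧
      Dom.adist c.par D (Reset_D σ D) ≤ p.r (n + 2) / 8 := by
    have h1 := h.vc.2.2
    cases hc : c.par with
    | none => exact ⟨le_rfl, (div_pos (Par.r_pos hr _) (by norm_num)).le⟩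
    | some c' =>
      rw [hc] at hl h1
      have h2 := Dom.dist_bc_le c' D
      have h3 := Dom.dist_bc_le c' (Reset_D σ D)
      have h4 := (hv.len_bounds hr).2
      rw [Reset_len] at h3
      have h5 := dist_triangle_left (Dom.bc c' D) (Dom.bc c' (Reset_D σ D)) c'
      change Dom.lnk c' (Reset_D σ D) ≤ _ at hl
      change Dom.lnk c' D ≤ _ at h1
      refine ⟨dist_nonneg, ?_⟩
      change dist (Dom.bc c' D) (Dom.bc c' (Reset_D σ D)) ≤ _
      linarith
  have he := h.eq (Reset_D σ D) ⟨hv', Or.inl ha, by linarith⟩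
  generalize Dom.adist c.par D (Reset_D σ D) = ad at he had
  have hpt : ∀ y, (Reset_D σ D).Val p c.par y + Dom.dlt p D (Reset_D σ D) y ad ≤
      D.Val p c.par y + (C3 * p.r (n + 2) -
        if dist y σ ≤ p.r n / 4 then (C3 + 15) * p.r (n + 2) else 0) := by
    intro y
    have h1 := Reset_LV hr hG σ hv y
    have h2 := Reset_PV hr hG σ D y
    have h3 := Dom.dlt_crude hr hG hv hv' y had.1
    have h4 := (Dom.Hterm_bounds (p := p) c.par D y).1
    unfold Dom.Val
    split_ifs with hy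
    · have h5 := Reset_old h.toSit0 hg hy
      have k0 : cap p n σ y = 1 := cap_eq_one hr hy
      have k1 : cap p (n + 1) σ y = 1 := cap_eq_one hr (by linarith)
      have h6 : Dom.Hterm p c.par (Reset_D σ D) y = 0 := by
        cases hc : c.par with
        | none => rfl
        | some c' =>
          have h7 := hpar c' hc
          have h8 := dist_triangle y σ c'
          have h9 : chi p (n + 2) c' y = 0 := chi_eq_zero hr (by linarith)
          change _ * (C1 * chi p (n + 2) c' y + C2 * (1 - cap p (n + 1) σ y)) = 0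
          rw [h9, k1]
          ring
      rw [k0, k1, hGam] at h2
      rw [hGam] at h5
      rw [h6, h2]
      linarith [had.2]
    · have h5 := (hv.PV_bounds hr hG y).1
      have h6 := (Dom.Hterm_bounds (p := p) c.par (Reset_D σ D) y).2
      have c1 := cap_nonneg (p := p) (n := n) σ y
      have c2 := cap_le_one (p := p) (n := n) σ y
      have c3 := cap_nonneg (p := p) (n := n + 1) σ y
      have b0 : Gam * p.S n ≤ Gam * p.S (n + 2) := by rw [hGam]; linarith
      have b1 : Gam * p.S (n + 1) ≤ Gam * p.S (n + 2) := by rw [hGam]; linarith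
      have b2 := mul_le_mul_of_nonneg_left (add_le_add
        (mul_le_mul_of_nonneg_left b1 (sub_nonneg.2 c2)) (mul_le_mul_of_nonneg_left b0 c1)) c3
      have b3 : (Reset_D σ D).PV p y ≤ Gam * p.S (n + 2) := by linarith
      rw [hGam] at b3
      rw [hC1, hC2] at h6
      rw [hC3]
      linarith [had.2]
  have hsum := sum_le_sum fun y (_ : y ∈ univ) => mul_le_mul_of_nonneg_left (hpt y) (h.m_nonneg y)
  have e1 : ∑ y, m y * (if dist y σ ≤ p.r n / 4 then (C3 + 15) * p.r (n + 2) else 0) =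
      Mb m σ (p.r n / 4) * ((C3 + 15) * p.r (n + 2)) := by
    rw [Mb, sum_mul]
    refine sum_congr rfl fun y _ => ?_
    split_ifs <;> simp
  simp only [mul_add, mul_sub, sum_add_distrib, sum_sub_distrib, e1, ← sum_mul] at hsum
  have hM : ∑ y, m y ≤ (1 + 1 / C3) * Mb m σ (p.r n / 4) := (h.Mb_eq ha).symm.le.trans hh
  have ha0 : m σ ≤ Mb m σ (p.r n / 4) := le_Mb h.m_nonneg (by linarith)
  have hκ := h.κ_le.trans ha0
  have hpos := h.mσ_pos.trans_le ha0
  generalize Mb m σ (p.r n / 4) = a at hsum hM hκ hpos hP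
  have hR := Par.r_pos hr (n + 2)
  have hη : t.η ≤ a * p.r (n + 2) := by
    have h1 := h.tol.η_le
    have h2 : (1 : ℝ) ≤ p.G := by exact_mod_cast hG
    have h3 : t.η ≤ t.η * (64 * p.G ^ 2) := le_mul_of_one_le_right h.tol.η_nonneg (by nlinarith)
    have h4 : p.r0 ≤ p.r (n + 2) := (rr_zero p.r0).symm.le.trans (rr_mono hr (Nat.zero_le _))
    exact h3.trans (h1.trans (mul_le_mul hκ h4 hr.le hpos.le))
  have hW : (Reset_D σ D).Wt = D.Wt := Dom.heirOf_Wt _ _ _ _
  unfold Dom.obj at he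
  rw [hW, Reset_len, Reset_Links, add_zero, zero_add] at he
  have hC3' : (0 : ℝ) < C3 := by rw [hC3]; norm_num
  have g1 : 0 ≤ c.P * (C3 * (Dom.lnkO c.par D + D.len)) := mul_nonneg h.P_nonneg
    (mul_nonneg hC3'.le (add_nonneg (Dom.lnkO_nonneg _ _) (hv.len_bounds hr).1))
  have g2 : 0 ≤ t.κ * (D.Links + Dom.lnkO c.par D / 2 ^ (n + 2)) := mul_nonneg h.tol.κ_pos.le
    (add_nonneg D.Links_nonneg (div_nonneg (Dom.lnkO_nonneg _ _) (by positivity)))
  have g3 : c.P * (C3 * Dom.lnkO c.par (Reset_D σ D)) ≤ a * p.r (n + 2) := by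
    rw [← mul_assoc]
    exact mul_le_mul ((le_div_iff₀ hC3').1 hP) (by linarith) hl0 hpos.le
  have g4 : t.κ * (Dom.lnkO c.par (Reset_D σ D) / 2 ^ (n + 2)) ≤ a * p.r (n + 2) :=
    mul_le_mul hκ ((div_le_self hl0 (one_le_pow₀ one_le_two)).trans (by linarith))
      (by positivity) hpos.le
  have g5 : c.P * ad ≤ a * p.r (n + 2) :=
    mul_le_mul (hP.trans (div_le_self hpos.le (by rw [hC3]; norm_num))) (by linarith [had.2])
      had.1 hpos.le
  have g6 : (∑ y, m y) * (C3 * p.r (n + 2)) ≤ a * (C3 * p.r (n + 2)) + a * p.r (n + 2) := by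
    refine (mul_le_mul_of_nonneg_right hM (by positivity)).trans_eq ?_
    field_simp
  have g7 := mul_pos hpos hR
  linarith

end Crest.Agent.R314
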