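import Crest.Agent.R314.Level
import Crest.Agent.R314.Reset
import Crest.Agent.R314.Rebuild

/-! Module C: the gradient bound. -/

set_option autoImplicit false
set_option linter.unusedSectionVars false

namespace Crest.Agent.R314

open Finset 

variable {X : Type} [MetricSpace X] [Fintype X] [DecidableEq X] [Nonempty X] {p : Par} {n : ℕ}
  {t : Tol} {σ : X} {c : Ctx X} {m : X → ℝ}

/-- classes of nodes on the path of the request -/
inductive Cl
  | A
  | B
  | N

def Cl.e : Cl → ℝ
  | .A => 0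
  | .B => 3
  | .N => 2

def Cl.P (c : Ctx X) : Cl → ℝ
  | .A => c.P
  | _ => 0

def Cl.OK (p : Par) (σ : X) {n : ℕ} (c : Ctx X) (D : Dom X n) : Cl → Prop
  | .A => c.allow ∧ ∀ c', c.par = some c' → dist σ c' ≤ p.r n / 20
  | .B => ∀ c', D.ctr = some c' → p.r n / 64 ≤ dist σ c'
  | .N => D.ctr = none ∧ c.par = none

/-- the class of a child -/
def Grad_cl : Br X → Cl
  | none => .N
  | some none => .B
  | some (some _) => .A

theorem Cl.e_nonneg : ∀ cl : Cl, 0 ≤ cl.e
  | .A => le_rfl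
  | .B => by show (0 : ℝ) ≤ 3; norm_num
  | .N => by show (0 : ℝ) ≤ 2; norm_num

theorem Cl.P_nonneg (h : 0 ≤ c.P) : ∀ cl : Cl, 0 ≤ cl.P c
  | .A => h
  | .B => le_rfl
  | .N => le_rfl

theorem Grad_self {D : Dom X n} (h : Sit p t σ c m D) : D.Diff p c.par σ σ = 0 := by
  show _ - _ + _ = _
  rw [Dom.cut_self h.hyp.r0_pos h.hyp.G_pos, sub_self, add_zero]

theorem Grad_ctr {D : Dom X (n + 1)} {q : X × Dom X n} (hq : D.heir = some q) :
    D.ctr = some q.1 := by
  show D.heir.map _ = _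
  rw [hq]
  rfl

theorem Grad_hc {D : Dom X (n + 1)} {q : X × Dom X n} (hq : D.heir = some q) (y : X) :
    D.hc p y = cap p n q.1 y := by
  show D.heir.elim _ _ = _
  rw [hq]
  rfl

theorem Grad_ok {D : Dom X (n + 1)} (h : Sit p t σ c m D) (hg : ¬ D.Good p σ) :
    ∀ b : Br X, 0 < D.tb p b σ → (Grad_cl b).OK p σ (Dom.cctx p c m D b) (D.child b) ∧
      (Grad_cl b).P (Dom.cctx p c m D b) = 0
  | none, _ => ⟨⟨h.vc.1.2.2.2.2.1.2, rfl⟩, rfl⟩
  | some (some _), _ => ⟨⟨trivial, fun _ h => nomatch h⟩, rfl⟩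
  | some none, hb => by
    refine ⟨fun c' hc => ?_, rfl⟩
    obtain ⟨q, hq, -⟩ := Dom.dist_lt_of_heir h.hyp.r0_pos hb
    have h1 := h.toSit0.recenter hq
    have h2 : D.child (some none) = q.2 := by
      show D.heir.elim _ _ = _
      rw [hq]
      rfl
    have h3 : Dom.lnk q.1 q.2 = dist q.1 c' := by
      show q.2.ctr.elim _ _ = _
      rw [← h2, hc]
      rfl
    have h4 := not_le.1 fun h => hg ⟨q, hq, h⟩
    have h5 := dist_triangle_right σ q.1 c'
    have h6 := Par.r_pos h.hyp.r0_pos n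
    linarith

theorem Grad_key {D : Dom X (n + 2)} (h : Sit p t σ c m D) (cl : Cl) (hcl : cl.OK p σ c D)
    (hg : ¬ D.Good p σ) : ∑ b, D.tb p b σ * (Grad_cl b).e + 1 + Dl p m σ (n + 2) ≤
      cl.e + 2 ^ 84 * (Dl p m σ (n + 2) + Pi2 p m σ (n + 2) (cl.P c) - Pi2 p m σ (n + 2) 0) := by
  have hr := h.hyp.r0_pos
  have hσ := h.mσ_pos
  have h0 := Dl_nonneg hr h.m_nonneg hσ (n + 2)
  have h1 : ∑ b, D.tb p b σ * (Grad_cl b).e = 2 * D.tb p none σ + 3 * D.hc p σ := by
    rw [Fintype.sum_option, Fintype.sum_option]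
    show _ * 2 + (D.hc p σ * 3 + ∑ z, D.tc p z σ * 0) = _
    simp only [mul_zero, sum_const_zero]
    ring
  have h2 : D.tb p none σ + D.hc p σ ≤ 1 := by
    have : 0 ≤ ∑ z, D.tc p z σ := sum_nonneg fun z _ => h.vc.1.tb_nonneg hr (some (some z)) σ
    show 1 - _ - _ + _ ≤ _
    linarith
  have h3 := h.vc.1.tb_nonneg hr none σ
  have h4 := fun hh => Dl_ge_of_not_heavy hr h.m_nonneg hσ n hh
  have h5 := Par.r_pos hr n
  rw [h1]
  cases cl with
  | A =>
    have b0 := hσ.trans_le (le_Mb h.m_nonneg (σ := σ) (ρ := 4 * p.r (n + 2))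
      (by have := Par.r_pos hr (n + 2); positivity))
    have b1 : Pi2 p m σ (n + 2) c.P - Pi2 p m σ (n + 2) 0 =
        Real.log (1 + c.P / Mb m σ (4 * p.r (n + 2))) := by
      have := h.P_nonneg
      show Real.log _ - Real.log _ = _
      rw [← Real.log_div (by positivity) (by positivity)]
      congr 1
      field_simp
      ring
    have b2 : 0 ≤ c.P / Mb m σ (4 * p.r (n + 2)) := div_nonneg h.P_nonneg b0.le
    show _ ≤ 0 + _ * (_ + Pi2 p m σ (n + 2) c.P - _)
    rw [add_sub_assoc, b1]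
    by_cases hh : Heavy p m σ n
    · have b3 := not_le.1 fun h6 => hg (h.reset hcl.1 hcl.2 hh h6)
      have b4 : C3 = 2 ^ 60 + 2 * 2 ^ 43 := rfl
      have b5 : Mb m σ (4 * p.r (n + 2)) ≤ (1 + 1 / C3) * Mb m σ (p.r n / 4) := hh
      have b6 := h.mσ_pos.trans_le (le_Mb h.m_nonneg (σ := σ) (ρ := p.r n / 4) (by positivity))
      have b7 : 1 / 2 ^ 62 ≤ c.P / Mb m σ (4 * p.r (n + 2)) := by
        rw [le_div_iff₀ b0]
        rw [b4] at b3 b5
        linarith
      have b8 := Real.one_sub_inv_le_log_of_pos (show (0 : ℝ) < 1 + 1 / 2 ^ 62 by positivity)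
      have b9 := Real.log_le_log (by positivity) (add_le_add_right b7 1)
      norm_num at b8 b9 ⊢
      linarith
    · have := Real.log_nonneg (le_add_of_nonneg_right b2 : (1 : ℝ) ≤ _)
      linarith [h4 hh]
  | B =>
    have b1 : D.hc p σ = 0 := by
      rcases hq : D.heir with _ | q
      · show D.heir.elim _ _ = _
        rw [hq]
        rfl
      · have := hcl _ (Grad_ctr hq)
        have := Par.r_pos hr (n + 1)
        rw [Grad_hc hq, cap_eq_zero hr (by linarith [p.r_succ (n + 1)])]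
    show _ ≤ 3 + _ * (_ + Pi2 p m σ (n + 2) 0 - _)
    linarith
  | N =>
    have b1 : D.hc p σ = 0 := by
      rcases hq : D.heir with _ | q
      · show D.heir.elim _ _ = _
        rw [hq]
        rfl
      · exact nomatch (Grad_ctr hq).symm.trans hcl.1
    show _ ≤ 2 + _ * (_ + Pi2 p m σ (n + 2) 0 - _)
    by_cases hh : Heavy p m σ n
    · linarith [h.rebuild hcl.1 hcl.2 hh]
    · linarith [h4 hh]

theorem Grad_good {D : Dom X (n + 1)} (h : Sit p t σ c m D) (ha : c.allow) (h1 : D.hc p σ = 1) :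
    Pi1 p (Dom.mb p m D (some none)) σ n +
        Pi2 p (Dom.mb p m D (some none)) σ n (c.P + Dom.msh p m D) ≤
      Pi1 p m σ (n + 1) + Pi2 p m σ (n + 1) c.P := by
  have hr := h.hyp.r0_pos
  have hσ := h.mσ_pos
  have h2 : D.tb p (some none) σ = 1 := h1
  refine add_le_add ?_ ?_
  · have h3 := jensen_Pi1 hr h.m_nonneg hσ h.vc.1 n
    rw [sum_eq_single (some none) (fun b _ hb => by rw [h.vc.1.tb_of_hc_one hr h1 hb, zero_mul])
      (by simp), h2, one_mul] at h3
    rw [Pi1_succ]
    linarith [Dl_nonneg hr h.m_nonneg hσ (n + 1)]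
  · have h3 : Dom.mb p m D (some none) σ = m σ := by
      show m σ * _ = _
      rw [h2, mul_one]
    have h4 : ∀ y, 0 ≤ Dom.mb p m D (some none) y := fun y =>
      mul_nonneg (h.m_nonneg y) (D.hc_nonneg y)
    have h5 := le_Mb h4 (σ := σ) (ρ := 4 * p.r n) (by have := Par.r_pos hr n; positivity)
    have h6 : 0 ≤ Dom.msh p m D := sum_nonneg fun y _ =>
      mul_nonneg (h.m_nonneg y) (sub_nonneg.2 (D.hc_le_one y))
    have h7 : ∑ y, Dom.mb p m D (some none) y + Dom.msh p m D = ∑ y, m y := by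
      show _ + ∑ y, _ = _
      rw [← sum_add_distrib]
      exact sum_congr rfl fun y _ => by
        show m y * D.hc p y + _ = _
        ring
    have h8 := Mb_le_sum h4 (σ := σ) (4 * p.r n)
    have h9 := h.P_nonneg
    show Real.log _ ≤ Real.log _
    rw [h3, h.Mb_eq ha] at *
    exact Real.log_le_log (div_pos (by linarith) hσ)
      (div_le_div_of_nonneg_right (by linarith) hσ.le)

theorem Sit.grad {x : X} : ∀ {n : ℕ} {c : Ctx X} {m : X → ℝ} {D : Dom X n} (_ : Sit p t σ c m D)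
    (cl : Cl) (_ : cl.OK p σ c D) (_ : dist x σ ≤ p.r n / 48),
    D.Diff p c.par σ x ≤
      2 ^ 66 * dist x σ * (2 ^ 84 * (Pi1 p m σ n + Pi2 p m σ n (cl.P c)) + cl.e + 1) := by
  intro n
  induction n with
  | zero =>
    intro c m D h cl _ hx
    have h1 : p.r 0 = p.r0 := rr_zero _
    obtain rfl := h.hyp.sep x σ (by linarith [h.hyp.r0_pos])
    rw [Grad_self h, dist_self, mul_zero, zero_mul]
  | succ n ih =>
    intro c m D h cl hcl hx
    rcases eq_or_ne x σ with rfl | hne
    · rw [Grad_self h, dist_self, mul_zero, zero_mul]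
    have hr := h.hyp.r0_pos
    have hσ := h.mσ_pos
    have h0 := Dl_nonneg hr h.m_nonneg hσ (n + 1)
    have hd : 0 ≤ dist x σ := dist_nonneg
    rcases le_total (p.r n / 48) (dist x σ) with h1 | h1
    · refine (h.terminal h1 hx).trans ?_
      have a1 := (Pi1_bounds hr h.m_nonneg hσ n).1
      have a2 := Pi2_nonneg hr h.m_nonneg hσ (n + 1) (cl.P_nonneg h.P_nonneg)
      have a3 := cl.e_nonneg
      rw [Pi1_succ, mul_comm _ (dist x σ), mul_assoc]
      exact mul_le_mul_of_nonneg_left (by linarith) hd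
    obtain _ | n := n
    · have h2 : p.r 0 = p.r0 := rr_zero _
      exact absurd (h.hyp.sep x σ (by linarith)) hne
    have hn := Par.r_pos hr (n + 1)
    by_cases hg : D.Good p σ
    · obtain ⟨q, hq, h2⟩ := id hg
      cases cl with
      | A =>
        have h3 : D.hc p σ = 1 := by rw [Grad_hc hq, cap_eq_one hr (by linarith)]
        refine (h.good h1 hcl.2 hg).trans ((ih (h.child (b := some none) (h3.symm ▸ one_pos :
          0 < D.hc p σ)) .A ⟨trivial, fun c' hc => ?_⟩ h1).trans ?_)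
        · obtain rfl := Option.some.inj ((Grad_ctr hq).symm.trans hc)
          exact h2
        · have := Grad_good h hcl.1 h3
          exact mul_le_mul_of_nonneg_left (by
            show _ * (_ + Pi2 p _ σ _ (c.P + Dom.msh p m D)) + _ + _ ≤
              _ * (_ + Pi2 p _ σ _ c.P) + _ + _
            linarith) (by positivity)
      | B => linarith [hcl _ (Grad_ctr hq), p.r_succ (n + 1)]
      | N => exact nomatch (Grad_ctr hq).symm.trans hcl.1
    have h2 : ∀ b, min (D.tb p b σ) (D.tb p b x) *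
        (D.child b).Diff p (Dom.cctx p c m D b).par σ x ≤ 2 ^ 66 * dist x σ *
          (2 ^ 84 * (D.tb p b σ * Pi1 p (Dom.mb p m D b) σ (n + 1) +
            D.tb p b σ * Pi2 p (Dom.mb p m D b) σ (n + 1) 0) + D.tb p b σ * (Grad_cl b).e +
            D.tb p b σ) := fun b => by
      have a1 := h.vc.1.tb_nonneg hr b x
      rcases (h.vc.1.tb_nonneg hr b σ).eq_or_lt with a2 | a2
      · rw [← a2, min_eq_left a1]
        simp
      have a3 := h.child a2
      obtain ⟨a4, a5⟩ := Grad_ok h hg b a2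
      have a6 := ih a3 _ a4 h1
      have a7 := (Pi1_bounds hr a3.m_nonneg a3.mσ_pos (n + 1)).1
      have a8 := Pi2_nonneg hr a3.m_nonneg a3.mσ_pos (n + 1) le_rfl
      have a9 := (Grad_cl b).e_nonneg
      rw [a5] at a6
      refine (mul_le_mul_of_nonneg_left a6 (le_min a2.le a1)).trans
        ((mul_le_mul_of_nonneg_right (min_le_left _ _)
          (mul_nonneg (mul_nonneg (by norm_num) hd) (by linarith))).trans_eq ?_)
      ring
    have h3 := sum_le_sum fun b (_ : b ∈ univ) => h2 b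
    rw [← mul_sum, sum_add_distrib, sum_add_distrib, ← mul_sum, sum_add_distrib, D.sum_tb] at h3
    have h4 := jensen_Pi1 hr h.m_nonneg hσ h.vc.1 (n + 1)
    have h5 := jensen_Pi2 hr h.m_nonneg hσ h.vc.1
    have h6 := Grad_key h cl hcl hg
    refine (h.level h1).trans ((add_le_add_left h3 _).trans ?_)
    rw [Pi1_succ (n + 1), mul_comm _ (dist x σ), mul_assoc, mul_assoc, ← mul_add]
    exact mul_le_mul_of_nonneg_left (by linarith) hd

end Crest.Agent.R314
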