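import Crest.Agent.R314.ValA
import Crest.Agent.R314.Rec

/-! Module C: halving the local weights. -/

set_option autoImplicit false
set_option linter.unusedSectionVars false

namespace Crest.Agent.R314

open Finset 

variable {X : Type} [MetricSpace X] [Fintype X] [DecidableEq X] [Nonempty X] {p : Par} {n : ℕ}

namespace Dom

section Aux

theorem half_hc (D : Dom X (n + 1)) (y : X) :
    D.hc p y = D.heir.elim 0 fun q => cap p n q.1 y := rfl
theorem half_tc (D : Dom X (n + 1)) (z y : X) :
    D.tc p z y = (D.top z).elim 0 fun _ => cap p n z y := rfl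
theorem half_tb1 (D : Dom X (n + 1)) (y : X) :
    D.tb p none y = 1 - D.hc p y - ∑ z, D.tc p z y := rfl
theorem half_tb2 (D : Dom X (n + 1)) (y : X) : D.tb p (some none) y = D.hc p y := rfl
theorem half_tb3 (D : Dom X (n + 1)) (z y : X) : D.tb p (some (some z)) y = D.tc p z y := rfl
theorem half_child1 (D : Dom X (n + 1)) : D.child none = D.next := rfl
theorem half_child2 (D : Dom X (n + 1)) :
    D.child (some none) = D.heir.elim D.next Prod.snd := rfl
theorem half_child3 (D : Dom X (n + 1)) (z : X) :
    D.child (some (some z)) = (D.top z).elim D.next Prod.snd := rfl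
theorem half_lv1 (D : Dom X (n + 1)) (y : X) :
    D.lv0 p none y = K0 * p.r n * tok p n D.nu y := rfl
theorem half_lv3 (D : Dom X (n + 1)) (z y : X) :
    D.lv0 p (some (some z)) y = -(K0 * p.r n * Real.log ((D.top z).elim 1 Prod.fst)) := rfl
theorem half_gau1 (D : Dom X (n + 1)) :
    D.gau p none = if D.heir.isSome then p.nrm (n + 1) D.Wsh else 0 := rfl
theorem half_gau3 (D : Dom X (n + 1)) (z : X) :
    D.gau p (some (some z)) = if D.heir.isSome then p.nrm (n + 1) D.Wsh else 0 := rfl
theorem half_pv1 (D : Dom X (n + 1)) (y : X) :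
    D.pv p none y = Gam * p.r n + C3 * D.len := rfl
theorem half_pv2 (D : Dom X (n + 1)) (y : X) :
    D.pv p (some none) y = Hterm p D.ctr (D.child (some none)) y := rfl
theorem half_pv3 (D : Dom X (n + 1)) (z y : X) :
    D.pv p (some (some z)) y = Gam * p.r n + C3 * D.len := rfl
theorem half_bd1 (D D' : Dom X (n + 1)) : bdist D D' none = 0 := rfl
theorem half_bd3 (D D' : Dom X (n + 1)) (z : X) : bdist D D' (some (some z)) = 0 := rfl
theorem half_S_zero : p.S 0 = 0 := Finset.sum_range_zero (rr p.r0)
theorem half_nrm_zero (W : ℕ → ℝ) : p.nrm 0 W = 0 := by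
  show K0 * ∑ l ∈ range 0, p.r l * Real.log (W l) = 0
  rw [Finset.sum_range_zero, mul_zero]

theorem half_mk_heir (a : Option (X × Dom X n)) (b : ℕ → ℝ) (c : X → ℝ)
    (d : X → Option (ℝ × Dom X n)) (e : Dom X n) : (mk a b c d e).heir = a := rfl

theorem half_mk_w (a : Option (X × Dom X n)) (b : ℕ → ℝ) (c : X → ℝ)
    (d : X → Option (ℝ × Dom X n)) (e : Dom X n) : (mk a b c d e).w = b := rfl

theorem half_mk_nu (a : Option (X × Dom X n)) (b : ℕ → ℝ) (c : X → ℝ)
    (d : X → Option (ℝ × Dom X n)) (e : Dom X n) : (mk a b c d e).nu = c := rfl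

theorem half_mk_top (a : Option (X × Dom X n)) (b : ℕ → ℝ) (c : X → ℝ)
    (d : X → Option (ℝ × Dom X n)) (e : Dom X n) : (mk a b c d e).top = d := rfl

theorem half_mk_next (a : Option (X × Dom X n)) (b : ℕ → ℝ) (c : X → ℝ)
    (d : X → Option (ℝ × Dom X n)) (e : Dom X n) : (mk a b c d e).next = e := rfl

theorem half_scale_succ (D : Dom X (n + 1)) : D.scale =
    if D.heir.isSome then mk D.heir (fun l => D.w l / 2) D.nu D.top D.next
      else mk D.heir D.w (fun z => D.nu z / 2)
        (fun z => (D.top z).map fun q => (q.1 / 2, scale q.2)) (scale D.next) := rfl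

theorem half_scale_some {D : Dom X (n + 1)} (h : D.heir.isSome) :
    D.scale = mk D.heir (fun l => D.w l / 2) D.nu D.top D.next := by
  rw [half_scale_succ, if_pos h]

theorem half_scale_none {D : Dom X (n + 1)} (h : ¬ D.heir.isSome) :
    D.scale = mk D.heir D.w (fun z => D.nu z / 2)
        (fun z => (D.top z).map fun q => (q.1 / 2, scale q.2)) (scale D.next) := by
  rw [half_scale_succ, if_neg h]

theorem half_succ (σ : X) (Q : ℝ) (D : Dom X (n + 1)) : half σ Q D =
    mk D.heir D.w (fun z => if dist z σ ≤ Q then D.nu z / 2 else D.nu z)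
      (fun z => if dist z σ ≤ Q then (D.top z).map fun q => (q.1 / 2, scale q.2) else D.top z)
      (half σ Q D.next) := rfl

theorem half_Loc_succ (σ : X) (Q : ℝ) (D : Dom X (n + 1)) (l : ℕ) : Loc σ Q D l =
    if l = n then ∑ z, if dist z σ ≤ Q then D.nu z + (D.top z).elim 0 Prod.fst else 0
      else Loc σ Q D.next l +
        ∑ z, if dist z σ ≤ Q then (D.top z).elim 0 fun q => Wt q.2 l else 0 := rfl

theorem half_Wt_succ (D : Dom X (n + 1)) (l : ℕ) : D.Wt l =
    if D.heir.isSome then D.w l else
      if l = n then ∑ z, D.nu z + ∑ z, (D.top z).elim 0 Prod.fst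
      else D.next.Wt l + ∑ z, (D.top z).elim 0 fun q => Wt q.2 l := rfl

theorem half_ctr_succ (D : Dom X (n + 1)) : D.ctr = D.heir.map Prod.fst := rfl

theorem half_len_succ (D : Dom X (n + 1)) :
    D.len = D.heir.elim 0 fun q => lnk q.1 q.2 + len q.2 := rfl

theorem half_PV_succ (D : Dom X (n + 1)) (y : X) :
    D.PV p y = ∑ b, D.tb p b y * (D.pv p b y + PV p (D.child b) y) := rfl

theorem half_LV_succ (D : Dom X (n + 1)) (y : X) :
    D.LV p y = (if D.heir.isSome then -p.nrm (n + 1) D.w else 0) +
      ∑ b, D.tb p b y * (D.gau p b + D.lv0 p b y + LV p (D.child b) y) := rfl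

theorem half_Links_succ (D : Dom X (n + 1)) :
    D.Links = D.heir.elim 0 (fun q => lnk q.1 q.2 / 2 ^ n + Links q.2) + Links D.next +
      ∑ z, (D.top z).elim 0 fun q => Links q.2 := rfl

theorem half_Valid_succ (D : Dom X (n + 1)) : D.Valid p ↔
    (∀ l, 0 < D.w l) ∧ (∀ z, 0 < D.nu z) ∧
      (∀ z q, D.top z = some q → 0 < q.1 ∧ Valid p q.2) ∧
      (∀ z z', (D.top z).isSome → (D.top z').isSome → z ≠ z' → p.r n ≤ dist z z') ∧
      (Valid p D.next ∧ D.next.ctr = none) ∧
      ∀ q, D.heir = some q → Valid p q.2 ∧ lnk q.1 q.2 ≤ p.r n / 16 ∧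
        ∀ z, (D.top z).isSome → p.r n ≤ dist q.1 z := Iff.rfl

theorem half_heir_none {D : Dom X (n + 1)} (h : D.ctr = none) : D.heir = none := by
  rw [half_ctr_succ] at h
  simpa using h

/-- the branch probabilities depend only on the heir and on the set of top marks -/
theorem half_tb_congr {D D' : Dom X (n + 1)} (h1 : D'.heir = D.heir)
    (h2 : ∀ z, (D'.top z).isSome = (D.top z).isSome) (b : Br X) (y : X) :
    D'.tb p b y = D.tb p b y := by
  have hc : D'.hc p y = D.hc p y := by rw [half_hc, half_hc, h1]
  have ht : ∀ z, D'.tc p z y = D.tc p z y := by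
    intro z
    rw [half_tc, half_tc]
    have := h2 z
    revert this
    cases D'.top z <;> cases D.top z <;> intro this <;> first | rfl | exact absurd this (by simp)
  rcases b with _ | _ | z
  · simp only [half_tb1, hc, ht]
  · simp only [half_tb2, hc]
  · simp only [half_tb3, ht]

theorem half_pv_congr {D D' : Dom X (n + 1)} (h1 : D'.heir = D.heir) (b : Br X) (y : X) :
    D'.pv p b y = D.pv p b y := by
  have hl : D'.len = D.len := by rw [half_len_succ, half_len_succ, h1]
  rcases b with _ | _ | z
  · rw [half_pv1, half_pv1, hl]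
  · rw [half_pv2, half_pv2, half_child2, half_child2, half_ctr_succ, half_ctr_succ, h1]
    cases D.heir with
    | none => rfl
    | some q => rfl
  · rw [half_pv3, half_pv3, hl]

theorem half_tb_heir_zero {D : Dom X (n + 1)} (h : D.heir = none) (y : X) :
    D.tb p (some none) y = 0 := by
  rw [half_tb2, half_hc, h]; rfl

theorem half_tb_top_zero {D : Dom X (n + 1)} {z : X} (h : D.top z = none) (y : X) :
    D.tb p (some (some z)) y = 0 := by
  rw [half_tb3, half_tc, h]; rfl

theorem half_gau_none {D : Dom X (n + 1)} (h : D.heir = none) {b : Br X} (hb : b ≠ some none) :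
    D.gau p b = 0 := by
  rcases b with _ | _ | z
  · rw [half_gau1, h]; rfl
  · exact absurd rfl hb
  · rw [half_gau3, h]; rfl

end Aux

theorem scale_ctr : ∀ {n : ℕ} (D : Dom X n), D.scale.ctr = D.ctr := by
  intro n D
  cases n with
  | zero => rfl
  | succ n =>
    by_cases h : D.heir.isSome
    · rw [half_scale_some h]; rfl
    · rw [half_scale_none h]; rfl

theorem Valid.scale_valid : ∀ {n : ℕ} {D : Dom X n} (_ : D.Valid p), D.scale.Valid p := by
  intro n
  induction n with
  | zero => intro D _; trivial
  | succ n ih =>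
    intro D hD
    obtain ⟨h1, h2, h3, h4, h5, h6⟩ := (half_Valid_succ D).1 hD
    by_cases h : D.heir.isSome
    · rw [half_scale_some h, half_Valid_succ]
      exact ⟨fun l => half_pos (h1 l), h2, h3, h4, h5, h6⟩
    · rw [half_scale_none h, half_Valid_succ]
      simp only [half_mk_heir, half_mk_w, half_mk_nu, half_mk_top, half_mk_next, Option.isSome_map]
      refine ⟨h1, fun z => half_pos (h2 z), ?_, h4, ⟨ih h5.1, by rw [scale_ctr]; exact h5.2⟩, h6⟩
      intro z q hq
      obtain ⟨q', hq', rfl⟩ := Option.map_eq_some_iff.1 hq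
      exact ⟨half_pos (h3 z q' hq').1, ih (h3 z q' hq').2⟩

theorem scale_Wt : ∀ {n : ℕ} (D : Dom X n) {l : ℕ} (_ : l < n), D.scale.Wt l = D.Wt l / 2 := by
  intro n
  induction n with
  | zero => intro D l hl; exact absurd hl (Nat.not_lt_zero _)
  | succ n ih =>
    intro D l hl
    by_cases h : D.heir.isSome
    · rw [half_scale_some h, half_Wt_succ, half_Wt_succ D]
      simp only [half_mk_heir, half_mk_w, if_pos h]
    · rw [half_scale_none h, half_Wt_succ, half_Wt_succ D]
      simp only [half_mk_heir, half_mk_w, half_mk_nu, half_mk_top, half_mk_next, if_neg h]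
      by_cases hln : l = n
      · rw [if_pos hln, if_pos hln, add_div, sum_div, sum_div]
        congr 1
        refine sum_congr rfl fun z _ => ?_
        cases D.top z <;> simp
      · have hl' : l < n := by omega
        rw [if_neg hln, if_neg hln, add_div, sum_div, ih _ hl']
        congr 1
        refine sum_congr rfl fun z _ => ?_
        cases D.top z with
        | none => simp
        | some q => simp [ih _ hl']

theorem half_scale_child {D : Dom X (n + 1)} (h : ¬ D.heir.isSome) (b : Br X) :
    D.scale.child b = (D.child b).scale := by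
  have h0 : D.heir = none := by simpa using h
  rw [half_scale_none h]
  rcases b with _ | _ | z
  · rfl
  · rw [half_child2, half_child2, half_mk_heir, half_mk_next, h0]; rfl
  · rw [half_child3, half_child3, half_mk_top, half_mk_next]
    cases D.top z <;> rfl

theorem half_scale_heir (D : Dom X (n + 1)) : D.scale.heir = D.heir := by
  by_cases h : D.heir.isSome
  · rw [half_scale_some h]; rfl
  · rw [half_scale_none h]; rfl

theorem half_scale_top (D : Dom X (n + 1)) (z : X) :
    (D.scale.top z).isSome = (D.top z).isSome := by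
  by_cases h : D.heir.isSome
  · rw [half_scale_some h]; rfl
  · rw [half_scale_none h]; simp only [half_mk_top, Option.isSome_map]

theorem half_scale_tb (D : Dom X (n + 1)) (b : Br X) (y : X) :
    D.scale.tb p b y = D.tb p b y :=
  half_tb_congr (half_scale_heir D) (half_scale_top D) b y

theorem scale_PV (y : X) : ∀ {n : ℕ} (D : Dom X n), D.scale.PV p y = D.PV p y := by
  intro n
  induction n with
  | zero => intro D; rfl
  | succ n ih =>
    intro D
    rw [half_PV_succ, half_PV_succ]
    refine sum_congr rfl fun b _ => ?_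
    rw [half_scale_tb, half_pv_congr (half_scale_heir D)]
    by_cases h : D.heir.isSome
    · have : D.scale.child b = D.child b := by
        rw [half_scale_some h]
        rcases b with _ | _ | z <;> rfl
      rw [this]
    · rw [half_scale_child h, ih]

theorem scale_Links : ∀ {n : ℕ} (D : Dom X n), D.scale.Links = D.Links := by
  intro n
  induction n with
  | zero => intro D; rfl
  | succ n ih =>
    intro D
    by_cases h : D.heir.isSome
    · rw [half_scale_some h]; rfl
    · rw [half_scale_none h, half_Links_succ, half_Links_succ D]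
      simp only [half_mk_heir, half_mk_top, half_mk_next, ih]
      congr 1
      refine sum_congr rfl fun z _ => ?_
      cases D.top z with
      | none => rfl
      | some q => simp [ih]

theorem half_ctr (σ : X) (Q : ℝ) : ∀ {n : ℕ} (D : Dom X n), (half σ Q D).ctr = D.ctr := by
  intro n D
  cases n with
  | zero => rfl
  | succ n => rfl

theorem half_top_isSome (σ : X) (Q : ℝ) (D : Dom X (n + 1)) (z : X) :
    ((half σ Q D).top z).isSome = (D.top z).isSome := by
  rw [half_succ, half_mk_top]
  split_ifs
  · rw [Option.isSome_map]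
  · rfl

theorem half_tb (σ : X) (Q : ℝ) (D : Dom X (n + 1)) (b : Br X) (y : X) :
    (half σ Q D).tb p b y = D.tb p b y :=
  half_tb_congr (D' := half σ Q D) (D := D) rfl (half_top_isSome σ Q D) b y

theorem Valid.half_valid (σ : X) (Q : ℝ) : ∀ {n : ℕ} {D : Dom X n} (_ : D.Valid p),
    (half σ Q D).Valid p := by
  intro n
  induction n with
  | zero => intro D _; trivial
  | succ n ih =>
    intro D hD
    obtain ⟨h1, h2, h3, h4, h5, h6⟩ := (half_Valid_succ D).1 hD
    rw [half_Valid_succ]
    simp only [half_top_isSome]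
    refine ⟨h1, fun z => ?_, ?_, h4, ⟨ih h5.1, (half_ctr σ Q _).trans h5.2⟩, h6⟩
    · rw [half_succ, half_mk_nu]
      split_ifs
      · exact half_pos (h2 z)
      · exact h2 z
    · intro z q hq
      rw [half_succ, half_mk_top] at hq
      split_ifs at hq
      · obtain ⟨q', hq', rfl⟩ := Option.map_eq_some_iff.1 hq
        exact ⟨half_pos (h3 z q' hq').1, (h3 z q' hq').2.scale_valid⟩
      · exact h3 z q hq

theorem Valid.half_Wt (σ : X) (Q : ℝ) : ∀ {n : ℕ} {D : Dom X n} (_ : D.Valid p)
    (_ : D.ctr = none) {l : ℕ} (_ : l < n), (half σ Q D).Wt l = D.Wt l - Loc σ Q D l / 2 := by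
  intro n
  induction n with
  | zero => intro D _ _ l hl; exact absurd hl (Nat.not_lt_zero _)
  | succ n ih =>
    intro D hD hc l hl
    obtain ⟨h1, h2, h3, h4, h5, h6⟩ := (half_Valid_succ D).1 hD
    have h0 := half_heir_none hc
    have h : ¬ D.heir.isSome := by simp [h0]
    rw [half_succ, half_Wt_succ, half_Wt_succ D, half_Loc_succ]
    simp only [half_mk_heir, half_mk_w, half_mk_nu, half_mk_top, half_mk_next, if_neg h]
    by_cases hln : l = n
    · rw [if_pos hln, if_pos hln, if_pos hln, sum_div, ← sum_add_distrib, ← sum_add_distrib,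
        ← sum_sub_distrib]
      refine sum_congr rfl fun z _ => ?_
      split_ifs
      · cases D.top z with
        | none => simp; ring
        | some q => simp; ring
      · simp
    · have hl' : l < n := by omega
      rw [if_neg hln, if_neg hln, if_neg hln, ih h5.1 h5.2 hl', add_div, sum_div]
      have : ∑ z, (if dist z σ ≤ Q then (D.top z).map fun q => (q.1 / 2, scale q.2)
          else D.top z).elim 0 (fun q => Wt q.2 l) =
          ∑ z, (D.top z).elim 0 (fun q => Wt q.2 l) -
            ∑ z, (if dist z σ ≤ Q then (D.top z).elim 0 fun q => Wt q.2 l else 0) / 2 := by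
        rw [← sum_sub_distrib]
        refine sum_congr rfl fun z _ => ?_
        split_ifs
        · cases D.top z with
          | none => simp
          | some q => simp [scale_Wt _ hl']; ring
        · simp
      rw [this]; ring

theorem half_PV (σ : X) (Q : ℝ) (y : X) : ∀ {n : ℕ} (D : Dom X n),
    (half σ Q D).PV p y = D.PV p y := by
  intro n
  induction n with
  | zero => intro D; rfl
  | succ n ih =>
    intro D
    rw [half_PV_succ, half_PV_succ]
    refine sum_congr rfl fun b _ => ?_
    rw [half_tb, half_pv_congr (D' := half σ Q D) (D := D) rfl]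
    congr 2
    rw [half_succ]
    rcases b with _ | _ | z
    · exact ih _
    · rw [half_child2, half_child2, half_mk_heir, half_mk_next]
      cases D.heir with
      | none => exact ih _
      | some q => rfl
    · rw [half_child3, half_child3, half_mk_top, half_mk_next]
      split_ifs
      · cases D.top z with
        | none => exact ih _
        | some q => exact scale_PV y _
      · cases D.top z with
        | none => exact ih _
        | some q => rfl

theorem half_Links (σ : X) (Q : ℝ) : ∀ {n : ℕ} (D : Dom X n), (half σ Q D).Links = D.Links := by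
  intro n
  induction n with
  | zero => intro D; rfl
  | succ n ih =>
    intro D
    rw [half_succ, half_Links_succ, half_Links_succ D]
    simp only [half_mk_heir, half_mk_top, half_mk_next, ih]
    congr 1
    refine sum_congr rfl fun z _ => ?_
    split_ifs
    · cases D.top z with
      | none => rfl
      | some q => simp [scale_Links]
    · rfl

theorem half_top_fst_nonneg {D : Dom X (n + 1)} (hD : D.Valid p) (z : X) :
    0 ≤ (D.top z).elim 0 Prod.fst := by
  obtain ⟨h1, h2, h3, h4, h5, h6⟩ := (half_Valid_succ D).1 hD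
  cases hz : D.top z with
  | none => exact le_rfl
  | some q => exact (h3 z q hz).1.le

theorem half_top_Wt_nonneg {D : Dom X (n + 1)} (hD : D.Valid p) (z : X) (l : ℕ) :
    0 ≤ (D.top z).elim 0 fun q => Wt q.2 l := by
  obtain ⟨h1, h2, h3, h4, h5, h6⟩ := (half_Valid_succ D).1 hD
  cases hz : D.top z with
  | none => exact le_rfl
  | some q => exact ((h3 z q hz).2.Wt_pos l).le

theorem Valid.Loc_bounds (σ : X) {Q : ℝ} (hQ : 0 ≤ Q) : ∀ {n : ℕ} {D : Dom X n} (_ : D.Valid p)
    (_ : D.ctr = none) (l : ℕ), 0 < Loc σ Q D l ∧ Loc σ Q D l ≤ D.Wt l := by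
  intro n
  induction n with
  | zero => intro D _ _ l; exact ⟨one_pos, le_rfl⟩
  | succ n ih =>
    intro D hD hc l
    obtain ⟨h1, h2, h3, h4, h5, h6⟩ := (half_Valid_succ D).1 hD
    have h0 := half_heir_none hc
    have h : ¬ D.heir.isSome := by simp [h0]
    rw [half_Wt_succ D, half_Loc_succ, if_neg h]
    by_cases hln : l = n
    · rw [if_pos hln, if_pos hln, ← sum_add_distrib]
      have hp : ∀ z, 0 < D.nu z + (D.top z).elim 0 Prod.fst := fun z =>
        add_pos_of_pos_of_nonneg (h2 z) (half_top_fst_nonneg hD z)
      constructor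
      · refine sum_pos' (fun z _ => ?_) ⟨σ, mem_univ _, ?_⟩
        · split_ifs
          · exact (hp z).le
          · exact le_rfl
        · rw [if_pos (by rw [dist_self]; exact hQ)]
          exact hp σ
      · refine sum_le_sum fun z _ => ?_
        split_ifs
        · exact le_rfl
        · exact (hp z).le
    · rw [if_neg hln, if_neg hln]
      obtain ⟨i1, i2⟩ := ih h5.1 h5.2 l
      constructor
      · refine add_pos_of_pos_of_nonneg i1 (sum_nonneg fun z _ => ?_)
        split_ifs
        · exact half_top_Wt_nonneg hD z l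
        · exact le_rfl
      · refine add_le_add i2 (sum_le_sum fun z _ => ?_)
        split_ifs
        · exact le_rfl
        · exact half_top_Wt_nonneg hD z l

theorem half_nrm_half {W : ℕ → ℝ} (hW : ∀ l, 0 < W l) :
    ∀ n : ℕ, p.nrm n (fun l => W l / 2) = p.nrm n W - K0 * Real.log 2 * p.S n := by
  intro n
  induction n with
  | zero => rw [half_nrm_zero, half_nrm_zero, half_S_zero, mul_zero, sub_zero]
  | succ n ih =>
    rw [Par.nrm_succ, Par.nrm_succ, ih, Par.S_succ, Real.log_div (hW n).ne' two_ne_zero]
    ring

theorem half_avg_eq (D : Dom X (n + 1)) (y : X) {A A' : Br X → ℝ} {c : ℝ}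
    (h : ∀ b, D.tb p b y ≠ 0 → A' b = A b + c) :
    ∑ b, D.tb p b y * A' b = ∑ b, D.tb p b y * A b + c := by
  have : ∑ b, D.tb p b y * A' b = ∑ b, (D.tb p b y * A b + D.tb p b y * c) := by
    refine sum_congr rfl fun b _ => ?_
    by_cases hb : D.tb p b y = 0
    · simp [hb]
    · rw [h b hb]; ring
  rw [this, sum_add_distrib, ← sum_mul, sum_tb, one_mul]

variable (hr : 0 < p.r0) (hG : 1 ≤ p.G)
include hr hG

omit hG in
theorem half_avg_le {D : Dom X (n + 1)} (hD : D.Valid p) (y : X) {A A' : Br X → ℝ} {c : ℝ}
    (h : ∀ b, 0 < D.tb p b y → A' b ≤ A b + c) :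
    ∑ b, D.tb p b y * A' b ≤ ∑ b, D.tb p b y * A b + c := by
  have : ∑ b, D.tb p b y * A' b ≤ ∑ b, (D.tb p b y * A b + D.tb p b y * c) := by
    refine sum_le_sum fun b _ => ?_
    rcases (hD.tb_nonneg hr b y).eq_or_lt with hb | hb
    · simp [← hb]
    · rw [← mul_add]
      exact mul_le_mul_of_nonneg_left (h b hb) hb.le
  rw [sum_add_distrib, ← sum_mul, sum_tb, one_mul] at this
  exact this

theorem half_tok_half {ν : X → ℝ} (h : ∀ z, 0 < ν z) (y : X) :
    tok p n (fun z => ν z / 2) y = tok p n ν y + Real.log 2 := by
  have h1 := tok_smul (n := n) hr hG (ν := ν) (y := y) (fun z => (h z).le) (h y)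
    (a := 2⁻¹) (by norm_num)
  rw [Real.log_inv] at h1
  have h2 : (fun z => ν z / 2) = fun z => 2⁻¹ * ν z := by
    funext z; ring
  rw [h2, h1]; ring

theorem Valid.scale_LV (y : X) : ∀ {n : ℕ} {D : Dom X n} (_ : D.Valid p),
    D.scale.LV p y = D.LV p y + K0 * Real.log 2 * p.S n := by
  intro n
  induction n with
  | zero => intro D _; rw [half_S_zero, mul_zero, add_zero]; rfl
  | succ n ih =>
    intro D hD
    obtain ⟨h1, h2, h3, h4, h5, h6⟩ := (half_Valid_succ D).1 hD
    by_cases h : D.heir.isSome
    · rw [half_scale_some h, half_LV_succ, half_LV_succ D]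
      simp only [half_mk_heir, half_mk_w, if_pos h, half_nrm_half h1]
      have : ∑ b, (mk D.heir (fun l => D.w l / 2) D.nu D.top D.next).tb p b y *
          ((mk D.heir (fun l => D.w l / 2) D.nu D.top D.next).gau p b +
            (mk D.heir (fun l => D.w l / 2) D.nu D.top D.next).lv0 p b y +
            LV p ((mk D.heir (fun l => D.w l / 2) D.nu D.top D.next).child b) y) =
          ∑ b, D.tb p b y * (D.gau p b + D.lv0 p b y + LV p (D.child b) y) := by
        refine sum_congr rfl fun b _ => ?_
        rcases b with _ | _ | z <;> rfl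
      rw [this]; ring
    · have h0 : D.heir = none := by simpa using h
      rw [half_LV_succ, half_LV_succ D, half_scale_heir, if_neg h, if_neg h, zero_add, zero_add]
      simp only [half_scale_tb]
      refine half_avg_eq D y fun b hb => ?_
      have hb0 : b ≠ some none := by
        rintro rfl; exact hb (half_tb_heir_zero h0 y)
      rw [half_gau_none ((half_scale_heir D).trans h0) hb0, half_gau_none h0 hb0,
        half_scale_child h, ih (hD.child b), Par.S_succ]
      have : D.scale.lv0 p b y = D.lv0 p b y + K0 * p.r n * Real.log 2 := by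
        rw [half_scale_none h]
        rcases b with _ | _ | z
        · rw [half_lv1, half_lv1, half_mk_nu]
          rw [half_tok_half hr hG h2]; ring
        · exact absurd rfl hb0
        · rw [half_lv3, half_lv3, half_mk_top]
          cases hz : D.top z with
          | none => exact absurd (half_tb_top_zero hz y) hb
          | some q =>
            simp only [Option.map_some, Option.elim]
            rw [Real.log_div (h3 z q hz).1.ne' two_ne_zero]; ring
      rw [this]; ring

theorem half_LV_le (σ : X) (Q : ℝ) (y : X) : ∀ {n : ℕ} {D : Dom X n} (_ : D.Valid p)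
    (_ : D.ctr = none), (half σ Q D).LV p y ≤ D.LV p y + K0 * Real.log 2 * p.S n := by
  intro n
  induction n with
  | zero => intro D _ _; rw [half_S_zero, mul_zero, add_zero]; exact le_rfl
  | succ n ih =>
    intro D hD hc
    obtain ⟨h1, h2, h3, h4, h5, h6⟩ := (half_Valid_succ D).1 hD
    have h0 := half_heir_none hc
    have h : ¬ D.heir.isSome := by simp [h0]
    have hh : (half σ Q D).heir = D.heir := rfl
    have hK : 0 ≤ K0 := by unfold K0; norm_num
    have hl2 : 0 ≤ Real.log 2 := Real.log_nonneg one_le_two
    have hrn := Par.r_pos hr n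
    have hSn := Par.S_nonneg hr n
    rw [half_LV_succ, half_LV_succ D, hh, if_neg h, if_neg h, zero_add, zero_add]
    simp only [half_tb]
    refine half_avg_le hr hD y fun b hb => ?_
    have hb0 : b ≠ some none := by
      rintro rfl; exact hb.ne' (half_tb_heir_zero h0 y)
    rw [half_gau_none (hh.trans h0) hb0, half_gau_none h0 hb0, Par.S_succ, zero_add, zero_add,
      half_succ]
    rcases b with _ | _ | z
    · rw [half_lv1, half_lv1, half_child1, half_child1, half_mk_nu, half_mk_next]
      have t1 := tok_anti (n := n) hr hG (ν := fun z => D.nu z / 2)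
        (ν' := fun z => if dist z σ ≤ Q then D.nu z / 2 else D.nu z) (y := y)
        (fun z => (half_pos (h2 z)).le) (half_pos (h2 y)) (fun z _ => by
          split_ifs
          · exact le_rfl
          · exact half_le_self (h2 z).le)
      rw [half_tok_half hr hG h2] at t1
      have t2 := ih h5.1 h5.2
      have t3 := mul_le_mul_of_nonneg_left t1 (mul_nonneg hK hrn.le)
      linarith
    · exact absurd rfl hb0
    · rw [half_lv3, half_lv3, half_child3, half_child3, half_mk_top, half_mk_next]
      cases hz : D.top z with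
      | none => exact absurd (half_tb_top_zero hz y) hb.ne'
      | some q =>
        split_ifs
        · simp only [Option.map_some, Option.elim]
          rw [Real.log_div (h3 z q hz).1.ne' two_ne_zero, (h3 z q hz).2.scale_LV hr hG y]
          apply le_of_eq; ring
        · simp only [Option.elim]
          have : 0 ≤ K0 * Real.log 2 * (p.S n + p.r n) := by positivity
          linarith

theorem half_LV_far (σ : X) (Q : ℝ) (y : X) : ∀ {n : ℕ} {D : Dom X n} (_ : D.Valid p)
    (_ : D.ctr = none) (_ : Q + p.S n < dist y σ),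
    (half σ Q D).LV p y + dlt p D (half σ Q D) y 0 ≤ D.LV p y := by
  intro n
  induction n with
  | zero =>
    intro D _ _ _
    have : half σ Q D = D := rfl
    rw [this, dlt_self hr hG D y le_rfl, add_zero]
  | succ n ih =>
    intro D hD hc hy
    obtain ⟨h1, h2, h3, h4, h5, h6⟩ := (half_Valid_succ D).1 hD
    have h0 := half_heir_none hc
    have h : ¬ D.heir.isSome := by simp [h0]
    have hh : (half σ Q D).heir = D.heir := rfl
    have hrn := Par.r_pos hr n
    have hSn := Par.S_nonneg hr n
    rw [Par.S_succ] at hy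
    have hfar : ∀ z, dist y z ≤ p.r n → ¬ dist z σ ≤ Q := by
      intro z hz hz'
      have := dist_triangle y z σ
      linarith
    have hnu : ∀ z, dist y z ≤ p.r n → D.nu z = (half σ Q D).nu z := by
      intro z hz
      rw [half_succ, half_mk_nu]
      exact (if_neg (hfar z hz)).symm
    have hrec := dlt_rec hr hG hD (hD.half_valid σ Q) y le_rfl
    have emin : ∀ b, min (D.tb p b y) ((half σ Q D).tb p b y) = D.tb p b y := fun b => by
      rw [half_tb, min_self]
    rw [dwin_congr hr hG (fun z => (h2 z).le) (h2 y) hnu, zero_mul, mul_zero, add_zero,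
      sum_congr rfl (fun b _ => emin b), sum_tb, sub_self, zero_mul, add_zero,
      sum_congr rfl (fun b _ => by rw [emin b])] at hrec
    rw [half_LV_succ, half_LV_succ D, hh, if_neg h, if_neg h, zero_add, zero_add]
    simp only [half_tb]
    have key := half_avg_le hr hD y (c := 0)
      (A := fun b => D.gau p b + D.lv0 p b y + LV p (D.child b) y)
      (A' := fun b => ((half σ Q D).gau p b + (half σ Q D).lv0 p b y +
        LV p ((half σ Q D).child b) y) +
        dlt p (D.child b) ((half σ Q D).child b) y (max 0 (bdist D (half σ Q D) b))) (by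
      intro b hb
      have hb0 : b ≠ some none := by
        rintro rfl; exact hb.ne' (half_tb_heir_zero h0 y)
      rw [half_gau_none (hh.trans h0) hb0, half_gau_none h0 hb0, zero_add, zero_add, add_zero]
      rcases b with _ | _ | z
      · rw [half_lv1, half_lv1, half_bd1, max_self]
        rw [← tok_congr hr hG hnu]
        have t := ih h5.1 h5.2 (by linarith)
        have e1 : (half σ Q D).child none = half σ Q D.next := rfl
        have e2 : D.child none = D.next := rfl
        rw [e1, e2]
        linarith
      · exact absurd rfl hb0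
      · have hz := dist_lt_of_top hr hb
        have hz' := hfar z (by linarith)
        have et : (half σ Q D).top z = D.top z := by
          rw [half_succ, half_mk_top]
          exact if_neg hz'
        rw [half_lv3, half_lv3, half_bd3, max_self, half_child3, half_child3, et]
        cases hq : D.top z with
        | none => exact absurd (half_tb_top_zero hq y) hb.ne'
        | some q =>
          simp only [Option.elim]
          rw [dlt_self hr hG _ y le_rfl, add_zero])
    rw [sum_congr rfl (fun b _ => mul_add _ _ _), sum_add_distrib, add_zero] at key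
    linarith

theorem Valid.half_LV (σ : X) (Q : ℝ) (y : X) : ∀ {n : ℕ} {D : Dom X n} (_ : D.Valid p)
    (_ : D.ctr = none),
    (half σ Q D).LV p y + dlt p D (half σ Q D) y 0 ≤
      D.LV p y + if dist y σ ≤ Q + p.S n then 10 * p.S n else 0 := by
  intro n D hD hc
  split_ifs with hy
  · have h1 := half_LV_le hr hG σ Q y hD hc
    have h2 := dlt_crude hr hG hD (hD.half_valid σ Q) y le_rfl
    have hSn := Par.S_nonneg hr n
    have h3 : K0 * Real.log 2 ≤ 6 := by
      unfold K0
      have := Real.log_two_lt_d9
      linarith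
    have h4 := mul_le_mul_of_nonneg_right h3 hSn
    linarith
  · rw [add_zero]
    exact half_LV_far hr hG σ Q y hD hc (not_le.1 hy)

theorem half_loc_step (σ : X) (Q : ℝ) {D : Dom X (n + 1)} (hD : D.Valid p)
    (hc : D.ctr = none) {x : X} (hx : dist x σ + p.r n ≤ Q)
    (ih : -p.nrm n (Loc σ Q D.next) ≤ D.next.LV p x) {b : Br X} (hb : 0 < D.tb p b x) :
    -p.nrm (n + 1) (Loc σ Q D) ≤ D.lv0 p b x + (D.child b).LV p x := by
  obtain ⟨h1, h2, h3, h4, h5, h6⟩ := (half_Valid_succ D).1 hD
  have h0 := half_heir_none hc
  have hrn := Par.r_pos hr n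
  have hK : 0 ≤ K0 := by unfold K0; norm_num
  have hQ : 0 ≤ Q := by have := dist_nonneg (x := x) (y := σ); linarith
  have hp : ∀ z, 0 ≤ (if dist z σ ≤ Q then D.nu z + (D.top z).elim 0 Prod.fst else 0) := by
    intro z
    split_ifs
    · exact add_nonneg (h2 z).le (half_top_fst_nonneg hD z)
    · exact le_rfl
  have hp' : ∀ z l, 0 ≤ (if dist z σ ≤ Q then (D.top z).elim 0 fun q => Wt q.2 l else 0) := by
    intro z l
    split_ifs
    · exact half_top_Wt_nonneg hD z l
    · exact le_rfl
  rw [Par.nrm_succ]
  rcases b with _ | _ | z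
  · rw [half_lv1, half_child1]
    have t1 : -Real.log (Loc σ Q D n) ≤ tok p n D.nu x := by
      refine neg_log_le_tok hr hG (fun z => (h2 z).le) (h2 x) ?_
      rw [half_Loc_succ, if_pos rfl]
      refine sum_le_sum fun z _ => ?_
      unfold ballF
      split_ifs with a1 a2
      · exact le_add_of_nonneg_right (half_top_fst_nonneg hD z)
      · exfalso
        have := dist_triangle z x σ
        rw [dist_comm z x] at this
        exact a2 (by linarith)
      · exact add_nonneg (h2 z).le (half_top_fst_nonneg hD z)
      · exact le_rfl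
    have t2 : p.nrm n (Loc σ Q D.next) ≤ p.nrm n (Loc σ Q D) := by
      refine Par.nrm_mono hr (fun l _ => (h5.1.Loc_bounds σ hQ h5.2 l).1) fun l hl => ?_
      rw [half_Loc_succ σ Q D, if_neg hl.ne]
      exact le_add_of_nonneg_right (sum_nonneg fun z _ => hp' z l)
    have t3 := mul_le_mul_of_nonneg_left t1 (mul_nonneg hK hrn.le)
    linarith
  · exact absurd (half_tb_heir_zero h0 x) hb.ne'
  · have hz := dist_lt_of_top hr hb
    have hzQ : dist z σ ≤ Q := by
      have := dist_triangle z x σ
      rw [dist_comm z x] at this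
      linarith
    rw [half_lv3, half_child3]
    cases hq : D.top z with
    | none => exact absurd (half_tb_top_zero hq x) hb.ne'
    | some q =>
      simp only [Option.elim]
      have t1 : Real.log q.1 ≤ Real.log (Loc σ Q D n) := by
        refine Real.log_le_log (h3 z q hq).1 ?_
        rw [half_Loc_succ, if_pos rfl]
        refine le_trans ?_ (single_le_sum (fun z _ => hp z) (mem_univ z))
        rw [if_pos hzQ, hq]
        exact le_add_of_nonneg_left (h2 z).le
      have t2 : p.nrm n q.2.Wt ≤ p.nrm n (Loc σ Q D) := by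
        refine Par.nrm_mono hr (fun l _ => (h3 z q hq).2.Wt_pos l) fun l hl => ?_
        rw [half_Loc_succ σ Q D, if_neg hl.ne]
        refine le_trans ?_ (le_add_of_nonneg_left (h5.1.Loc_bounds σ hQ h5.2 l).1.le)
        refine le_trans ?_ (single_le_sum (fun z _ => hp' z l) (mem_univ z))
        rw [if_pos hzQ, hq]
        exact le_rfl
      have t3 := mul_le_mul_of_nonneg_left t1 (mul_nonneg hK hrn.le)
      have t4 := (h3 z q hq).2.nrm_add_LV_nonneg hr hG x
      linarith

theorem half_loc_LV (σ : X) (Q : ℝ) (x : X) : ∀ {n : ℕ} {D : Dom X n} (_ : D.Valid p)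
    (_ : D.ctr = none) (_ : ∀ l, l < n → dist x σ + p.r l ≤ Q),
    -p.nrm n (Loc σ Q D) ≤ D.LV p x := by
  intro n
  induction n with
  | zero =>
    intro D _ _ _
    have : D.LV p x = 0 := rfl
    rw [this, half_nrm_zero, neg_zero]
  | succ n ih =>
    intro D hD hc hx
    obtain ⟨h1, h2, h3, h4, h5, h6⟩ := (half_Valid_succ D).1 hD
    have h0 := half_heir_none hc
    have h : ¬ D.heir.isSome := by simp [h0]
    have i1 := ih h5.1 h5.2 fun l hl => hx l (by omega)
    rw [half_LV_succ, if_neg h, zero_add]
    have key := half_avg_le hr hD x (c := 0)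
      (A := fun b => D.gau p b + D.lv0 p b x + LV p (D.child b) x)
      (A' := fun _ => -p.nrm (n + 1) (Loc σ Q D)) (by
      intro b hb
      have hb0 : b ≠ some none := by
        rintro rfl; exact hb.ne' (half_tb_heir_zero h0 x)
      rw [half_gau_none h0 hb0, zero_add, add_zero]
      exact half_loc_step hr hG σ Q hD hc (hx n (by omega)) i1 hb)
    rw [← sum_mul, sum_tb, one_mul, add_zero] at key
    exact key

omit hG in
theorem half_r_mono {l m : ℕ} (h : l ≤ m) : p.r l ≤ p.r m := by
  induction m, h using Nat.le_induction with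
  | base => exact le_rfl
  | succ m _ ih =>
    have := Par.r_pos hr m
    rw [Par.r_succ]; linarith

/-- lower bound for the loss of a shell branch by the local weights -/
theorem Valid.loc_lower (σ : X) (Q : ℝ) : ∀ {n : ℕ} {D : Dom X (n + 1)} (_ : D.Valid p)
    (_ : D.ctr = none) {x : X} (_ : dist x σ + p.r n ≤ Q) {b : Br X} (_ : 0 < D.tb p b x),
    -p.nrm (n + 1) (Loc σ Q D) ≤ D.lv0 p b x + (D.child b).LV p x := by
  intro n D hD hc x hx b hb
  obtain ⟨h1, h2, h3, h4, h5, h6⟩ := (half_Valid_succ D).1 hD
  refine half_loc_step hr hG σ Q hD hc hx ?_ hb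
  refine half_loc_LV hr hG σ Q x h5.1 h5.2 fun l hl => ?_
  have := half_r_mono hr hl.le
  linarith

end Dom

end Crest.Agent.R314
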