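import Crest.Agent.R314.ValA
import Crest.Agent.R314.Rec

/-! Module C: inheritance of approximate equilibria. -/

set_option autoImplicit false
set_option linter.unusedSectionVars false
set_option linter.unusedVariables false

namespace Crest.Agent.R314

open Finset 

variable {X : Type} [MetricSpace X] [Fintype X] [DecidableEq X] [Nonempty X] {p : Par} {n : ℕ}
  {t : Tol} {σ : X} {c : Ctx X} {m : X → ℝ}

namespace Dom

section Aux

theorem Inh_isSome {D D' : Dom X (n + 1)} (h : D'.ctr = D.ctr) :
    D'.heir.isSome = D.heir.isSome := by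
  have h1 : (D'.heir.map Prod.fst).isSome = (D.heir.map Prod.fst).isSome := congrArg _ h
  rwa [Option.isSome_map, Option.isSome_map] at h1

theorem Inh_hc {D D' : Dom X (n + 1)} (h : D'.ctr = D.ctr) (y : X) : D'.hc p y = D.hc p y := by
  have h1 : ∀ D : Dom X (n + 1), D.hc p y = D.ctr.elim 0 fun c => cap p n c y := fun D => by
    show D.heir.elim 0 _ = (D.heir.map Prod.fst).elim 0 _
    cases D.heir <;> rfl
  rw [h1, h1, h]

theorem Inh_tb {D D' : Dom X (n + 1)} (h : D'.ctr = D.ctr)
    (h' : ∀ z, (D'.top z).isSome = (D.top z).isSome) (b : Br X) (y : X) :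
    D'.tb p b y = D.tb p b y := by
  have h1 : ∀ (D : Dom X (n + 1)) z, D.tc p z y = if (D.top z).isSome then cap p n z y else 0 :=
    fun D z => by
      show (D.top z).elim 0 _ = _
      cases D.top z <;> rfl
  have h2 : ∀ z, D'.tc p z y = D.tc p z y := fun z => by rw [h1, h1, h']
  rcases b with _ | _ | z
  · show 1 - D'.hc p y - ∑ z, D'.tc p z y = 1 - D.hc p y - ∑ z, D.tc p z y
    rw [Inh_hc h, sum_congr rfl fun z _ => h2 z]
  · exact Inh_hc h y
  · exact h2 z

theorem Inh_lnkO {D D' : Dom X n} (h : D'.ctr = D.ctr) (par : Option X) :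
    lnkO par D' = lnkO par D :=
  congrArg (fun o : Option X => par.elim 0 fun c => o.elim 0 fun c' => dist c c') h

theorem Inh_Hterm {D D' : Dom X (n + 1)} (h : D'.ctr = D.ctr) (par : Option X) (y : X) :
    Hterm p par D' y = Hterm p par D y := by
  rcases par with _ | c
  · rfl
  · show lnkO (some c) D' * (_ + C2 * (1 - D'.hc p y)) = lnkO (some c) D * (_ + C2 * (1 - D.hc p y))
    rw [Inh_lnkO h, Inh_hc h]

theorem Inh_tb_zero {D : Dom X (n + 1)} {b : Br X} (hb : ¬ D.pres b) (y : X) : D.tb p b y = 0 := by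
  rcases b with _ | _ | z
  · exact (hb trivial).elim
  · show D.heir.elim 0 _ = 0
    rw [Option.not_isSome_iff_eq_none.1 hb]
    rfl
  · show (D.top z).elim 0 _ = 0
    rw [Option.not_isSome_iff_eq_none.1 hb]
    rfl

theorem Inh_sum (D : Dom X (n + 1)) (y : X) (b : Br X) (f g : Br X → ℝ) (K : ℝ)
    (h : ∀ b', b' ≠ b → D.pres b' → f b' = g b' + K) :
    ∑ b', D.tb p b' y * f b' =
      ∑ b', D.tb p b' y * g b' + D.tb p b y * (f b - g b) + (1 - D.tb p b y) * K := by
  have h1 : ∑ b', (D.tb p b' y * f b' - D.tb p b' y * g b' - D.tb p b' y * K) =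
      D.tb p b y * f b - D.tb p b y * g b - D.tb p b y * K :=
    sum_eq_single b (fun b' _ hb => by
      by_cases h2 : D.pres b'
      · rw [h b' hb h2]
        ring
      · rw [Inh_tb_zero h2]
        ring) fun h => (h (mem_univ _)).elim
  rw [sum_sub_distrib, sum_sub_distrib, ← sum_mul, sum_tb] at h1
  linarith

/-- the value of a branch without the normaliser -/
noncomputable def InhT (p : Par) (D : Dom X (n + 1)) (b : Br X) (y : X) : ℝ :=
  D.lv0 p b y + (D.child b).LV p y + D.pv p b y + (D.child b).PV p y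

/-- the part of the objective that only depends on the heir mark and the outer weights -/
noncomputable def InhR (p : Par) (c : Ctx X) (m : X → ℝ) (D : Dom X (n + 1)) : ℝ :=
  ∑ y, m y * ((if D.heir.isSome then -p.nrm (n + 1) D.w else 0) + Hterm p c.par D y) +
    if D.heir.isSome then c.mG * p.nrm (n + 1) (fun l => c.Wr l + D.w l) else 0

theorem Inh_R {D D' : Dom X (n + 1)} (h : D'.ctr = D.ctr) (hw : D'.w = D.w) :
    InhR p c m D' = InhR p c m D := by
  rw [InhR, InhR, Inh_isSome h, hw, sum_congr rfl fun y _ => by rw [Inh_Hterm h]]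

theorem Inh_gM {D D' : Dom X (n + 1)} (h : D'.ctr = D.ctr) : gM p c m D' = gM p c m D := by
  show (if D'.heir.isSome then ∑ y, m y * (1 - D'.hc p y) else c.mG) =
    if D.heir.isSome then ∑ y, m y * (1 - D.hc p y) else c.mG
  rw [Inh_isSome h, sum_congr rfl fun y _ => by rw [Inh_hc h]]

theorem Inh_obj (D : Dom X (n + 1)) : obj p t c m D =
    ∑ y, m y * ∑ b, D.tb p b y * InhT p D b y +
      (∑ y, m y * D.hc p y) * p.nrm n (Wt (D.child (some none))) +
      gM p c m D * p.nrm (n + 1) (gW c D) + InhR p c m D +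
      c.P * (C3 * (lnkO c.par D + D.len)) + t.κ * (D.Links + lnkO c.par D / 2 ^ (n + 1)) := by
  have h1 : ∀ y, D.Val p c.par y = ∑ b, D.tb p b y * InhT p D b y +
      D.hc p y * p.nrm n (Wt (D.child (some none))) +
      (1 - D.hc p y) * (if D.heir.isSome then p.nrm (n + 1) D.Wsh else 0) +
      ((if D.heir.isSome then -p.nrm (n + 1) D.w else 0) + Hterm p c.par D y) := fun y => by
    have h2 := Inh_sum (p := p) D y (some none) (D.gau p) (fun _ => 0)
      (if D.heir.isSome then p.nrm (n + 1) D.Wsh else 0) fun b hb _ => by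
        rcases b with _ | _ | z
        · exact (zero_add _).symm
        · exact (hb rfl).elim
        · exact (zero_add _).symm
    have h3 : ∑ b, D.tb p b y * (D.gau p b + D.lv0 p b y + LV p (D.child b) y) +
        ∑ b, D.tb p b y * (D.pv p b y + PV p (D.child b) y) =
        ∑ b, D.tb p b y * InhT p D b y + ∑ b, D.tb p b y * D.gau p b := by
      rw [← sum_add_distrib, ← sum_add_distrib]
      exact sum_congr rfl fun b _ => by rw [InhT]; ring
    rw [sum_congr rfl fun b _ => mul_zero (D.tb p b y), sum_const_zero, zero_add, sub_zero] at h2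
    have h4 : D.Val p c.par y = (if D.heir.isSome then -p.nrm (n + 1) D.w else 0) +
      ∑ b, D.tb p b y * (D.gau p b + D.lv0 p b y + LV p (D.child b) y) +
      ∑ b, D.tb p b y * (D.pv p b y + PV p (D.child b) y) + Hterm p c.par D y := rfl
    have h5 : D.tb p (some none) y * D.gau p (some none) =
      D.hc p y * p.nrm n (Wt (D.child (some none))) := rfl
    have h6 : D.tb p (some none) y = D.hc p y := rfl
    rw [h5, h6] at h2
    linarith
  have h2 : (∑ y, m y * (1 - D.hc p y)) * (if D.heir.isSome then p.nrm (n + 1) D.Wsh else 0) +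
      c.mG * p.nrm (n + 1) (fun l => c.Wr l + D.Wt l) = gM p c m D * p.nrm (n + 1) (gW c D) +
      if D.heir.isSome then c.mG * p.nrm (n + 1) (fun l => c.Wr l + D.w l) else 0 := by
    show _ + c.mG * p.nrm (n + 1) (fun l => c.Wr l + if D.heir.isSome then D.w l else D.Wsh l) =
      (if D.heir.isSome then ∑ y, m y * (1 - D.hc p y) else c.mG) *
        p.nrm (n + 1) (fun l => (if D.heir.isSome then 0 else c.Wr l) + D.Wsh l) + _
    cases D.heir.isSome
    · simp only [Bool.false_eq_true, if_false, mul_zero, zero_add, add_zero]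
    · simp only [if_true, zero_add]
  have h3 : ∑ y, m y * D.Val p c.par y = ∑ y, m y * ∑ b, D.tb p b y * InhT p D b y +
      (∑ y, m y * D.hc p y) * p.nrm n (Wt (D.child (some none))) +
      (∑ y, m y * (1 - D.hc p y)) * (if D.heir.isSome then p.nrm (n + 1) D.Wsh else 0) +
      ∑ y, m y * ((if D.heir.isSome then -p.nrm (n + 1) D.w else 0) + Hterm p c.par D y) := by
    rw [sum_mul, sum_mul, ← sum_add_distrib, ← sum_add_distrib, ← sum_add_distrib]
    exact sum_congr rfl fun y _ => by rw [h1]; ring
  have h4 : obj p t c m D = ∑ y, m y * D.Val p c.par y +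
    c.mG * p.nrm (n + 1) (fun l => c.Wr l + D.Wt l) +
    c.P * (C3 * (lnkO c.par D + D.len)) + t.κ * (D.Links + lnkO c.par D / 2 ^ (n + 1)) := rfl
  rw [h4, h3, InhR]
  linarith

variable (D : Dom X (n + 1)) (b : Br X) (E : Dom X n)

theorem Inh_w : (D.setChild b E).w = D.w := by rcases b with _ | _ | z <;> rfl

theorem Inh_nu : (D.setChild b E).nu = D.nu := by rcases b with _ | _ | z <;> rfl

theorem Inh_ctr : (D.setChild b E).ctr = D.ctr := by
  rcases b with _ | _ | z
  · rfl
  · show (D.heir.map fun q => (q.1, E)).map Prod.fst = D.heir.map Prod.fst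
    cases D.heir <;> rfl
  · rfl

theorem Inh_top (z : X) : ((D.setChild b E).top z).map Prod.fst = (D.top z).map Prod.fst := by
  rcases b with _ | _ | z'
  · rfl
  · rfl
  · show (Function.update D.top z' ((D.top z').map fun q => (q.1, E)) z).map Prod.fst = _
    by_cases h : z = z'
    · subst h
      rw [Function.update_self]
      cases D.top z <;> rfl
    · rw [Function.update_of_ne h]

theorem Inh_top_isSome (z : X) : ((D.setChild b E).top z).isSome = (D.top z).isSome := by
  have h := congrArg Option.isSome (Inh_top D b E z)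
  rwa [Option.isSome_map, Option.isSome_map] at h

theorem Inh_top_elim (z : X) (a : ℝ) :
    ((D.setChild b E).top z).elim a Prod.fst = (D.top z).elim a Prod.fst := by
  have h := congrArg (fun o : Option ℝ => o.elim a id) (Inh_top D b E z)
  simp only [Option.elim_map] at h
  exact h

theorem Inh_tb' (b' : Br X) (y : X) : (D.setChild b E).tb p b' y = D.tb p b' y :=
  Inh_tb (Inh_ctr D b E) (Inh_top_isSome D b E) b' y

theorem Inh_lv0 (b' : Br X) (y : X) : (D.setChild b E).lv0 p b' y = D.lv0 p b' y := by
  rcases b' with _ | _ | z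
  · show K0 * p.r n * tok p n (D.setChild b E).nu y = _
    rw [Inh_nu]
    rfl
  · rfl
  · show -(K0 * p.r n * Real.log (((D.setChild b E).top z).elim 1 Prod.fst)) = _
    rw [Inh_top_elim]
    rfl

variable {D b}

theorem Inh_child (hb : D.pres b) : (D.setChild b E).child b = E := by
  rcases b with _ | _ | z
  · rfl
  · obtain ⟨q, hq⟩ := Option.isSome_iff_exists.1 hb
    show (D.heir.map fun q => (q.1, E)).elim D.next Prod.snd = E
    rw [hq]
    rfl
  · obtain ⟨q, hq⟩ := Option.isSome_iff_exists.1 hb
    show (Function.update D.top z ((D.top z).map fun q => (q.1, E)) z).elim D.next Prod.snd = E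
    rw [Function.update_self, hq]
    rfl

theorem Inh_child_ne {b' : Br X} (h : b' ≠ b) (hb : D.pres b') :
    (D.setChild b E).child b' = D.child b' := by
  rcases b' with _ | _ | z'
  · rcases b with _ | _ | z
    exacts [(h rfl).elim, rfl, rfl]
  · obtain ⟨q, hq⟩ := Option.isSome_iff_exists.1 hb
    rcases b with _ | _ | z
    · show D.heir.elim E Prod.snd = D.heir.elim D.next Prod.snd
      rw [hq]
      rfl
    · exact (h rfl).elim
    · rfl
  · obtain ⟨q, hq⟩ := Option.isSome_iff_exists.1 hb
    rcases b with _ | _ | z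
    · show (D.top z').elim E Prod.snd = (D.top z').elim D.next Prod.snd
      rw [hq]
      rfl
    · rfl
    · show (Function.update D.top z _ z').elim D.next Prod.snd = _
      rw [Function.update_of_ne fun h' => h (by rw [h'])]
      rfl

theorem Inh_heir (hb : b ≠ some none) : (D.setChild b E).heir = D.heir := by
  rcases b with _ | _ | z
  exacts [rfl, (hb rfl).elim, rfl]

theorem Inh_shell (hb : b ≠ some none) (hp : D.pres b) (W : Dom X n → ℝ) :
    W (D.setChild b E).next + ∑ z, (((D.setChild b E).top z).elim 0 fun q => W q.2) =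
      W D.next + ∑ z, ((D.top z).elim 0 fun q => W q.2) - W (D.child b) + W E := by
  rcases b with _ | _ | z
  · show W E + ∑ z, ((D.top z).elim 0 fun q => W q.2) = _ - W D.next + _
    ring
  · exact (hb rfl).elim
  · obtain ⟨q, hq⟩ := Option.isSome_iff_exists.1 hp
    show W D.next + ∑ z', ((Function.update D.top z ((D.top z).map fun q => (q.1, E)) z').elim 0
      fun q => W q.2) = _ - W ((D.top z).elim D.next Prod.snd) + _
    rw [← add_sum_erase _ _ (mem_univ z), ← add_sum_erase _ _ (mem_univ z), Function.update_self,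
      sum_congr rfl fun z' hz' => by rw [Function.update_of_ne (ne_of_mem_erase hz')], hq]
    show _ + (W E + _) = _ + (W q.2 + _) - W q.2 + _
    ring

theorem Inh_Wsh_n : (D.setChild b E).Wsh n = D.Wsh n := by
  show (if n = n then ∑ z, (D.setChild b E).nu z +
    ∑ z, ((D.setChild b E).top z).elim 0 Prod.fst else _) =
    if n = n then ∑ z, D.nu z + ∑ z, (D.top z).elim 0 Prod.fst else _
  rw [if_pos rfl, if_pos rfl, Inh_nu, sum_congr rfl fun z _ => Inh_top_elim D b E z 0]

theorem Inh_Wsh (hb : b ≠ some none) (hp : D.pres b) {l : ℕ} (hl : l ≠ n) :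
    (D.setChild b E).Wsh l = D.Wsh l - (D.child b).Wt l + E.Wt l := by
  show (if l = n then _ else Wt (D.setChild b E).next l +
    ∑ z, (((D.setChild b E).top z).elim 0 fun q => Wt q.2 l)) =
    (if l = n then _ else Wt D.next l + ∑ z, ((D.top z).elim 0 fun q => Wt q.2 l)) - _ + _
  rw [if_neg hl, if_neg hl]
  exact Inh_shell E hb hp fun F => Wt F l

theorem Inh_cctx (hb : b ≠ some none) : cctx p c m D b =
    ⟨b ≠ none, none, 0, gM p c m D, fun l => gW c D l - (D.child b).Wt l⟩ := by
  rcases b with _ | _ | z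
  · rw [eq_false (ne_self_iff_false _).1]
    rfl
  · exact (hb rfl).elim
  · rw [eq_true (Option.some_ne_none _)]
    rfl

theorem Inh_pv (D : Dom X (n + 1)) (hb : b ≠ some none) (y : X) :
    D.pv p b y = Gam * p.r n + C3 * D.len := by
  rcases b with _ | _ | z
  exacts [rfl, (hb rfl).elim, rfl]

theorem Inh_bdist (D D' : Dom X (n + 1)) (hb : b ≠ some none) : bdist D D' b = 0 := by
  rcases b with _ | _ | z
  exacts [rfl, (hb rfl).elim, rfl]

end Aux

theorem setChild_valid {D : Dom X (n + 1)} (h : VC p c D) {b : Br X} (hb : D.pres b) {E : Dom X n}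
    (hE : VC p (cctx p c m D b) E) : VC p c (D.setChild b E) := by
  refine ⟨?_, by rw [Inh_ctr]; exact h.2.1, by rw [Inh_lnkO (Inh_ctr D b E)]; exact h.2.2⟩
  obtain ⟨h1, h2, h3, h4, h5, h6⟩ := h.1
  rcases b with _ | _ | z
  · exact ⟨h1, h2, h3, h4, ⟨hE.1, hE.2.1.resolve_left id⟩, h6⟩
  · refine ⟨h1, h2, h3, h4, h5, fun q hq => ?_⟩
    obtain ⟨q', hq', rfl⟩ := Option.map_eq_some_iff.1 hq
    refine ⟨hE.1, ?_, (h6 q' hq').2.2⟩
    have h7 : lnkO (D.heir.map Prod.fst) E ≤ p.r n / 16 := hE.2.2
    rwa [show D.heir = some q' from hq'] at h7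
  · refine ⟨h1, h2, fun z' q hq => ?_, fun z₁ z₂ a1 a2 => h4 z₁ z₂
      (by rwa [Inh_top_isSome] at a1) (by rwa [Inh_top_isSome] at a2), h5, fun q hq =>
      ⟨(h6 q hq).1, (h6 q hq).2.1, fun z' a => (h6 q hq).2.2 z' (by rwa [Inh_top_isSome] at a)⟩⟩
    replace hq : Function.update D.top z ((D.top z).map fun q => (q.1, E)) z' = some q := hq
    by_cases hz : z' = z
    · subst hz
      rw [Function.update_self] at hq
      obtain ⟨q', hq', rfl⟩ := Option.map_eq_some_iff.1 hq
      exact ⟨(h3 _ q' hq').1, hE.1⟩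
    · rw [Function.update_of_ne hz] at hq
      exact h3 _ q hq

theorem child_vc (hr : 0 < p.r0) {D : Dom X (n + 1)} (h : VC p c D) (b : Br X) (hb : D.pres b) :
    VC p (cctx p c m D b) (D.child b) := by
  refine ⟨h.1.child b, ?_⟩
  have h0 : (0 : ℝ) ≤ p.r n / 16 := div_nonneg (Par.r_pos hr n).le (by norm_num)
  obtain ⟨h1, h2, h3, h4, h5, h6⟩ := h.1
  rcases b with _ | _ | z
  · exact ⟨.inr h5.2, h0⟩
  · obtain ⟨q, hq⟩ := Option.isSome_iff_exists.1 hb
    refine ⟨.inl trivial, ?_⟩
    show lnkO (D.heir.map Prod.fst) (D.heir.elim D.next Prod.snd) ≤ _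
    rw [hq]
    exact (h6 q hq).2.1
  · exact ⟨.inl trivial, h0⟩

theorem obj_setChild (hr : 0 < p.r0) (hG : 1 ≤ p.G) {D : Dom X (n + 1)} {b : Br X} (hb : D.pres b)
    (E : Dom X n) :
    obj p t c m (D.setChild b E) - obj p t c m D =
      obj p t (cctx p c m D b) (mb p m D b) E -
        obj p t (cctx p c m D b) (mb p m D b) (D.child b) := by
  have hc := Inh_ctr D b E
  rw [Inh_obj, Inh_obj D, Inh_R hc (Inh_w D b E), Inh_gM hc, Inh_lnkO hc]
  by_cases hb' : b = some none
  · subst hb'
    obtain ⟨q, hq⟩ := Option.isSome_iff_exists.1 hb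
    have e0 : D.ctr = some q.1 := congrArg (Option.map Prod.fst) hq
    have e1 : D.child (some none) = q.2 :=
      congrArg (fun o : Option (X × Dom X n) => o.elim D.next Prod.snd) hq
    have e2 : D.len = lnk q.1 q.2 + q.2.len :=
      congrArg (fun o : Option (X × Dom X n) => o.elim 0 fun q => lnk q.1 q.2 + len q.2) hq
    have e3 : (D.setChild (some none) E).len = lnk q.1 E + E.len :=
      congrArg (fun o : Option (X × Dom X n) =>
        (o.map fun q => (q.1, E)).elim 0 fun q => lnk q.1 q.2 + len q.2) hq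
    have e4 : (D.setChild (some none) E).Links = D.Links - (lnk q.1 q.2 / 2 ^ n + q.2.Links) +
        (lnk q.1 E / 2 ^ n + E.Links) := by
      show (D.heir.map fun q => (q.1, E)).elim 0 (fun q => lnk q.1 q.2 / 2 ^ n + Links q.2) +
        Links D.next + ∑ z, ((D.top z).elim 0 fun q => Links q.2) =
        D.heir.elim 0 (fun q => lnk q.1 q.2 / 2 ^ n + Links q.2) + Links D.next +
          ∑ z, ((D.top z).elim 0 fun q => Links q.2) - _ + _
      rw [hq]
      show lnk q.1 E / 2 ^ n + E.Links + _ + _ = lnk q.1 q.2 / 2 ^ n + q.2.Links + _ + _ - _ + _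
      ring
    have e5 : gW c (D.setChild (some none) E) = gW c D := by
      funext l
      show (if (D.setChild (some none) E).heir.isSome then 0 else c.Wr l) + D.Wsh l = _
      rw [Inh_isSome hc]
      rfl
    have e6 : ∀ F : Dom X n, obj p t (cctx p c m D (some none)) (mb p m D (some none)) F =
        ∑ y, m y * D.hc p y * (F.LV p y + F.PV p y + Hterm p (some q.1) F y) +
          (∑ y, m y * D.hc p y) * p.nrm n F.Wt +
          (c.P + ∑ y, m y * (1 - D.hc p y)) * (C3 * (lnk q.1 F + F.len)) +
          t.κ * (F.Links + lnk q.1 F / 2 ^ n) := fun F => by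
      show ∑ y, m y * D.hc p y * (F.LV p y + F.PV p y + Hterm p D.ctr F y) +
          (∑ y, m y * D.hc p y) * p.nrm n (fun l => 0 + F.Wt l) +
          (c.P + ∑ y, m y * (1 - D.hc p y)) * (C3 * (lnkO D.ctr F + F.len)) +
          t.κ * (F.Links + lnkO D.ctr F / 2 ^ n) = _
      rw [e0, Par.nrm_congr p fun l _ => zero_add (F.Wt l)]
      rfl
    have e7 : ∑ y, m y * ∑ b, (D.setChild (some none) E).tb p b y *
        InhT p (D.setChild (some none) E) b y = ∑ y, m y * ∑ b, D.tb p b y * InhT p D b y +
        ∑ y, m y * D.hc p y * (E.LV p y + E.PV p y + Hterm p (some q.1) E y) -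
        ∑ y, m y * D.hc p y * (q.2.LV p y + q.2.PV p y + Hterm p (some q.1) q.2 y) +
        (∑ y, m y * (1 - D.hc p y)) * (C3 * (lnk q.1 E + E.len - (lnk q.1 q.2 + q.2.len))) := by
      rw [sum_mul, ← sum_add_distrib, ← sum_sub_distrib, ← sum_add_distrib]
      refine sum_congr rfl fun y _ => ?_
      rw [sum_congr rfl fun b _ => by rw [Inh_tb'], Inh_sum D y (some none) _
        (fun b => InhT p D b y) (C3 * (lnk q.1 E + E.len - (lnk q.1 q.2 + q.2.len)))
        fun b' a1 a2 => by
          rw [InhT, InhT, Inh_lv0, Inh_child_ne E a1 a2, Inh_pv _ a1, Inh_pv _ a1, e2, e3]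
          ring]
      have a1 : InhT p (D.setChild (some none) E) (some none) y =
          0 + E.LV p y + Hterm p (some q.1) E y + E.PV p y := by
        show 0 + _ + Hterm p (D.setChild (some none) E).ctr
          ((D.setChild (some none) E).child (some none)) y + _ = _
        rw [Inh_child E hb, hc, e0]
      have a2 : InhT p D (some none) y = 0 + q.2.LV p y + Hterm p (some q.1) q.2 y + q.2.PV p y := by
        show 0 + _ + Hterm p D.ctr (D.child (some none)) y + _ = _
        rw [e1, e0]
      rw [a1, a2, show D.tb p (some none) y = D.hc p y from rfl]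
      ring
    rw [e6, e6, e7, e5, e4, e3, e2, Inh_child E hb, e1,
      funext (Inh_hc (p := p) hc)]
    ring
  · have e1 := Inh_heir (D := D) E hb'
    have e2 : (D.setChild b E).len = D.len :=
      congrArg (fun o : Option (X × Dom X n) => o.elim 0 fun q => lnk q.1 q.2 + len q.2) e1
    have e3 : (D.setChild b E).Links = D.Links - (D.child b).Links + E.Links := by
      have a := Inh_shell E hb' hb Links
      show (D.setChild b E).heir.elim 0 (fun q => lnk q.1 q.2 / 2 ^ n + Links q.2) +
        Links (D.setChild b E).next + ∑ z, (((D.setChild b E).top z).elim 0 fun q => Links q.2) =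
        D.heir.elim 0 (fun q => lnk q.1 q.2 / 2 ^ n + Links q.2) + Links D.next +
          ∑ z, ((D.top z).elim 0 fun q => Links q.2) - _ + _
      rw [e1]
      linarith
    have e4 : (∑ y, m y * (D.setChild b E).hc p y) *
        p.nrm n (Wt ((D.setChild b E).child (some none))) =
        (∑ y, m y * D.hc p y) * p.nrm n (Wt (D.child (some none))) := by
      rw [sum_congr rfl fun y _ => by rw [Inh_hc hc]]
      by_cases a : D.pres (some none)
      · rw [Inh_child_ne E (Ne.symm hb') a]
      · rw [sum_eq_zero fun y _ => mul_eq_zero_of_right _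
          (show D.hc p y = 0 from Inh_tb_zero (p := p) a y), zero_mul, zero_mul]
    have e5 : p.nrm (n + 1) (gW c (D.setChild b E)) =
        p.nrm n (fun l => gW c D l - (D.child b).Wt l + E.Wt l) +
          K0 * p.r n * Real.log (gW c D n) := by
      have a : ∀ l, gW c (D.setChild b E) l =
          (if D.heir.isSome then 0 else c.Wr l) + (D.setChild b E).Wsh l := fun l => by
        rw [← Inh_isSome hc]
        rfl
      rw [Par.nrm_succ, a, Inh_Wsh_n, Par.nrm_congr p fun l hl => by
        rw [a, Inh_Wsh E hb' hb hl.ne, ← add_assoc, ← add_sub_assoc]]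
      rfl
    have e6 : ∀ F : Dom X n, obj p t (cctx p c m D b) (mb p m D b) F =
        ∑ y, m y * D.tb p b y * (F.LV p y + F.PV p y + 0) +
          gM p c m D * p.nrm n (fun l => gW c D l - (D.child b).Wt l + F.Wt l) +
          0 * (C3 * (0 + F.len)) + t.κ * (F.Links + 0 / 2 ^ n) := fun F => by
      rw [Inh_cctx hb']
      rfl
    have e7 : ∑ y, m y * ∑ b', (D.setChild b E).tb p b' y * InhT p (D.setChild b E) b' y =
        ∑ y, m y * ∑ b, D.tb p b y * InhT p D b y +
        ∑ y, m y * D.tb p b y * (E.LV p y + E.PV p y + 0) -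
        ∑ y, m y * D.tb p b y * ((D.child b).LV p y + (D.child b).PV p y + 0) := by
      have a : ∀ b' y, D.pres b' → (D.setChild b E).pv p b' y = D.pv p b' y := fun b' y a => by
        by_cases a1 : b' = some none
        · subst a1
          show Hterm p (D.setChild b E).ctr ((D.setChild b E).child (some none)) y = _
          rw [hc, Inh_child_ne E (Ne.symm hb') a]
          rfl
        · rw [Inh_pv _ a1, Inh_pv _ a1, e2]
      rw [← sum_add_distrib, ← sum_sub_distrib]
      refine sum_congr rfl fun y _ => ?_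
      rw [sum_congr rfl fun b _ => by rw [Inh_tb'], Inh_sum D y b _ (fun b => InhT p D b y) 0
        fun b' a1 a2 => by rw [InhT, InhT, Inh_lv0, Inh_child_ne E a1 a2, a _ _ a2, add_zero],
        InhT, InhT, Inh_lv0, Inh_child E hb, a _ _ hb]
      ring
    rw [e6, e6, e7, e5, e4, e3, e2, Par.nrm_succ p n (gW c D),
      Par.nrm_congr p fun l _ => sub_add_cancel (gW c D l) ((D.child b).Wt l)]
    ring

theorem Eq.child (hr : 0 < p.r0) (hG : 1 ≤ p.G) {D : Dom X (n + 1)} (h : VC p c D)
    (hm : ∀ y, 0 ≤ m y) (hP : 0 ≤ c.P) (he : Eq p t c m D) {b : Br X} (hb : D.pres b) :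
    Eq p t (cctx p c m D b) (mb p m D b) (D.child b) := by
  intro E hE
  have hv := setChild_valid h hb hE
  have h1 := he _ hv
  have h2 := obj_setChild (t := t) (c := c) (m := m) hr hG hb E
  have h3 : ∀ y a, 0 ≤ a → dlt p D (D.setChild b E) y a ≤ D.tb p b y *
      dlt p (D.child b) E y (max a (bdist D (D.setChild b E) b)) + (1 - D.tb p b y) * a :=
    fun y a ha => by
    refine (dlt_rec hr hG h.1 hv.1 y ha).trans_eq ?_
    have e : ∀ b', min (D.tb p b' y) ((D.setChild b E).tb p b' y) = D.tb p b' y := fun b' => by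
      rw [Inh_tb', min_self]
    rw [sum_congr rfl fun b' _ => e b', sum_congr rfl fun b' _ => by rw [e b'], sum_tb, Inh_nu,
      dwin_congr hr hG (fun z => (h.1.2.1 z).le) (h.1.2.1 y) fun _ _ => rfl,
      Inh_sum D y b _ (fun _ => 0) a fun b' a1 a2 => ?_, Inh_child E hb,
      sum_eq_zero fun b' _ => mul_zero _]
    · ring
    have e1 : bdist D (D.setChild b E) b' = 0 := by
      by_cases a3 : b' = some none
      · subst a3
        refine dist_eq_zero.2 ?_
        exact congrArg (fun o : Option (X × Dom X n) =>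
          o.elim (Classical.arbitrary X) fun q => bc q.1 q.2) (Inh_heir E (Ne.symm a1)).symm
      · exact Inh_bdist _ _ a3
    rw [Inh_child_ne E a1 a2, e1, max_eq_left ha, dlt_self hr hG _ _ ha, zero_add]
  by_cases hb' : b = some none
  · subst hb'
    obtain ⟨q, hq⟩ := Option.isSome_iff_exists.1 hb
    have e1 : adist (cctx p c m D (some none)).par (D.child (some none)) E =
        dist (bc q.1 q.2) (bc q.1 E) := by
      show adist (D.heir.map Prod.fst) (D.heir.elim D.next Prod.snd) E = _
      rw [hq]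
      rfl
    have e2 : bdist D (D.setChild (some none) E) (some none) = dist (bc q.1 q.2) (bc q.1 E) := by
      show dist (D.heir.elim (Classical.arbitrary X) fun q => bc q.1 q.2)
        ((D.heir.map fun q => (q.1, E)).elim (Classical.arbitrary X) fun q => bc q.1 q.2) = _
      rw [hq]
      rfl
    have e3 : 0 ≤ adist c.par D (D.setChild (some none) E) ∧
        adist c.par D (D.setChild (some none) E) ≤ dist (bc q.1 q.2) (bc q.1 E) := by
      rcases c.par with _ | c0
      · exact ⟨le_rfl, dist_nonneg⟩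
      · refine ⟨dist_nonneg, le_of_eq ?_⟩
        show dist (D.heir.elim c0 fun q => bc q.1 q.2)
          ((D.heir.map fun q => (q.1, E)).elim c0 fun q => bc q.1 q.2) = _
        rw [hq]
        rfl
    rw [e1]
    have e4 : ∑ y, m y * dlt p D (D.setChild (some none) E) y
        (adist c.par D (D.setChild (some none) E)) ≤
        ∑ y, mb p m D (some none) y * dlt p (D.child (some none)) E y
          (dist (bc q.1 q.2) (bc q.1 E)) + msh p m D * dist (bc q.1 q.2) (bc q.1 E) := by
      show _ ≤ _ + (∑ y, m y * (1 - D.hc p y)) * _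
      rw [sum_mul, ← sum_add_distrib]
      refine sum_le_sum fun y _ => ?_
      have a1 := h3 y _ e3.1
      rw [e2, max_eq_right e3.2] at a1
      have a2 := mul_le_mul_of_nonneg_left e3.2 (sub_nonneg.2 (hc_le_one (p := p) D y))
      show _ ≤ m y * D.hc p y * _ + _
      rw [mul_assoc, mul_assoc, ← mul_add]
      exact mul_le_mul_of_nonneg_left (a1.trans (add_le_add le_rfl a2)) (hm y)
    have e5 := mul_le_mul_of_nonneg_left e3.2 hP
    rw [show (cctx p c m D (some none)).P = c.P + msh p m D from rfl]
    linarith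
  · have e1 : adist c.par D (D.setChild b E) = 0 := by
      rcases c.par with _ | c0
      · rfl
      · refine dist_eq_zero.2 ?_
        exact congrArg (fun o : Option (X × Dom X n) => o.elim c0 fun q => bc q.1 q.2)
          (Inh_heir E hb').symm
    have e2 : adist (cctx p c m D b).par (D.child b) E = 0 := by
      rw [Inh_cctx hb']
      rfl
    rw [e1] at h1
    rw [e2]
    have e3 : ∑ y, m y * dlt p D (D.setChild b E) y 0 ≤
        ∑ y, mb p m D b y * dlt p (D.child b) E y 0 := sum_le_sum fun y _ => by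
      have a1 := h3 y 0 le_rfl
      rw [Inh_bdist _ _ hb', max_self, mul_zero, add_zero] at a1
      show _ ≤ m y * D.tb p b y * _
      rw [mul_assoc]
      exact mul_le_mul_of_nonneg_left a1 (hm y)
    linarith

/-- changing only the weights of the level of the node -/
theorem obj_level (hr : 0 < p.r0) (hG : 1 ≤ p.G) (D : Dom X (n + 1)) (ν : X → ℝ) (a : X → ℝ) :
    obj p t c m (mk D.heir D.w ν (fun z => (D.top z).map fun q => (a z, q.2)) D.next) -
        obj p t c m D =
      ∑ y, m y * ∑ b, D.tb p b y *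
          ((mk D.heir D.w ν (fun z => (D.top z).map fun q => (a z, q.2)) D.next).lv0 p b y -
            D.lv0 p b y) +
        gM p c m D * (K0 * p.r n * (Real.log (gW c (mk D.heir D.w ν
          (fun z => (D.top z).map fun q => (a z, q.2)) D.next) n) - Real.log (gW c D n))) := by
  set D' := mk D.heir D.w ν (fun z => (D.top z).map fun q => (a z, q.2)) D.next with hD'
  have hc : D'.ctr = D.ctr := rfl
  have e0 : ∀ b y, D'.tb p b y = D.tb p b y := Inh_tb hc fun z => Option.isSome_map
  have e1 : ∀ b, D'.child b = D.child b := fun b => by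
    rcases b with _ | _ | z
    · rfl
    · rfl
    · show ((D.top z).map fun q => (a z, q.2)).elim D.next Prod.snd = (D.top z).elim D.next Prod.snd
      cases D.top z <;> rfl
  have e2 : ∀ W : Dom X n → ℝ, ∑ z, ((D'.top z).elim 0 fun q => W q.2) =
      ∑ z, ((D.top z).elim 0 fun q => W q.2) := fun W => sum_congr rfl fun z _ => by
    show ((D.top z).map fun q => (a z, q.2)).elim 0 _ = _
    cases D.top z <;> rfl
  have e3 : D'.Links = D.Links := congrArg (fun x => D.heir.elim 0
    (fun q => lnk q.1 q.2 / 2 ^ n + Links q.2) + Links D.next + x) (e2 Links)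
  have e4 : p.nrm n (gW c D') = p.nrm n (gW c D) := Par.nrm_congr p fun l hl => by
    show (if D.heir.isSome then 0 else c.Wr l) + (if l = n then _ else Wt D.next l +
      ∑ z, ((D'.top z).elim 0 fun q => Wt q.2 l)) = (if D.heir.isSome then 0 else c.Wr l) +
      if l = n then _ else Wt D.next l + ∑ z, ((D.top z).elim 0 fun q => Wt q.2 l)
    rw [if_neg hl.ne, if_neg hl.ne, e2 fun F => Wt F l]
  have e5 : ∑ y, m y * ∑ b, D'.tb p b y * InhT p D' b y =
      ∑ y, m y * ∑ b, D.tb p b y * InhT p D b y +
        ∑ y, m y * ∑ b, D.tb p b y * (D'.lv0 p b y - D.lv0 p b y) := by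
    rw [← sum_add_distrib]
    refine sum_congr rfl fun y _ => ?_
    rw [← mul_add, ← sum_add_distrib]
    refine congrArg _ (sum_congr rfl fun b _ => ?_)
    have a1 : D'.pv p b y = D.pv p b y := by rcases b with _ | _ | z <;> rfl
    rw [InhT, InhT, e0, e1, a1]
    ring
  rw [Inh_obj, Inh_obj D, Inh_R hc rfl, Inh_gM hc, Inh_lnkO hc, e5, e1, e3, Par.nrm_succ,
    Par.nrm_succ p n (gW c D), e4, show D'.len = D.len from rfl,
    show (∑ y, m y * D'.hc p y) = ∑ y, m y * D.hc p y from rfl]
  ring

end Dom

end Crest.Agent.R314
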