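import Crest.Agent.R314.SitC
import Crest.Agent.R314.Lam
import Crest.Agent.R314.Half

/-! Module C: the halving test and lower bounds for the branch values. -/

set_option autoImplicit false

namespace Crest.Agent.R314

open Finset 

variable {X : Type} [MetricSpace X] [Fintype X] [DecidableEq X] [Nonempty X] {p : Par} {n : ℕ}
  {t : Tol} {σ : X} {c : Ctx X} {m : X → ℝ}

omit [Fintype X] [DecidableEq X] [Nonempty X] in
theorem LB_lnk {D : Dom X n} (hD : D.ctr = none) (z : X) : Dom.lnk z D = 0 := by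
  rw [Dom.lnk, hD]; rfl

omit [Fintype X] [DecidableEq X] [Nonempty X] in
theorem LB_lnkO {D : Dom X n} (hD : D.ctr = none) (par : Option X) : Dom.lnkO par D = 0 := by
  cases par with
  | none => rfl
  | some z => exact LB_lnk hD z

omit [Fintype X] [DecidableEq X] [Nonempty X] in
theorem LB_Hterm {D : Dom X n} (hD : D.ctr = none) (par : Option X) (y : X) :
    Dom.Hterm p par D y = 0 := by
  cases par with
  | none => rfl
  | some z => simp only [Dom.Hterm, Option.elim_some, LB_lnk hD, zero_mul]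

theorem LB_adist {D D' : Dom X n} (hD : D.ctr = none) (hD' : D'.ctr = none) (par : Option X) :
    Dom.adist par D D' = 0 := by
  cases par with
  | none => rfl
  | some z => simp only [Dom.adist, Option.elim_some, Dom.bc_of_ctr hD, Dom.bc_of_ctr hD', dist_self]

theorem LB_log {W L : ℝ} (h0 : 0 < L) (h : L ≤ W) :
    L / W / 2 ≤ Real.log W - Real.log (W - L / 2) := by
  have hW : 0 < W := h0.trans_le h
  have h1 := Real.log_le_sub_one_of_pos (div_pos (show 0 < W - L / 2 by linarith) hW)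
  rw [Real.log_div (by linarith) hW.ne'] at h1
  have e : (W - L / 2) / W - 1 = -(L / W / 2) := by field_simp; ring
  linarith

theorem LB_heirless {D : Dom X (n + 1)} (hD : ¬ D.heir.isSome) :
    D.ctr = none ∧ ∀ l, Dom.gW c D l = c.Wr l + D.Wt l := by
  refine ⟨?_, fun l => ?_⟩
  · show D.heir.map Prod.fst = none
    rw [Option.not_isSome_iff_eq_none.1 hD]; rfl
  · simp only [Dom.gW, Dom.Wt, if_neg hD]
    rfl

theorem Sit.half_test {D : Dom X n} (h : Sit p t σ c m D) (hD : D.ctr = none) {Q : ℝ}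
    (hQ : 0 ≤ Q) :
    c.mG * ∑ l ∈ range n, p.r l * (Dom.Loc σ Q D l / (c.Wr l + D.Wt l)) ≤
      3 * p.S n * Mb m σ (Q + p.S n) := by
  have hr := h.hyp.r0_pos
  have hG := h.hyp.G_pos
  have hV := h.vc.1
  have hS := Par.S_nonneg hr n
  rcases Nat.eq_zero_or_pos n with rfl | hn
  · simp [Par.S, SS_zero]
  have hD' : (Dom.half σ Q D).ctr = none := (Dom.half_ctr σ Q D).trans hD
  have h1 := h.eq (Dom.half σ Q D) ⟨hV.half_valid σ Q, Or.inr hD', by
    rw [LB_lnkO hD']; exact (div_pos (Par.r_pos hr n) (by norm_num)).le⟩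
  simp only [Dom.obj, Dom.Val, LB_adist hD hD', LB_Hterm hD, LB_Hterm hD', LB_lnkO hD, LB_lnkO hD',
    Dom.len_of_ctr hD, Dom.len_of_ctr hD', Dom.half_PV, Dom.half_Links, add_zero, mul_zero,
    mul_add, sum_add_distrib] at h1
  have h2 : ∑ y, m y * (Dom.half σ Q D).LV p y + ∑ y, m y * Dom.dlt p D (Dom.half σ Q D) y 0 ≤
      ∑ y, m y * D.LV p y + 10 * p.S n * Mb m σ (Q + p.S n) := by
    rw [Mb, mul_sum, ← sum_add_distrib, ← sum_add_distrib]
    refine sum_le_sum fun y _ => ?_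
    have := mul_le_mul_of_nonneg_left (Dom.Valid.half_LV hr hG σ Q y hV hD) (h.m_nonneg y)
    split_ifs at this ⊢ <;> linarith
  have h3 : 4 * ∑ l ∈ range n, p.r l * (Dom.Loc σ Q D l / (c.Wr l + D.Wt l)) ≤
      p.nrm n (fun l => c.Wr l + D.Wt l) - p.nrm n fun l => c.Wr l + (Dom.half σ Q D).Wt l := by
    rw [Par.nrm, Par.nrm, ← mul_sub, ← sum_sub_distrib, mul_sum, mul_sum]
    refine sum_le_sum fun l hl => ?_
    have hl' := mem_range.1 hl
    obtain ⟨a1, a2⟩ := hV.Loc_bounds σ hQ hD l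
    have a3 := mul_le_mul_of_nonneg_left (LB_log a1 (W := c.Wr l + D.Wt l)
      (by linarith [h.Wr_nonneg l hl'])) (Par.r_pos hr l).le
    rw [hV.half_Wt σ Q hD hl', ← add_sub_assoc, K0]
    linarith
  have h4 : t.η ≤ p.S n * Mb m σ (Q + p.S n) := by
    have a1 : p.r0 ≤ p.S n := by
      have := SS_mono hr (show 1 ≤ n from hn)
      rwa [SS_succ, SS_zero, rr_zero, zero_add] at this
    have a2 : t.κ ≤ Mb m σ (Q + p.S n) := h.κ_le.trans (le_Mb h.m_nonneg (by positivity))
    have a3 : (1 : ℝ) ≤ p.G := by exact_mod_cast hG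
    have a4 := mul_le_mul a2 a1 hr.le (h.tol.κ_pos.le.trans a2)
    nlinarith [h.tol.η_le, h.tol.η_nonneg, mul_nonneg h.tol.η_nonneg (sq_nonneg ((p.G : ℝ) - 1))]
  have h5 := mul_le_mul_of_nonneg_left h3 h.mG_nonneg
  nlinarith [h.tol.η_nonneg]

theorem Sit.lb {D : Dom X (n + 1)} (h : Sit p t σ c m D) {x : X} (hx : dist x σ ≤ p.r (n + 1))
    {b : Br X} (hb : 0 < D.tb p b x) : D.beta p σ c m - 10 * p.r n ≤ Dom.Yb p c D b x := by
  have hr := h.hyp.r0_pos
  have hG := h.hyp.G_pos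
  have hV := h.vc.1
  have hrn := Par.r_pos hr n
  by_cases hh : D.heir.isSome
  · have := Dom.Valid.Yb_nonneg hr hG hV h.Wr_nonneg (Dom.pres_of_pos hb) x
    rw [Dom.beta, if_pos hh]
    linarith
  obtain ⟨hD, hW⟩ := LB_heirless (c := c) hh
  have hS0 := Par.S_nonneg hr n
  have hS1 := Par.S_le hr n
  have hS := p.S_succ n
  have hr1 := p.r_succ n
  have hQ : 0 ≤ p.r (n + 1) + p.r n := by linarith
  have h1 := Dom.Valid.loc_lower hr hG σ (p.r (n + 1) + p.r n) hV hD (x := x) (by linarith) hb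
  have h2 : Dom.Yb p c D b x =
      p.nrm (n + 1) (Dom.gW c D) + D.lv0 p b x + (D.child b).LV p x := by
    rcases b with _ | _ | z
    · rfl
    · obtain ⟨q, hq, -⟩ := Dom.dist_lt_of_heir hr hb
      rw [hq] at hh
      exact absurd rfl hh
    · rfl
  have h3 := (h.half_test hD hQ).trans (mul_le_mul_of_nonneg_left
    (Mb_mono (σ := σ) h.m_nonneg (ρ' := 4 * p.r (n + 1)) (by linarith)) (by linarith))
  have hM : 0 < Mb m σ (4 * p.r (n + 1)) := h.mσ_pos.trans_le (le_Mb h.m_nonneg (by linarith))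
  rw [Dom.beta, if_neg hh, h2, ell]
  generalize Mb m σ (4 * p.r (n + 1)) = M at h3 hM ⊢
  have hmG := h.mG_pos
  have h4 : K0 * (p.S (n + 1) * (1 + Real.log c.mG - Real.log (3 * M)) - c.mG / (3 * M) *
      ∑ l ∈ range (n + 1), p.r l * (Dom.Loc σ (p.r (n + 1) + p.r n) D l / (c.Wr l + D.Wt l))) ≤
      p.nrm (n + 1) (Dom.gW c D) - p.nrm (n + 1) (Dom.Loc σ (p.r (n + 1) + p.r n) D) := by
    rw [Par.nrm, Par.nrm, ← mul_sub, ← sum_sub_distrib, Par.S, SS, sum_mul, mul_sum,
      ← sum_sub_distrib]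
    refine mul_le_mul_of_nonneg_left (sum_le_sum fun l hl => ?_) (by norm_num [K0])
    obtain ⟨a1, a2⟩ := hV.Loc_bounds σ hQ hD l
    have a3 : 0 < c.Wr l + D.Wt l := by linarith [h.Wr_nonneg l (mem_range.1 hl)]
    have a4 := Real.log_le_sub_one_of_pos
      (mul_pos (div_pos hmG (show 0 < 3 * M by positivity)) (div_pos a1 a3))
    rw [Real.log_mul (by positivity) (by positivity), Real.log_div hmG.ne' (by positivity),
      Real.log_div a1.ne' a3.ne'] at a4
    have a5 := mul_le_mul_of_nonneg_left a4 (Par.r_pos hr l).le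
    rw [hW]
    change p.r l * _ - _ ≤ _
    linarith
  have h5 : c.mG / (3 * M) * ∑ l ∈ range (n + 1),
      p.r l * (Dom.Loc σ (p.r (n + 1) + p.r n) D l / (c.Wr l + D.Wt l)) ≤ p.S (n + 1) := by
    rw [div_mul_eq_mul_div, div_le_iff₀ (by positivity)]
    linarith
  have h6 : Real.log 3 ≤ 6 / 5 := by
    have a1 := Real.log_le_sub_one_of_pos (show (0 : ℝ) < 3 / 2 by norm_num)
    rw [Real.log_div (by norm_num) (by norm_num)] at a1
    linarith [Real.log_two_lt_d9]
  rw [Real.log_mul (by norm_num) hM.ne'] at h4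
  have h7 := mul_le_mul_of_nonneg_left h6 (show 0 ≤ p.S (n + 1) by linarith)
  simp only [K0] at h4 ⊢
  linarith

theorem Sit.ball_top {D : Dom X (n + 1)} (h : Sit p t σ c m D) (hσ : 0 < D.tb p none σ) :
    Real.log (ballW D.nu σ (2 * p.r n)) - Real.log (Dom.gW c D n) ≤
      2 - Real.log (Dom.gM p c m D) - ell m σ (4 * p.r (n + 1)) := by
  have hr := h.hyp.r0_pos
  have hV := h.vc.1
  have hrn := Par.r_pos hr n
  have hnu : ∀ z, 0 < D.nu z := hV.2.1
  have htop : ∀ z, 0 ≤ (D.top z).elim 0 Prod.fst := fun z => by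
    rcases hz : D.top z with _ | q
    · exact le_rfl
    · exact (hV.2.2.1 z q hz).1.le
  have hB : 0 < ballW D.nu σ (2 * p.r n) := by
    refine sum_pos' (fun z _ => ?_) ⟨σ, mem_univ _, ?_⟩
    · unfold ballF
      split_ifs
      exacts [(hnu z).le, le_rfl]
    · rw [ballF, if_pos (by rw [dist_self]; positivity)]
      exact hnu σ
  have hgM := h.gM_pos (by simp) hσ
  rw [ell, sub_neg_eq_add]
  by_cases hh : D.heir.isSome
  · have h1 : ballW D.nu σ (2 * p.r n) ≤ Dom.gW c D n := by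
      simp only [Dom.gW, if_pos hh, zero_add, Dom.Wsh, Dom.wshAux, if_true]
      refine le_add_of_le_of_nonneg (sum_le_sum fun z _ => ?_) (sum_nonneg fun z _ => htop z)
      unfold ballF
      split_ifs
      exacts [le_rfl, (hnu z).le]
    have h2 : Dom.gM p c m D ≤ Mb m σ (4 * p.r (n + 1)) := by
      rw [h.Mb_eq (h.allow_of_heir hh), Dom.gM, if_pos hh]
      exact sum_le_sum fun y _ =>
        mul_le_of_le_one_right (h.m_nonneg y) (sub_le_self _ (Dom.hc_nonneg D y))
    linarith [Real.log_le_log hB h1, Real.log_le_log hgM h2]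
  obtain ⟨hD, hW⟩ := LB_heirless (c := c) hh
  have hS0 := Par.S_nonneg hr n
  have hS1 := Par.S_le hr n
  have hS := p.S_succ n
  have hr1 := p.r_succ n
  have hQ : 0 ≤ 2 * p.r n := by linarith
  have h3 := (h.half_test hD hQ).trans (mul_le_mul_of_nonneg_left
    (Mb_mono (σ := σ) h.m_nonneg (ρ' := 4 * p.r (n + 1)) (by linarith)) (by linarith))
  have hM : 0 < Mb m σ (4 * p.r (n + 1)) := h.mσ_pos.trans_le (le_Mb h.m_nonneg (by linarith))
  have hpos : ∀ l ∈ range (n + 1), 0 < c.Wr l + D.Wt l := fun l hl =>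
    add_pos_of_nonneg_of_pos (h.Wr_nonneg l (mem_range.1 hl)) (hV.Wt_pos l)
  have h4 := single_le_sum (f := fun l => p.r l * (Dom.Loc σ (2 * p.r n) D l / (c.Wr l + D.Wt l)))
    (fun l hl => (mul_pos (Par.r_pos hr l) (div_pos (hV.Loc_bounds σ hQ hD l).1 (hpos l hl))).le)
    (self_mem_range_succ n)
  have h5 : ballW D.nu σ (2 * p.r n) ≤ Dom.Loc σ (2 * p.r n) D n := by
    simp only [Dom.Loc, if_true]
    refine sum_le_sum fun z _ => ?_
    rw [ballF, dist_comm]
    split_ifs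
    exacts [le_add_of_nonneg_right (htop z), le_rfl]
  have hW0 := hpos n (self_mem_range_succ n)
  rw [Dom.gM, if_neg hh, hW]
  generalize Mb m σ (4 * p.r (n + 1)) = M at h3 hM ⊢
  have hmG := h.mG_pos
  have h6 : c.mG * (ballW D.nu σ (2 * p.r n) / (c.Wr n + D.Wt n)) ≤ 4 * M := by
    refine le_of_mul_le_mul_left ?_ hrn
    have a1 := mul_le_mul_of_nonneg_left ((mul_le_mul_of_nonneg_left
      (div_le_div_of_nonneg_right h5 hW0.le) hrn.le).trans h4) hmG.le
    nlinarith
  have h7 := Real.log_le_log (by positivity) h6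
  rw [Real.log_mul hmG.ne' (by positivity), Real.log_div hB.ne' hW0.ne',
    Real.log_mul (by norm_num) hM.ne', show (4 : ℝ) = 2 ^ 2 by norm_num, Real.log_pow] at h7
  push_cast at h7
  linarith [Real.log_two_lt_d9]

end Crest.Agent.R314
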