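import Crest.Agent.R314.Tree

/-! Elementary facts on scales, labels and `rel`, `anc`. -/

set_option autoImplicit false

namespace Crest.Agent.R314

open Finset

variable {Λ X : Type}

theorem rr_pos {r0 : ℝ} (h : 0 < r0) (n : ℕ) : 0 < rr r0 n := by
  unfold rr tau; positivity

theorem rr_succ (r0 : ℝ) (n : ℕ) : rr r0 (n + 1) = tau * rr r0 n := by
  unfold rr; ring

theorem rr_zero (r0 : ℝ) : rr r0 0 = r0 := by simp [rr]

theorem SS_zero (r0 : ℝ) : SS r0 0 = 0 := by simp [SS]

theorem SS_succ (r0 : ℝ) (n : ℕ) : SS r0 (n + 1) = SS r0 n + rr r0 n := by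
  simp [SS, sum_range_succ]

theorem SS_nonneg {r0 : ℝ} (h : 0 < r0) (n : ℕ) : 0 ≤ SS r0 n :=
  sum_nonneg fun l _ => (rr_pos h l).le

/-- `SS n ≤ rr n / (τ - 1)` -/
theorem SS_le {r0 : ℝ} (h : 0 < r0) (n : ℕ) : SS r0 n * 65535 ≤ rr r0 n := by
  induction n with
  | zero => simp [SS_zero, rr_zero, h.le]
  | succ n ih => rw [SS_succ, rr_succ]; unfold tau; linarith

theorem rr_mono {r0 : ℝ} (h : 0 < r0) {m n : ℕ} (hmn : m ≤ n) : rr r0 m ≤ rr r0 n := by
  unfold rr
  exact mul_le_mul_of_nonneg_left (pow_le_pow_right₀ (by unfold tau; norm_num) hmn) h.le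

theorem SS_mono {r0 : ℝ} (h : 0 < r0) {m n : ℕ} (hmn : m ≤ n) : SS r0 m ≤ SS r0 n :=
  sum_le_sum_of_subset_of_nonneg (range_mono hmn) fun l _ _ => (rr_pos h l).le

section rel
variable [DecidableEq Λ] {r0 : ℝ}

theorem rel_nonneg (h : 0 < r0) : ∀ {n : ℕ} (u v : Lab Λ X n), 0 ≤ rel r0 u v
  | 0, _, _ => le_rfl
  | n + 1, u, v => by
    unfold rel; split_ifs
    · exact rel_nonneg h _ _
    · exact SS_nonneg h _

theorem rel_le (h : 0 < r0) : ∀ {n : ℕ} (u v : Lab Λ X n), rel r0 u v ≤ SS r0 n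
  | 0, _, _ => by simp [rel, SS_zero]
  | n + 1, u, v => by
    unfold rel; split_ifs
    · exact (rel_le h _ _).trans (SS_mono h (Nat.le_succ n))
    · exact le_rfl

theorem rel_self : ∀ {n : ℕ} (u : Lab Λ X n), rel r0 u u = 0
  | 0, _ => rfl
  | n + 1, u => by unfold rel; rw [if_pos rfl]; exact rel_self _

theorem rel_comm : ∀ {n : ℕ} (u v : Lab Λ X n), rel r0 u v = rel r0 v u
  | 0, _, _ => rfl
  | n + 1, u, v => by
    unfold rel
    by_cases h : u.1.1 = v.1.1
    · rw [if_pos h, if_pos h.symm]; exact rel_comm _ _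
    · rw [if_neg h, if_neg (Ne.symm h)]

theorem rel_triangle (h : 0 < r0) : ∀ {n : ℕ} (u v w : Lab Λ X n),
    rel r0 u w ≤ rel r0 u v + rel r0 v w
  | 0, _, _, _ => by simp [rel]
  | n + 1, u, v, w => by
    by_cases h1 : u.1.1 = v.1.1
    · by_cases h2 : v.1.1 = w.1.1
      · have := rel_triangle h u.2 v.2 w.2
        unfold rel
        rw [if_pos h1, if_pos h2, if_pos (h1.trans h2)]; exact this
      · have a := rel_le h u w
        have b := rel_nonneg h u v
        have c : rel r0 v w = SS r0 (n + 1) := by unfold rel; rw [if_neg h2]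
        linarith
    · have a := rel_le h u w
      have b := rel_nonneg h v w
      have c : rel r0 u v = SS r0 (n + 1) := by unfold rel; rw [if_neg h1]
      linarith

end rel

section anc
variable [MetricSpace X]

theorem anc_nonneg : ∀ {n : ℕ} (u v : Lab Λ X n), 0 ≤ anc u v
  | 0, _, _ => le_rfl
  | _ + 1, _, _ => le_max_of_le_left dist_nonneg

theorem anc_self : ∀ {n : ℕ} (u : Lab Λ X n), anc u u = 0
  | 0, _ => rfl
  | _ + 1, u => by unfold anc; rw [dist_self, anc_self]; simp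

theorem anc_comm : ∀ {n : ℕ} (u v : Lab Λ X n), anc u v = anc v u
  | 0, _, _ => rfl
  | _ + 1, u, v => by unfold anc; rw [dist_comm, anc_comm]

theorem anc_triangle : ∀ {n : ℕ} (u v w : Lab Λ X n), anc u w ≤ anc u v + anc v w
  | 0, _, _, _ => by simp [anc]
  | _ + 1, u, v, w => by
    unfold anc
    have a := dist_triangle u.1.2 v.1.2 w.1.2
    have b := anc_triangle u.2 v.2 w.2
    refine max_le ?_ ?_
    · exact a.trans (add_le_add (le_max_left _ _) (le_max_left _ _))
    · exact b.trans (add_le_add (le_max_right _ _) (le_max_right _ _))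

end anc

instance HT.fintype [Fintype Λ] [DecidableEq Λ] [Fintype X] [DecidableEq X] :
    ∀ n : ℕ, Fintype (HT Λ X n)
  | 0 => inferInstanceAs (Fintype PUnit)
  | n + 1 =>
    letI := HT.fintype n
    inferInstanceAs (Fintype ((X → Λ) × (Λ → X × HT Λ X n)))

end Crest.Agent.R314
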