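import Crest.Agent.R314.UB
import Crest.Agent.R314.LB

/-! Module C: the gradient inequality of one level. -/

set_option autoImplicit false

namespace Crest.Agent.R314

open Finset 

variable {X : Type} [MetricSpace X] [Fintype X] [DecidableEq X] [Nonempty X] {p : Par} {n : ℕ}
  {t : Tol} {σ : X} {c : Ctx X} {m : X → ℝ}

/-- the total value of a branch -/
noncomputable def Level_V (p : Par) (c : Ctx X) (D : Dom X (n + 1)) (b : Br X) (y : X) : ℝ :=
  Dom.Yb p c D b y + (D.pv p b y + (D.child b).PV p y)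

theorem Level_diff (hr : 0 < p.r0) (hG : 1 ≤ p.G) (c : Ctx X) (D : Dom X (n + 1)) (σ x : X) :
    D.Diff p c.par σ x = (∑ b, D.tb p b σ * Level_V p c D b σ - ∑ b, D.tb p b x * Level_V p c D b x)
      + (Dom.Hterm p c.par D σ - Dom.Hterm p c.par D x) + D.cut p x σ := by
  have hP : ∀ y, D.PV p y = ∑ b, D.tb p b y * (D.pv p b y + (D.child b).PV p y) := fun y => rfl
  simp only [Dom.Diff, Dom.Val, Dom.LV_eq_Yb hr hG c D, hP, Level_V, mul_add (D.tb p _ _)
    (Dom.Yb p c D _ _), sum_add_distrib]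
  ring

theorem Level_Vdiff (c : Ctx X) (m : X → ℝ) (D : Dom X (n + 1)) (σ x : X) (b : Br X) :
    Level_V p c D b σ - Level_V p c D b x + (D.child b).cut p x σ =
      (D.child b).Diff p (Dom.cctx p c m D b).par σ x +
        if b = none then K0 * p.r n * (tok p n D.nu σ - tok p n D.nu x) else 0 := by
  rcases b with _ | _ | z
  · simp only [Level_V, Dom.Yb, Dom.pv, Dom.lv0, Dom.Diff, Dom.Val, Dom.cctx, Dom.Hterm,
      Option.elim_none, if_true]
    ring
  · simp only [Level_V, Dom.Yb, Dom.pv, Dom.Diff, Dom.Val, Dom.cctx, reduceCtorEq, if_false]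
    ring
  · simp only [Level_V, Dom.Yb, Dom.pv, Dom.lv0, Dom.Diff, Dom.Val, Dom.cctx, Dom.Hterm,
      Option.elim_none, reduceCtorEq, if_false]
    ring

omit [Nonempty X] in
/-- at most two branches have positive probability -/
theorem Level_count (hr : 0 < p.r0) {D : Dom X (n + 1)} (hD : D.Valid p) (y : X) :
    ∑ b, (if 0 < D.tb p b y then (1 : ℝ) else 0) ≤ 2 := by
  rw [Fintype.sum_option]
  have h1 : (if 0 < D.tb p none y then (1 : ℝ) else 0) ≤ 1 := by
    split_ifs <;> norm_num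
  have h2 : ∑ o : Option X, (if 0 < D.tb p (some o) y then (1 : ℝ) else 0) ≤ 1 := by
    rw [sum_boole]
    exact Nat.cast_le_one.2 (card_le_one.2 fun a ha b hb =>
      hD.mark_unique hr (mem_filter.1 ha).2 (mem_filter.1 hb).2)
  linarith

theorem Sit.level_Yx {D : Dom X (n + 1)} (h : Sit p t σ c m D) {b : Br X}
    (hb : 0 < D.tb p b σ) : 0 ≤ D.Yx p σ m b := by
  obtain ⟨-, h2, h3⟩ := Yx_bounds h.hyp.r0_pos h.m_nonneg h.mσ_pos h.vc.1 hb
  exact h3.trans h2

/-- weighted sum of the branch values at the request -/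
theorem Sit.level_up {D : Dom X (n + 1)} (h : Sit p t σ c m D) {a : Br X → ℝ} {A : ℝ}
    (hA : 0 ≤ A) (ha0 : ∀ b, 0 ≤ a b) (ha : ∀ b, a b ≤ A * √(D.tb p b σ)) :
    ∑ b, a b * (Level_V p c D b σ - (D.beta p σ c m - 10 * p.r n)) ≤
      A * p.r n * (2 * (210 + C3 / 4) + 1020 * (2 + 4352 * Dl p m σ (n + 1))) := by
  have hr := h.hyp.r0_pos
  have hG := h.hyp.G_pos
  have hD := h.vc.1
  have r0 := Par.r_pos hr n
  have hΔ := Dl_nonneg hr h.m_nonneg h.mσ_pos (n + 1)
  have hC : 0 ≤ C3 := by norm_num [C3, C1, C2]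
  have h1 : ∀ b, a b * (Level_V p c D b σ - (D.beta p σ c m - 10 * p.r n)) ≤
      A * p.r n * ((210 + C3 / 4) * √(D.tb p b σ) + 510 * (2 + 4352 * Dl p m σ (n + 1)) *
        if 0 < D.tb p b σ then (1 : ℝ) else 0) := by
    intro b
    by_cases hb : 0 < D.tb p b σ
    · have e1 := h.bb hb
      have e2 := (hD.pv_bounds hr hG b σ).2
      have e3 := h.level_Yx hb
      have e4 := sqrt_tb_mul_Yx hr h.m_nonneg h.mσ_pos hD hb
      rw [if_pos hb, mul_one]
      calc _ ≤ a b * (p.r n * (210 + C3 / 4 + 510 * D.Yx p σ m b)) := by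
            refine mul_le_mul_of_nonneg_left ?_ (ha0 b)
            unfold Level_V
            linarith
        _ ≤ A * √(D.tb p b σ) * (p.r n * (210 + C3 / 4 + 510 * D.Yx p σ m b)) :=
            mul_le_mul_of_nonneg_right (ha b) (by positivity)
        _ = A * p.r n * ((210 + C3 / 4) * √(D.tb p b σ) +
              510 * (√(D.tb p b σ) * D.Yx p σ m b)) := by ring
        _ ≤ _ := by gcongr
    · have e0 : D.tb p b σ = 0 := le_antisymm (not_lt.1 hb) (hD.tb_nonneg hr b σ)
      have e1 : a b = 0 := le_antisymm (by simpa [e0] using ha b) (ha0 b)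
      rw [e1, if_neg hb, e0]
      simp
  refine (sum_le_sum fun b _ => h1 b).trans ?_
  rw [← mul_sum, sum_add_distrib, ← mul_sum, ← mul_sum]
  refine mul_le_mul_of_nonneg_left ?_ (by positivity)
  have e1 := mul_le_mul_of_nonneg_left (hD.sum_sqrt_tb hr σ) (show 0 ≤ 210 + C3 / 4 by positivity)
  have e2 := mul_le_mul_of_nonneg_left (Level_count hr hD σ)
    (show 0 ≤ 510 * (2 + 4352 * Dl p m σ (n + 1)) by positivity)
  linarith

/-- weighted sum of the branch values at a point near the request -/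
theorem Sit.level_low {D : Dom X (n + 1)} (h : Sit p t σ c m D) {x : X}
    (hx : dist x σ ≤ p.r (n + 1)) {a : Br X → ℝ} (ha0 : ∀ b, 0 ≤ a b)
    (ha : ∀ b, a b ≤ D.tb p b x) :
    0 ≤ ∑ b, a b * (Level_V p c D b x - (D.beta p σ c m - 10 * p.r n)) := by
  refine sum_nonneg fun b _ => ?_
  rcases (ha0 b).eq_or_lt with h0 | h0
  · rw [← h0, zero_mul]
  · have e1 := h.lb hx (h0.trans_le (ha b))
    have e2 := (h.vc.1.pv_bounds h.hyp.r0_pos h.hyp.G_pos b x).1
    refine mul_nonneg h0.le ?_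
    unfold Level_V
    linarith

/-- the token term -/
theorem Sit.level_tok {D : Dom X (n + 1)} (h : Sit p t σ c m D) {x : X}
    (hx : dist x σ ≤ p.r n / 48) {a : ℝ} (ha0 : 0 ≤ a) (ha : a ≤ D.tb p none σ) :
    a * (K0 * p.r n * (tok p n D.nu σ - tok p n D.nu x) + dwin p n D.nu x D.nu σ * p.S (n + 1)) ≤
      dist x σ * (1251 + 2403 * (2 + 4352 * Dl p m σ (n + 1))) := by
  have hr := h.hyp.r0_pos
  have hG := h.hyp.G_pos
  have hD := h.vc.1
  have hΔ := Dl_nonneg hr h.m_nonneg h.mσ_pos (n + 1)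
  rcases ha0.eq_or_lt with h0 | h0
  · rw [← h0, zero_mul]
    positivity
  have hb : 0 < D.tb p none σ := h0.trans_le ha
  have hnu : ∀ z, 0 < D.nu z := hD.2.1
  have e1 := tok_grad hr hG h.hyp hnu hx
  have e2 := (h.tok_avg hb).1
  have e3 := h.ball_top hb
  obtain ⟨e4, e5, -⟩ := Yx_bounds hr h.m_nonneg h.mσ_pos hD hb
  have e6 := h.level_Yx hb
  have e7 := sqrt_tb_mul_Yx hr h.m_nonneg h.mσ_pos hD hb
  have hG' : (0 : ℝ) < p.G := by exact_mod_cast hG
  have e8 : (∑ j ∈ range p.G,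
      (Real.log (ballW D.nu σ (2 * p.r n)) - Real.log (ballW D.nu σ (p.rad n (j + 1))))) / p.G =
      (∑ j ∈ range p.G,
        (Real.log (Dom.gW c D n) - Real.log (ballW D.nu σ (p.rad n (j + 1))))) / p.G +
      (Real.log (ballW D.nu σ (2 * p.r n)) - Real.log (Dom.gW c D n)) := by
    simp only [sum_sub_distrib, sum_const, card_range, nsmul_eq_mul]
    field_simp
    ring
  have h1 := hD.tb_le_one hr none σ
  have a1 : a ≤ 1 := ha.trans h1
  have a2 : a ≤ √(D.tb p none σ) := by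
    refine ha.trans (Real.le_sqrt_of_sq_le ?_)
    nlinarith
  have hd : 0 ≤ dist x σ := dist_nonneg
  calc _ ≤ a * (dist x σ * (1251 + 2403 * D.Yx p σ m none)) := by
        refine mul_le_mul_of_nonneg_left (e1.trans (mul_le_mul_of_nonneg_left ?_ hd)) ha0
        rw [e8]
        linarith
    _ = dist x σ * (1251 * a + 2403 * (a * D.Yx p σ m none)) := by ring
    _ ≤ _ := by
        refine mul_le_mul_of_nonneg_left ?_ hd
        have := mul_le_mul_of_nonneg_right a2 e6
        linarith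

theorem Level_S (hr : 0 < p.r0) (n : ℕ) : p.S (n + 1) ≤ 2 * p.r n := by
  have h1 := Par.S_le hr n
  have h2 := Par.S_nonneg hr n
  rw [Par.S_succ]
  linarith

theorem Sit.level {D : Dom X (n + 1)} (h : Sit p t σ c m D) {x : X} (hx : dist x σ ≤ p.r n / 48) :
    D.Diff p c.par σ x ≤
      ∑ b, min (D.tb p b σ) (D.tb p b x) *
          (D.child b).Diff p (Dom.cctx p c m D b).par σ x +
        dist x σ * (2 ^ 66 + 2 ^ 30 * Dl p m σ (n + 1)) := by
  have hr := h.hyp.r0_pos
  have hG := h.hyp.G_pos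
  have hD := h.vc.1
  have r0 := Par.r_pos hr n
  have hΔ := Dl_nonneg hr h.m_nonneg h.mσ_pos (n + 1)
  have hd : 0 ≤ dist x σ := dist_nonneg
  set al : Br X → ℝ := fun b => min (D.tb p b σ) (D.tb p b x) with hal
  have al0 : ∀ b, 0 ≤ al b := fun b => le_min (hD.tb_nonneg hr b σ) (hD.tb_nonneg hr b x)
  set be := D.beta p σ c m - 10 * p.r n with hbe
  have hsub : ∀ b, D.tb p b σ - al b ≤ 14 * dist x σ / p.r n * √(D.tb p b σ) := fun b => by
    have := hD.tb_sub_le hr b σ x
    rwa [dist_comm] at this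
  have e1 := h.level_up (a := fun b => D.tb p b σ - al b) (A := 14 * dist x σ / p.r n)
    (by positivity) (fun b => sub_nonneg.2 (min_le_left _ _)) hsub
  have e2 := h.level_low (x := x) (by rw [Par.r_succ]; linarith)
    (a := fun b => D.tb p b x - al b) (fun b => sub_nonneg.2 (min_le_right _ _))
    (fun b => sub_le_self _ (al0 b))
  have e3 := h.level_tok hx (al0 none) (min_le_left _ _)
  have e4 := Dom.cut_rec hr hG hD x σ
  simp only [min_comm (D.tb p _ x)] at e4
  have e5 := Dom.Hterm_lip hr hG h.vc.2.2 x σ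
  have e6 : (1 - ∑ b, al b) * p.S (n + 1) ≤ 56 * dist x σ := by
    have f1 : 1 - ∑ b, al b ≤ 14 * dist x σ / p.r n * 2 := by
      rw [← D.sum_tb (p := p) σ, ← sum_sub_distrib]
      refine (sum_le_sum fun b _ => hsub b).trans ?_
      rw [← mul_sum]
      exact mul_le_mul_of_nonneg_left (hD.sum_sqrt_tb hr σ) (by positivity)
    calc _ ≤ 14 * dist x σ / p.r n * 2 * p.S (n + 1) :=
          mul_le_mul_of_nonneg_right f1 (Par.S_nonneg hr _)
      _ ≤ 14 * dist x σ / p.r n * 2 * (2 * p.r n) :=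
          mul_le_mul_of_nonneg_left (Level_S hr n) (by positivity)
      _ = _ := by
          field_simp
          ring
  have e7 : ∑ b, al b * (Level_V p c D b σ - Level_V p c D b x + (D.child b).cut p x σ) =
      ∑ b, al b * (D.child b).Diff p (Dom.cctx p c m D b).par σ x +
        al none * (K0 * p.r n * (tok p n D.nu σ - tok p n D.nu x)) := by
    simp only [Level_Vdiff c m D σ x, mul_add, sum_add_distrib, mul_ite, mul_zero, sum_ite_eq',
      mem_univ, if_true]
  have e8 : ∑ b, D.tb p b σ * Level_V p c D b σ - ∑ b, D.tb p b x * Level_V p c D b x +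
      ∑ b, al b * (D.child b).cut p x σ =
      ∑ b, al b * (Level_V p c D b σ - Level_V p c D b x + (D.child b).cut p x σ) +
      ∑ b, (D.tb p b σ - al b) * (Level_V p c D b σ - be) -
      ∑ b, (D.tb p b x - al b) * (Level_V p c D b x - be) := by
    have f1 : ∑ b, D.tb p b σ * be = ∑ b, D.tb p b x * be := by
      rw [← sum_mul, ← sum_mul, D.sum_tb, D.sum_tb]
    simp only [mul_add, mul_sub, sub_mul, sum_add_distrib, sum_sub_distrib]
    linarith
  rw [show 14 * dist x σ / p.r n * p.r n = 14 * dist x σ by field_simp] at e1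
  have hC1 : C1 = 2 ^ 60 := rfl
  have hC3 : C3 = 2 ^ 60 + 2 * 2 ^ 43 := rfl
  rw [hC3] at e1
  rw [hC1] at e5
  have e9 := mul_nonneg hd hΔ
  rw [Level_diff hr hG]
  change D.cut p x σ ≤ ∑ b, al b * (D.child b).cut p x σ + (1 - ∑ b, al b) * p.S (n + 1) +
    al none * (dwin p n D.nu x D.nu σ * p.S (n + 1)) at e4
  change _ ≤ ∑ b, al b * (D.child b).Diff p (Dom.cctx p c m D b).par σ x + _
  rw [mul_add] at e3
  nlinarith

theorem Sit.terminal {D : Dom X (n + 1)} (h : Sit p t σ c m D) {x : X}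
    (hx : p.r n / 48 ≤ dist x σ) (hx' : dist x σ ≤ p.r (n + 1) / 48) :
    D.Diff p c.par σ x ≤ dist x σ * (2 ^ 66 + 2 ^ 30 * Dl p m σ (n + 1)) := by
  have hr := h.hyp.r0_pos
  have hG := h.hyp.G_pos
  have hD := h.vc.1
  have r0 := Par.r_pos hr n
  have r1 := Par.r_pos hr (n + 1)
  have hΔ := Dl_nonneg hr h.m_nonneg h.mσ_pos (n + 1)
  have hd : 0 ≤ dist x σ := dist_nonneg
  set be := D.beta p σ c m - 10 * p.r n with hbe
  have e1 := h.level_up (a := fun b => D.tb p b σ) (A := 1) zero_le_one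
    (fun b => hD.tb_nonneg hr b σ) (fun b => by
      have h0 := hD.tb_nonneg hr b σ
      have h1 := hD.tb_le_one hr b σ
      rw [one_mul]
      refine Real.le_sqrt_of_sq_le ?_
      nlinarith)
  have e2 := h.level_low (x := x) (by linarith) (a := fun b => D.tb p b x)
    (fun b => hD.tb_nonneg hr b x) (fun b => le_rfl)
  have e4 := ((Dom.cut_bounds hr hG D x σ).2).trans (Level_S hr n)
  have e5 := Dom.Hterm_lip hr hG h.vc.2.2 x σ
  have e8 : ∑ b, D.tb p b σ * Level_V p c D b σ - ∑ b, D.tb p b x * Level_V p c D b x =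
      ∑ b, D.tb p b σ * (Level_V p c D b σ - be) -
      ∑ b, D.tb p b x * (Level_V p c D b x - be) := by
    have f1 : ∑ b, D.tb p b σ * be = ∑ b, D.tb p b x * be := by
      rw [← sum_mul, ← sum_mul, D.sum_tb, D.sum_tb]
    simp only [mul_sub, sum_sub_distrib]
    linarith
  have hC1 : C1 = 2 ^ 60 := rfl
  have hC3 : C3 = 2 ^ 60 + 2 * 2 ^ 43 := rfl
  rw [hC3, one_mul] at e1
  rw [hC1] at e5
  have e9 := mul_nonneg hd hΔ
  have e10 : p.r n * Dl p m σ (n + 1) ≤ 48 * dist x σ * Dl p m σ (n + 1) :=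
    mul_le_mul_of_nonneg_right (by linarith) hΔ
  rw [Level_diff hr hG, e8]
  nlinarith

theorem Sit.good {D : Dom X (n + 1)} (h : Sit p t σ c m D) {x : X} (hx : dist x σ ≤ p.r n / 48)
    (hpar : ∀ c', c.par = some c' → dist σ c' ≤ p.r (n + 1) / 20) (hg : D.Good p σ) :
    D.Diff p c.par σ x ≤ (D.child (some none)).Diff p D.ctr σ x := by
  have hr := h.hyp.r0_pos
  have hG := h.hyp.G_pos
  have hD := h.vc.1
  have r0 := Par.r_pos hr n
  have r1 := Par.r_pos hr (n + 1)
  obtain ⟨q, hq, hq'⟩ := hg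
  have hc : ∀ y, dist y q.1 ≤ p.r n / 4 → D.hc p y = 1 := fun y hy => by
    unfold Dom.hc
    rw [hq]
    exact cap_eq_one hr hy
  have hσ : D.hc p σ = 1 := hc σ (by linarith)
  have hx1 : D.hc p x = 1 := hc x (by linarith [dist_triangle x σ q.1])
  have tb : ∀ y, D.hc p y = 1 → ∀ b, D.tb p b y = if b = some none then 1 else 0 := by
    intro y hy b
    split_ifs with hb
    · rw [hb]
      exact hy
    · exact hD.tb_of_hc_one hr hy hb
  have e1 : Dom.Hterm p c.par D σ = 0 := by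
    unfold Dom.Hterm
    rcases hc' : c.par with _ | c'
    · rfl
    · have : D.hcap p σ = 1 := hσ
      rw [Option.elim_some, chi_eq_zero hr (by linarith [hpar c' hc']), this]
      simp
  have e2 := (Dom.Hterm_bounds (p := p) c.par D x).1
  have e4 := Dom.cut_rec hr hG hD x σ
  have e5 := Level_Vdiff (p := p) c m D σ x (some none)
  rw [Level_diff hr hG]
  simp only [tb σ hσ, tb x hx1, min_self, ite_mul, one_mul, zero_mul, sum_ite_eq', mem_univ,
    if_true, sub_self, reduceCtorEq, if_false, add_zero] at e4 e5 ⊢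
  change _ = (D.child (some none)).Diff p D.ctr σ x at e5
  linarith

end Crest.Agent.R314
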