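import Crest.Agent.R314.Tr

/-! Positions: cardinality, cover of the request, cost of changing the integral allocation. -/

set_option autoImplicit false
set_option linter.unusedSectionVars false

namespace Crest.Agent.R314

open Finset

variable {Λ X : Type} [Fintype Λ] [DecidableEq Λ] [MetricSpace X]

theorem card_pos (r0 : ℝ) : ∀ {n : ℕ} (N : NT Λ n) (H : HT Λ X n) (a : X),
    (pos r0 N H a).card = N.tot := by
  intro n
  induction n with
  | zero => exact fun N H a => Multiset.card_replicate _ _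
  | succ n ih =>
    intro N H a
    show Multiset.card (Multiset.replicate N.1 a +
      ∑ c, pos r0 (N.2 c) (H.2 c).2 (clip (2 * rr r0 (n + 1)) a (H.2 c).1)) =
        N.1 + ∑ c, NT.tot (N.2 c)
    rw [Multiset.card_add, Multiset.card_replicate, Multiset.card_sum]
    exact congrArg _ (sum_congr rfl fun c _ => ih _ _ _)

theorem posA_rr_pos {r0 : ℝ} (hr : 0 < r0) (n : ℕ) : 0 < rr r0 n :=
  mul_pos hr (pow_pos (show (0 : ℝ) < 65536 by norm_num) n)

theorem posA_rr_succ (r0 : ℝ) (n : ℕ) : rr r0 (n + 1) = tau * rr r0 n := by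
  show r0 * tau ^ (n + 1) = tau * (r0 * tau ^ n)
  ring

theorem posA_rr_le {r0 : ℝ} (hr : 0 < r0) (n : ℕ) : rr r0 n ≤ rr r0 (n + 1) := by
  rw [posA_rr_succ]
  exact le_mul_of_one_le_left (posA_rr_pos hr n).le (show (1 : ℝ) ≤ 65536 by norm_num)

theorem posA_near {r0 : ℝ} {n : ℕ} {H : HT Λ X n} {y a : X} (h : Near r0 H y a) :
    dist y a ≤ rr r0 n := by
  cases n with
  | zero => exact h
  | succ n => exact h.1

theorem posA_clip {ρ : ℝ} (hρ : 0 ≤ ρ) (a z : X) : dist (clip ρ a z) a ≤ ρ := by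
  show dist (if dist a z ≤ ρ then z else a) a ≤ ρ
  split_ifs with h
  · rwa [dist_comm]
  · rwa [dist_self]

theorem posA_pos {M : ℕ} {f : Fin M → ℕ} (h : Bal1 f) (hs : M ≤ ∑ m, f m) (m : Fin M) :
    f m ≠ 0 := fun h0 => by
  have h1 : ∑ m', f m' < ∑ _m' : Fin M, 1 :=
    sum_lt_sum (fun m' _ => by simpa [h0] using h m' m) ⟨m, mem_univ _, by omega⟩
  simp only [sum_const, card_univ, Fintype.card_fin, smul_eq_mul, mul_one] at h1
  omega

/-- a leaf holding at least one unit is occupied in every copy -/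
theorem mem_pos {r0 : ℝ} (hr : 0 < r0) (hsep : ∀ x y : X, dist x y ≤ r0 → x = y) {M : ℕ} :
    ∀ {n : ℕ} (N : Fin M → NT Λ n) (A : AL Λ n) (_ : Bal N A) (H : HT Λ X n) (y a : X)
      (_ : Near r0 H y a) (_ : 1 ≤ A.leaf (H.lab y)) (m : Fin M), y ∈ pos r0 (N m) H a := by
  intro n
  induction n with
  | zero =>
    intro N A hB H y a hN hA m
    have h1 : dist y a ≤ r0 * tau ^ 0 := hN
    have h2 : 1 ≤ AL.val A := hA
    refine Multiset.mem_replicate.2 ⟨posA_pos hB.1 ?_ m, hsep _ _ (by simpa using h1)⟩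
    rw [hB.2]
    exact Nat.le_floor (le_mul_of_one_le_right (Nat.cast_nonneg M) h2)
  | succ n ih =>
    intro N A hB H y a hN hA m
    have h1 : clip (2 * rr r0 (n + 1)) a (H.2 (H.1 y)).1 = (H.2 (H.1 y)).1 := by
      refine if_pos ((dist_triangle_left _ _ y).trans ?_)
      linarith [hN.1, posA_near hN.2, posA_rr_le hr n]
    refine Multiset.mem_add.2 (Or.inr (Multiset.mem_sum.2 ⟨H.1 y, mem_univ _, ?_⟩))
    rw [h1]
    exact ih (fun m => (N m).2 (H.1 y)) (A.2 (H.1 y)) (hB.2.2.2 _) _ y _ hN.2 hA m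

theorem posA_move_le {P P' : Multiset X} {t t' : ℕ} (h : t ≤ t') {a z : X} {s ρ : ℝ}
    (hz : dist z a ≤ ρ) (hT : Tr (P + Multiset.replicate t' z) (P' + Multiset.replicate t z) s) :
    Tr (P + Multiset.replicate t' a) (P' + Multiset.replicate t a) (s + |(t : ℝ) - t'| * ρ) := by
  obtain ⟨j, rfl⟩ := Nat.exists_eq_add_of_le' h
  rw [Multiset.replicate_add, ← add_assoc] at hT ⊢
  have h1 := (((Tr.refl P).add (Tr.replicate j z a).symm).trans (hT.cancel_add _)).add
    (Tr.refl (Multiset.replicate t a))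
  refine h1.mono ?_
  have h2 : |(t : ℝ) - (j + t : ℕ)| = j := by
    rw [Nat.cast_add, sub_add_cancel_right, abs_neg, Nat.abs_cast]
  rw [h2]
  linarith [mul_le_mul_of_nonneg_left hz (Nat.cast_nonneg (α := ℝ) j)]

theorem posA_move {P P' : Multiset X} {t t' : ℕ} {a z : X} {s ρ : ℝ}
    (hz : dist z a ≤ ρ) (hT : Tr (P + Multiset.replicate t' z) (P' + Multiset.replicate t z) s) :
    Tr (P + Multiset.replicate t' a) (P' + Multiset.replicate t a) (s + |(t : ℝ) - t'| * ρ) := by
  rcases le_total t t' with h | h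
  · exact posA_move_le h hz hT
  · rw [abs_sub_comm]
    exact (posA_move_le h hz hT.symm).symm

theorem posA_sum_replicate {ι : Type} (S : Finset ι) (f : ι → ℕ) (a : X) :
    ∑ c ∈ S, Multiset.replicate (f c) a = Multiset.replicate (∑ c ∈ S, f c) a := by
  simp only [← Multiset.nsmul_singleton, sum_nsmul_assoc]

/-- changing the integral allocation inside a fixed partition -/
theorem tr_pos_alloc {r0 : ℝ} (hr : 0 < r0) : ∀ {n : ℕ} (N N' : NT Λ n) (H : HT Λ X n) (a : X),
    Tr (pos r0 N H a + Multiset.replicate N'.tot a) (pos r0 N' H a + Multiset.replicate N.tot a)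
      (2 * tau * NT.dist r0 N N') := by
  intro n
  induction n with
  | zero =>
    intro N N' H a
    show Tr (Multiset.replicate N.tot a + Multiset.replicate N'.tot a)
      (Multiset.replicate N'.tot a + Multiset.replicate N.tot a) (2 * tau * 0)
    rw [mul_zero, add_comm]
    exact Tr.refl _
  | succ n ih =>
    intro N N' H a
    have h1 := Tr.sum univ fun c _ => posA_move
      (posA_clip (mul_pos two_pos (posA_rr_pos hr (n + 1))).le a (H.2 c).1)
      (ih (N.2 c) (N'.2 c) (H.2 c).2 _)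
    have h2 := (Tr.refl (Multiset.replicate N.1 a + Multiset.replicate N'.1 a)).add h1
    rw [sum_add_distrib, sum_add_distrib, posA_sum_replicate, posA_sum_replicate] at h2
    show Tr (Multiset.replicate N.1 a +
        ∑ c, pos r0 (N.2 c) (H.2 c).2 (clip (2 * rr r0 (n + 1)) a (H.2 c).1) +
        Multiset.replicate (N'.1 + ∑ c, NT.tot (N'.2 c)) a)
      (Multiset.replicate N'.1 a +
        ∑ c, pos r0 (N'.2 c) (H.2 c).2 (clip (2 * rr r0 (n + 1)) a (H.2 c).1) +
        Multiset.replicate (N.1 + ∑ c, NT.tot (N.2 c)) a)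
      (2 * tau * ∑ c, (rr r0 n * |(NT.tot (N.2 c) : ℝ) - NT.tot (N'.2 c)| +
        NT.dist r0 (N.2 c) (N'.2 c)))
    rw [Multiset.replicate_add, Multiset.replicate_add, add_add_add_comm,
      add_add_add_comm (Multiset.replicate N'.1 a), add_comm (Multiset.replicate N'.1 a)]
    refine h2.mono (le_of_eq ?_)
    rw [zero_add, mul_sum]
    refine sum_congr rfl fun c _ => ?_
    rw [posA_rr_succ]
    ring

end Crest.Agent.R314
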