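import Crest.Agent.R314.Inh
import Crest.Agent.R314.Flat

/-! Module C: recentring: links are short. -/

set_option autoImplicit false
set_option linter.unusedSectionVars false

namespace Crest.Agent.R314

open Finset 

variable {X : Type} [MetricSpace X] [Fintype X] [DecidableEq X] [Nonempty X] {p : Par} {n : ℕ}
  {t : Tol} {σ : X} {c : Ctx X} {m : X → ℝ}

namespace Dom

/-- the loss of the shell when the heir captures with probability `s` -/
noncomputable def Recenter_sh (p : Par) (D : Dom X (n + 1)) (y : X) (s : ℝ) : ℝ :=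
  (1 - s - ∑ z, D.tc p z y) * (D.lv0 p none y + D.next.LV p y) +
    ∑ z, D.tc p z y * (D.lv0 p (some (some z)) y + (D.child (some (some z))).LV p y)

theorem Recenter_hc {D : Dom X (n + 1)} {a : X} {E : Dom X n} (hq : D.heir = some (a, E)) (y : X) :
    D.hc p y = cap p n a y := by
  simp [hc, hq]

theorem Recenter_child {D : Dom X (n + 1)} {a : X} {E : Dom X n} (hq : D.heir = some (a, E)) :
    D.child (some none) = E := by
  simp [child, hq]

theorem Recenter_ctr {D : Dom X (n + 1)} {a : X} {E : Dom X n} (hq : D.heir = some (a, E)) :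
    D.ctr = some a := by
  simp [ctr, hq]

theorem Recenter_Wt {D : Dom X (n + 1)} {a : X} {E : Dom X n} (hq : D.heir = some (a, E)) :
    D.Wt = D.w := by
  funext l
  simp [Wt, hq]

theorem Recenter_len {D : Dom X (n + 1)} {a : X} {E : Dom X n} (hq : D.heir = some (a, E)) :
    D.len = lnk a E + E.len := by
  simp [len, hq]

theorem Recenter_bc {D : Dom X (n + 1)} {a : X} {E : Dom X n} (hq : D.heir = some (a, E)) (b : X) :
    bc b D = bc a E := by
  simp [bc, hq]

theorem Recenter_hanc {D : Dom X (n + 1)} {a : X} {E : Dom X n} (hq : D.heir = some (a, E)) :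
    D.hanc = bc a E := by
  simp [hanc, hq]

theorem Recenter_Links {D : Dom X (n + 1)} {a : X} {E : Dom X n} (hq : D.heir = some (a, E)) :
    lnk a E / 2 ^ n + E.Links ≤ D.Links := by
  have h1 := Links_nonneg D.next
  have h2 : 0 ≤ ∑ z, (D.top z).elim 0 fun q => Links q.2 := sum_nonneg fun z _ => by
    cases D.top z
    exacts [le_rfl, Links_nonneg _]
  simp only [Links, hq, Option.elim]
  exact (le_add_of_nonneg_right h1).trans (le_add_of_nonneg_right h2)

theorem Recenter_sh_eq (hr : 0 < p.r0) {D : Dom X (n + 1)} (h : D.Valid p) (y : X) :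
    Recenter_sh p D y (D.hc p y) = (1 - D.hc p y) * Recenter_sh p D y 0 := by
  rcases (D.hc_nonneg (p := p) y).eq_or_lt with h0 | h0
  · rw [← h0, sub_zero, one_mul]
  · have h1 : ∀ z, D.tc p z y = 0 := fun z => by
      refine le_antisymm (not_lt.1 fun h2 => ?_) (h.tb_nonneg hr (some (some z)) y)
      cases h.mark_unique hr (o := none) (o' := some z) h0 h2
    simp [Recenter_sh, h1]

theorem Recenter_LV_none {D : Dom X (n + 1)} (hq : D.heir = none) (y : X) :
    D.LV p y = Recenter_sh p D y 0 := by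
  simp [LV, Fintype.sum_option, tb, gau, hc, hq, Recenter_sh, child]

theorem Recenter_LV (hr : 0 < p.r0) {D : Dom X (n + 1)} (h : D.Valid p) {a : X} {E : Dom X n}
    (hq : D.heir = some (a, E)) (y : X) :
    D.LV p y = -p.nrm (n + 1) D.w + cap p n a y * (p.nrm n E.Wt + E.LV p y) +
      (1 - cap p n a y) * (p.nrm (n + 1) D.Wsh + Recenter_sh p D y 0) := by
  have h1 := Recenter_sh_eq hr h y
  rw [Recenter_hc hq] at h1
  rw [mul_add (1 - _), ← h1]
  simp only [LV, Fintype.sum_option, tb, gau, hq, Recenter_hc hq, Recenter_child hq, Recenter_sh,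
    Option.isSome_some, if_true, add_assoc, mul_add (D.tc p _ y) (p.nrm _ _), sum_add_distrib,
    ← sum_mul]
  simp only [lv0, child]
  ring

theorem Recenter_PV (hr : 0 < p.r0) (hG : 1 ≤ p.G) {D : Dom X (n + 1)} (h : D.Valid p) {a : X}
    {E : Dom X n} (hq : D.heir = some (a, E)) (y : X) :
    cap p n a y * (Hterm p (some a) E y + E.PV p y) +
      (1 - cap p n a y) * (C3 * (lnk a E + E.len)) ≤ D.PV p y := by
  have h1 : ∀ b, b ≠ some none → D.tb p b y * (C3 * (lnk a E + E.len)) ≤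
      D.tb p b y * (D.pv p b y + (D.child b).PV p y) := fun b hb => by
    refine mul_le_mul_of_nonneg_left ?_ (h.tb_nonneg hr b y)
    have h2 := ((h.child b).PV_bounds hr hG y).1
    have h3 : 0 ≤ Gam * p.r n := mul_nonneg (by unfold Gam; positivity) (Par.r_pos hr n).le
    have h4 : D.pv p b y = Gam * p.r n + C3 * D.len := by
      rcases b with _ | _ | z
      exacts [rfl, absurd rfl hb, rfl]
    rw [h4, Recenter_len hq]
    linarith
  have h2 := h1 none (by simp)
  have h3 := sum_le_sum fun z (_ : z ∈ univ) => h1 (some (some z)) (by simp)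
  have h4 : D.PV p y = ∑ b, D.tb p b y * (D.pv p b y + (D.child b).PV p y) := rfl
  have h5 : D.pv p (some none) y = Hterm p D.ctr (D.child (some none)) y := rfl
  rw [h4, Fintype.sum_option, Fintype.sum_option, h5, Recenter_ctr hq, Recenter_child hq]
  rw [← sum_mul] at h3
  simp only [tb, Recenter_hc hq] at h2 h3 ⊢
  linarith

theorem Recenter_dlt (hr : 0 < p.r0) (hG : 1 ≤ p.G) {D D' : Dom X (n + 1)} (h : D.Valid p)
    (h' : D'.Valid p) {y : X} (ht : D'.hc p y = D.hc p y) (ha : D.hanc = D'.hanc) :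
    dlt p D D' y 0 ≤ D.hc p y * dlt p (D.child (some none)) (D'.child (some none)) y 0 +
      (1 - D.hc p y) * (4 * p.S n + 8 * p.r n) := by
  have hS := Par.S_nonneg hr n
  have hR := Par.r_pos hr n
  have h0 : ∀ b, 0 ≤ min (D.tb p b y) (D'.tb p b y) := fun b =>
    le_min (h.tb_nonneg hr b y) (h'.tb_nonneg hr b y)
  have h1 : ∀ b, b ≠ some none → min (D.tb p b y) (D'.tb p b y) *
      dlt p (D.child b) (D'.child b) y (max 0 (bdist D D' b)) ≤ D.tb p b y * (4 * p.S n) :=
    fun b hb => by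
      have h2 : bdist D D' b = 0 := by
        rcases b with _ | _ | z
        exacts [rfl, absurd rfl hb, rfl]
      have h3 := dlt_crude hr hG (h.child b) (h'.child b) y le_rfl
      rw [h2, max_self]
      exact mul_le_mul (min_le_left _ _) (by linarith) (le_dlt hr hG _ _ y 0) (h.tb_nonneg hr b y)
  have h2 := h1 none (by simp)
  have h3 := sum_le_sum fun z (_ : z ∈ univ) => h1 (some (some z)) (by simp)
  have h4 := sum_nonneg fun z (_ : z ∈ univ) => h0 (some (some z))
  have h5 := h0 none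
  have h6 : min (D.tb p (some none) y) (D'.tb p (some none) y) = D.hc p y := by
    simp only [tb, ht, min_self]
  have h7 : bdist D D' (some none) = 0 := by simp only [bdist, ha, dist_self]
  have h8 : min (D.tb p none y) (D'.tb p none y) * (dwin p n D.nu y D'.nu y * (4 * p.r n)) ≤
      (1 - D.hc p y) * (4 * p.r n) := by
    have h9 := dwin_bounds hr hG (n := n) (y := y) (y' := y) (fun z => (h.2.1 z).le)
      (fun z => (h'.2.1 z).le)
    have h10 := sum_nonneg fun z (_ : z ∈ univ) => h.tb_nonneg hr (some (some z)) y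
    refine mul_le_mul ((min_le_left _ _).trans ?_) (by nlinarith) (by nlinarith)
      (sub_nonneg.2 (D.hc_le_one y))
    simp only [tb] at h10 ⊢
    linarith
  refine (dlt_rec hr hG h h' y le_rfl).trans ?_
  rw [← sum_mul] at h3
  rw [Fintype.sum_option, Fintype.sum_option, Fintype.sum_option, Fintype.sum_option, h6, h7,
    max_self]
  have h9 : D.tb p none y * (4 * p.S n) =
      (1 - D.hc p y - ∑ z, D.tb p (some (some z)) y) * (4 * p.S n) := rfl
  linarith [mul_nonneg h4 hR.le, mul_nonneg h5 hR.le]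

end Dom

/-- the change of the link penalty of the parent -/
theorem Recenter_par (hr : 0 < p.r0) {a a₀ a₁ y : X} (h0 : dist a a₀ ≤ p.r (n + 1) / 32)
    (h1 : dist a₀ a₁ ≤ p.r n / 16) :
    dist a a₁ * (C1 * chi p (n + 1) a y + C2 * (1 - cap p n a₁ y)) ≤
      dist a a₀ * (C1 * chi p (n + 1) a y + C2 * (1 - cap p n a₀ y)) + dist a₀ a₁ *
        ((1 - cap p n a₀ y) * (C1 + C2) + cap p n a₀ y * (C1 * chi p n a₀ y)) := by
  have hR := Par.r_pos hr n
  have hs := p.r_succ n
  have t1 := dist_triangle a a₀ a₁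
  have t2 := dist_triangle_right y a a₀
  have t3 := dist_triangle y a₀ a₁
  have t4 := dist_triangle_right y a₀ a₁
  have t5 := dist_triangle y a₀ a
  have hL : 0 ≤ dist a₀ a₁ := dist_nonneg
  have hl : 0 ≤ dist a a₀ := dist_nonneg
  have c0 := chi_nonneg (p := p) (n := n + 1) a y
  have c1 := chi_le_one (p := p) (n := n + 1) a y
  rw [dist_comm a₀ a] at t5
  rcases le_total (dist y a) (p.r (n + 1) / 8) with h2 | h2
  · rw [chi_eq_zero hr h2]
    rcases le_total (dist y a₀) (3 * p.r n / 16) with h3 | h3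
    · rw [cap_eq_one hr (c := a₀) (by linarith), cap_eq_one hr (c := a₁) (by linarith)]
      have := chi_nonneg (p := p) (n := n) a₀ y
      unfold C1 C2
      nlinarith [mul_nonneg hL this]
    · rw [chi_eq_one hr h3]
      have h4 := (abs_le.1 (cap_lip hr (n := n) a₀ a₁ y y)).2
      have h5 : |dist y a₀ - dist y a₁| ≤ dist a₀ a₁ := abs_le.2 ⟨by linarith, by linarith⟩
      have h6 : dist a a₀ * (cap p n a₀ y - cap p n a₁ y) ≤ 28672 * dist a₀ a₁ :=
        calc _ ≤ dist a a₀ * (14 * dist a₀ a₁ / p.r n) :=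
              mul_le_mul_of_nonneg_left (h4.trans (by gcongr)) hl
          _ ≤ 2048 * p.r n * (14 * dist a₀ a₁ / p.r n) := by
              gcongr
              linarith
          _ = _ := by field_simp; ring
      have h7 := cap_nonneg (p := p) (n := n) a₁ y
      have h8 := cap_le_one (p := p) (n := n) a₁ y
      have h9 := cap_le_one (p := p) (n := n) a₀ y
      unfold C1 C2
      nlinarith [mul_nonneg hL h7, mul_nonneg hL (sub_nonneg.2 h9),
        mul_le_mul_of_nonneg_right t1 (sub_nonneg.2 h8)]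
  · rw [cap_eq_zero hr (c := a₀) (by linarith), cap_eq_zero hr (c := a₁) (by linarith)]
    unfold C1 C2
    nlinarith [mul_le_mul_of_nonneg_right t1 c0, mul_le_mul_of_nonneg_left c1 hL]

open Dom in
/-- the pointwise comparison of a state with its recentred version -/
theorem Recenter_val (hr : 0 < p.r0) (hG : 1 ≤ p.G) {D : Dom X (n + 2)} (h : D.Valid p) {a₀ a₁ : X}
    {D₁ : Dom X (n + 1)} {D₂ : Dom X n} (hq : D.heir = some (a₀, D₁)) (hq₁ : D₁.heir = some (a₁, D₂))
    (hL : p.r (n + 1) / 32 ≤ dist a₀ a₁) {par : Option X} (hp : lnkO par D ≤ p.r (n + 2) / 32) :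
    ∃ f : ℕ → X → ℝ, (∀ l z, 0 < f l z) ∧ ∀ y,
      Val p par (heirOf a₁ D.w f (heirOf a₁ D₁.w f D₂)) y +
        dlt p D (heirOf a₁ D.w f (heirOf a₁ D₁.w f D₂)) y 0 ≤ Val p par D y := by
  obtain ⟨v₁, hL', hsep⟩ := h.2.2.2.2.2 _ hq
  obtain ⟨v₂, hl₂, -⟩ := v₁.2.2.2.2.2 _ hq₁
  have e₁ : lnk a₀ D₁ = dist a₀ a₁ := by simp [lnk, Recenter_ctr hq₁]
  simp only [e₁] at hL' v₁ v₂ hl₂ hsep
  have hR := Par.r_pos hr (n + 1)
  have hρ := Par.r_pos hr n
  have hs := p.r_succ n
  have hS := p.S_succ (n + 1)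
  have hS₁ := p.S_succ n
  have hS₂ := Par.S_le hr (n + 1)
  have hS₃ := Par.S_nonneg hr n
  set D₁o : Dom X (n + 1) := mk none D₁.w D₁.nu D₁.top D₁.next with hD₁o
  have v₁o : D₁o.Valid p := ⟨v₁.1, v₁.2.1, v₁.2.2.1, v₁.2.2.2.1, v₁.2.2.2.2.1, fun _ h => by cases h⟩
  set Do : Dom X (n + 2) := mk (some (a₀, D₁o)) (fun _ => 1) D.nu D.top D.next with hDo
  have vo : Do.Valid p := ⟨fun _ => one_pos, h.2.1, h.2.2.1, h.2.2.2.1, h.2.2.2.2.1, fun _ h => by
    cases h
    exact ⟨v₁o, (by positivity : (0 : ℝ) ≤ _), hsep⟩⟩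
  have hf := vo.flat_pos
  have h1 : ∀ j, p.nrm j (fun _ => 1) = 0 := fun j => by simp [Par.nrm]
  have hf1 : ∀ l, l < n + 2 → ∑ z, Do.flat l z = 1 := fun l hl => vo.sum_flat hl
  refine ⟨Do.flat, hf, fun y => ?_⟩
  set E := heirOf a₁ D₁.w Do.flat D₂ with hE
  have vE : E.Valid p := heirOf_valid hr hG v₁.1 (fun l _ => hf l) v₂ hl₂
  have eE : lnk a₁ E = 0 := by simp [lnk, hE, heirOf_ctr]
  have v' : (heirOf a₁ D.w Do.flat E).Valid p :=
    heirOf_valid hr hG h.1 (fun l _ => hf l) vE (by rw [eE]; positivity)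
  have l₀ := Recenter_LV hr h hq y
  have l₁ := Recenter_LV hr v₁ hq₁ y
  have l₂ : Do.LV p y = -p.nrm (n + 2) (fun _ => 1) +
      cap p (n + 1) a₀ y * (p.nrm (n + 1) D₁.Wsh + D₁o.LV p y) +
      (1 - cap p (n + 1) a₀ y) * (p.nrm (n + 2) D.Wsh + Recenter_sh p D y 0) :=
    Recenter_LV hr vo rfl y
  have l₃ : D₁o.LV p y = Recenter_sh p D₁ y 0 := Recenter_LV_none rfl y
  have l₄ := heirOf_LV hr hG a₁ D.w Do.flat E y
  have l₅ := heirOf_LV hr hG a₁ D₁.w Do.flat D₂ y
  have l₆ := vo.PL_flat hr hG y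
  have l₇ := nrm_add_PL_mono hr hG (y := y) (fun l _ z => (hf l z).le) (fun l _ => hf l y)
    (fun l hl => (hf1 l hl).le) (Nat.le_succ (n + 1))
  rw [p.nrm_congr hf1, h1, heirOf_Wt] at l₄
  rw [p.nrm_congr fun l hl => hf1 l (hl.trans (Nat.lt_succ_self _)), h1, ← hE] at l₅
  rw [h1, h1] at l₇
  rw [h1, l₃] at l₂
  rw [Recenter_Wt hq₁] at l₀
  have p₀ := Recenter_PV hr hG h hq y
  have p₁ := Recenter_PV hr hG v₁ hq₁ y
  have p₂ := heirOf_PV hr hG a₁ D.w Do.flat E y
  have p₃ := heirOf_PV hr hG a₁ D₁.w Do.flat D₂ y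
  have p₄ : Hterm p (some a₀) D₁ y =
      dist a₀ a₁ * (C1 * chi p (n + 1) a₀ y + C2 * (1 - cap p n a₁ y)) := by
    simp only [Hterm, Option.elim, e₁, hcap, Recenter_hc hq₁]
  have p₅ : Hterm p (some a₁) E y = 0 := by simp only [Hterm, Option.elim, eE, zero_mul]
  have p₆ : Hterm p par (heirOf a₁ D.w Do.flat E) y ≤ Hterm p par D y + dist a₀ a₁ *
      ((1 - cap p (n + 1) a₀ y) * (C1 + C2) + cap p (n + 1) a₀ y * (C1 * chi p (n + 1) a₀ y)) := by
    rcases par with _ | a
    · have := cap_nonneg (p := p) (n := n + 1) a₀ y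
      have := sub_nonneg.2 (cap_le_one (p := p) (n := n + 1) a₀ y)
      have := chi_nonneg (p := p) (n := n + 1) a₀ y
      simp only [Hterm, Option.elim, zero_add]
      unfold C1 C2
      positivity
    · simp only [lnkO, Option.elim, lnk, Recenter_ctr hq] at hp
      simp only [Hterm, Option.elim, lnk, Recenter_ctr hq, heirOf_ctr, hcap, Recenter_hc hq,
        Recenter_hc (show (heirOf a₁ D.w Do.flat E).heir = some (a₁, E) from rfl)]
      exact Recenter_par hr hp hL'
  rw [e₁, p₄, Recenter_len hq₁] at p₀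
  rw [eE, p₅, hE, heirOf_len, ← hE] at p₂
  rw [← hE] at p₃
  unfold Val
  have t₂ := sub_nonneg.2 (cap_le_one (p := p) (n := n) a₁ y)
  rcases (cap_nonneg (p := p) (n := n) a₁ y).eq_or_lt with h0 | h0
  · have d₀ := dlt_crude hr hG h v' y le_rfl
    have t₀ := cap_nonneg (p := p) (n := n + 1) a₁ y
    rw [← h0] at l₁ l₅ p₀ p₁ p₃
    have k₁ := mul_le_mul_of_nonneg_left l₇ t₀
    have k₂ := mul_le_mul_of_nonneg_left p₁ (cap_nonneg (p := p) (n := n + 1) a₀ y)
    have k₃ := mul_nonneg t₀ hR.le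
    rw [l₁] at l₀
    rw [l₅] at l₄
    rw [p₃, hS] at p₂
    unfold C3 C1 C2 Gam at *
    linarith
  · have h2 : dist y a₁ < p.r n / 2 := not_le.1 fun h2 => h0.ne' (cap_eq_zero hr h2)
    have h3 := dist_triangle_right y a₀ a₁
    have h4 : cap p (n + 1) a₀ y = 1 := cap_eq_one hr (by linarith)
    have h5 : cap p (n + 1) a₁ y = 1 := cap_eq_one hr (by linarith)
    have q' : (heirOf a₁ D.w Do.flat E).heir = some (a₁, E) := rfl
    have qE : E.heir = some (a₁, D₂) := rfl
    have d₀ := Recenter_dlt hr hG h v' (y := y) (by rw [Recenter_hc hq, Recenter_hc q', h4, h5])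
      (by rw [Recenter_hanc hq, Recenter_hanc q', Recenter_bc hq₁, Recenter_bc qE])
    have d₁ := Recenter_dlt hr hG v₁ vE (y := y) (by rw [Recenter_hc hq₁, Recenter_hc qE])
      (by rw [Recenter_hanc hq₁, Recenter_hanc qE])
    rw [Recenter_hc hq, Recenter_child hq, Recenter_child q', h4] at d₀
    rw [Recenter_hc hq₁, Recenter_child hq₁, Recenter_child qE, dlt_self hr hG _ _ le_rfl] at d₁
    rw [h4] at l₀ l₂ p₀ p₆
    rw [h5] at l₄ p₂
    have k₁ := mul_le_mul_of_nonneg_left (l₇.trans ((zero_add _).le.trans l₆)) t₂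
    have k₂ := mul_le_mul_of_nonneg_left (show 4 * p.S n + 8 * p.r n + 6 * p.S (n + 2) +
      Gam * p.S (n + 1) ≤ C2 * dist a₀ a₁ by unfold Gam C2; linarith) t₂
    rw [l₂] at k₁
    linarith

open Dom in
theorem Sit0.recenter {D : Dom X (n + 1)} (h : Sit0 p t c m D) {q : X × Dom X n}
    (hq : D.heir = some q) : Dom.lnk q.1 q.2 ≤ p.r n / 32 := by
  have hr := h.hyp.r0_pos
  have hG := h.hyp.G_pos
  obtain ⟨a₀, D₁⟩ := q
  rcases n with _ | n
  · exact div_nonneg (Par.r_pos hr 0).le (by norm_num)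
  have hR := Par.r_pos hr (n + 1)
  rcases hq₁ : D₁.heir with _ | ⟨a₁, D₂⟩
  · simp only [lnk, ctr, hq₁, Option.map_none, Option.elim]
    positivity
  have e₁ : lnk a₀ D₁ = dist a₀ a₁ := by simp [lnk, Recenter_ctr hq₁]
  rw [e₁]
  refine not_lt.1 fun hL => ?_
  obtain ⟨f, hf, hv⟩ := Recenter_val hr hG h.vc.1 hq hq₁ hL.le h.plink
  obtain ⟨v₁, hL', -⟩ := h.vc.1.2.2.2.2.2 _ hq
  obtain ⟨v₂, hl₂, -⟩ := v₁.2.2.2.2.2 _ hq₁
  simp only [e₁] at hL' v₁ v₂ hl₂
  set E := heirOf a₁ D₁.w f D₂ with hE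
  have vE : E.Valid p := heirOf_valid hr hG v₁.1 (fun l _ => hf l) v₂ hl₂
  have eE : lnk a₁ E = 0 := by simp [lnk, hE, heirOf_ctr]
  have v' : (heirOf a₁ D.w f E).Valid p :=
    heirOf_valid hr hG h.vc.1.1 (fun l _ => hf l) vE (by rw [eE]; positivity)
  have q' : (heirOf a₁ D.w f E).heir = some (a₁, E) := rfl
  have qE : E.heir = some (a₁, D₂) := rfl
  have hl : lnkO c.par (heirOf a₁ D.w f E) ≤ lnkO c.par D + dist a₀ a₁ := by
    rcases c.par with _ | a
    · simp [lnkO]
    · simp only [lnkO, Option.elim, lnk, Recenter_ctr hq, heirOf_ctr]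
      exact dist_triangle _ _ _
  have ha : adist c.par D (heirOf a₁ D.w f E) = 0 := by
    rcases c.par with _ | a
    · rfl
    · simp only [adist, Option.elim, Recenter_bc hq, Recenter_bc hq₁, Recenter_bc q',
        Recenter_bc qE, dist_self]
  have hs := p.r_succ (n + 1)
  have hp := h.plink
  have he := h.eq _ ⟨v', h.vc.2.1.imp_right fun h' => by simp [Recenter_ctr hq] at h', by linarith⟩
  have h1 := sum_le_sum fun y (_ : y ∈ univ) => mul_le_mul_of_nonneg_left (hv y) (h.m_nonneg y)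
  simp only [mul_add, sum_add_distrib] at h1
  have h2 := Recenter_Links hq
  have h3 := Recenter_Links hq₁
  have h4 : c.P * (C3 * lnkO c.par (heirOf a₁ D.w f E)) ≤
      c.P * (C3 * (lnkO c.par D + dist a₀ a₁)) :=
    mul_le_mul_of_nonneg_left (mul_le_mul_of_nonneg_left hl (by unfold C3 C1 C2; positivity))
      h.P_nonneg
  have h5 : p.r0 / 64 < dist a₀ a₁ / 2 ^ (n + 2) := by
    have h6 : p.r0 * 2 ^ (n + 1) ≤ p.r (n + 1) :=
      mul_le_mul_of_nonneg_left (pow_le_pow_left₀ zero_le_two (by unfold tau; norm_num) _) hr.le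
    rw [lt_div_iff₀ (by positivity), pow_succ]
    linarith
  have h6 : lnkO c.par (heirOf a₁ D.w f E) / 2 ^ (n + 2) ≤
      lnkO c.par D / 2 ^ (n + 2) + dist a₀ a₁ / 2 ^ (n + 2) := by
    rw [← add_div]
    gcongr
  have h7 : dist a₀ a₁ / 2 ^ (n + 1) = 2 * (dist a₀ a₁ / 2 ^ (n + 2)) := by
    field_simp
    ring
  have h8 : t.η * 64 ≤ t.κ * p.r0 := by
    refine le_trans (mul_le_mul_of_nonneg_left ?_ h.tol.η_nonneg) h.tol.η_le
    have : (1 : ℝ) ≤ p.G := by exact_mod_cast hG
    nlinarith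
  have h9 := mul_lt_mul_of_pos_left (show (heirOf a₁ D.w f E).Links +
      lnkO c.par (heirOf a₁ D.w f E) / 2 ^ (n + 2) + p.r0 / 64 <
        D.Links + lnkO c.par D / 2 ^ (n + 2) by
    rw [heirOf_Links, eE, zero_div, hE, heirOf_Links, ← hE]
    rw [e₁] at h2
    linarith) h.tol.κ_pos
  simp only [obj, ha, heirOf_Wt, Recenter_Wt hq, Recenter_len hq, Recenter_len hq₁,
    Recenter_len q', Recenter_len qE, eE, e₁] at he
  linarith

end Crest.Agent.R314
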