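import Crest.Agent.R314.Basic

/-!
Module A, part 1: elementary facts on `pathCost` / `dcost`, and the reset argument which removes
the additive constant of the Bayesian bound.
-/

set_option autoImplicit false
open Crest.LogicCS.KServer

namespace Crest.Agent.R314

variable {X : Type*} {k : ℕ}

/-- The configuration after a service. -/
def redEnd : (Fin k → X) → List (X × Fin k) → (Fin k → X)
  | c, [] => c
  | c, (r, i) :: rest => redEnd (Function.update c i r) rest

/-- The service made by a deterministic algorithm. -/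
def redRun : (List X → Fin k) → List X → List (X × Fin k)
  | _, [] => []
  | a, x :: σ => (x, a [x]) :: redRun (fun l => a (x :: l)) σ

theorem redEnd_append (c : Fin k → X) (v w : List (X × Fin k)) :
    redEnd c (v ++ w) = redEnd (redEnd c v) w := by
  induction v generalizing c with
  | nil => rfl
  | cons p v ih => exact ih _

theorem redRun_append (a : List X → Fin k) (σ τ : List X) :
    redRun a (σ ++ τ) = redRun a σ ++ redRun (fun l => a (σ ++ l)) τ := by
  induction σ generalizing a with
  | nil => rfl
  | cons x σ ih => simp only [List.cons_append, redRun, ih]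

theorem redRun_fst (a : List X → Fin k) (σ : List X) : (redRun a σ).map Prod.fst = σ := by
  induction σ generalizing a with
  | nil => rfl
  | cons x σ ih => simp only [redRun, List.map_cons, ih]

theorem redEnd_apply_of_not_mem (c : Fin k → X) (w : List (X × Fin k)) (i : Fin k)
    (h : ∀ p ∈ w, p.2 ≠ i) : redEnd c w i = c i := by
  induction w generalizing c with
  | nil => rfl
  | cons p w ih =>
    obtain ⟨r, l⟩ := p
    rw [redEnd, ih _ fun p hp => h p (List.mem_cons_of_mem _ hp),
      Function.update_of_ne (h _ List.mem_cons_self).symm]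

theorem redEnd_home (s c : Fin k → X) (w : List (X × Fin k)) (hw : ∀ p ∈ w, p.1 = s p.2)
    (i : Fin k) (hi : c i = s i ∨ ∃ p ∈ w, p.2 = i) : redEnd c w i = s i := by
  induction w generalizing c with
  | nil => simpa [redEnd] using hi
  | cons p w ih =>
    obtain ⟨r, l⟩ := p
    refine ih _ (fun p hp => hw p (List.mem_cons_of_mem _ hp)) ?_
    by_cases h : i = l
    · subst h
      exact Or.inl (by rw [Function.update_self]; exact hw _ List.mem_cons_self)
    · rw [Function.update_of_ne h]
      rcases hi with hi | ⟨p, hp, e⟩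
      · exact Or.inl hi
      · rcases List.mem_cons.1 hp with rfl | hp
        · exact absurd e.symm h
        · exact Or.inr ⟨p, hp, e⟩

variable [MetricSpace X]

/-- The labelled distance of two configurations. -/
def redD (c c' : Fin k → X) : ℝ := ∑ i, dist (c i) (c' i)

theorem redD_nonneg (c c' : Fin k → X) : 0 ≤ redD c c' := Finset.sum_nonneg fun _ _ => dist_nonneg
theorem redD_self (c : Fin k → X) : redD c c = 0 := by simp [redD]
theorem redD_comm (c c' : Fin k → X) : redD c c' = redD c' c :=
  Finset.sum_congr rfl fun _ _ => dist_comm _ _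
theorem redD_triangle (a b c : Fin k → X) : redD a c ≤ redD a b + redD b c := by
  rw [redD, redD, redD, ← Finset.sum_add_distrib]
  exact Finset.sum_le_sum fun i _ => dist_triangle _ _ _
theorem redD_update (c c' : Fin k → X) (i : Fin k) (r r' : X) :
    redD (Function.update c i r) (Function.update c' i r') + dist (c i) (c' i) =
      redD c c' + dist r r' := by
  rw [redD, redD, ← Finset.add_sum_erase _ _ (Finset.mem_univ i),
    ← Finset.add_sum_erase _ _ (Finset.mem_univ i), Function.update_self, Function.update_self,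
    Finset.sum_congr rfl (g := fun l => dist (c l) (c' l)) fun l hl => by
      rw [Function.update_of_ne (Finset.ne_of_mem_erase hl),
        Function.update_of_ne (Finset.ne_of_mem_erase hl)]]
  ring

theorem red_pathCost_nonneg (c : Fin k → X) (w : List (X × Fin k)) : 0 ≤ pathCost c w := by
  induction w generalizing c with
  | nil => exact le_rfl
  | cons p w ih => exact add_nonneg dist_nonneg (ih _)

theorem red_pathCost_append (c : Fin k → X) (v w : List (X × Fin k)) :
    pathCost c (v ++ w) = pathCost c v + pathCost (redEnd c v) w := by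
  induction v generalizing c with
  | nil => exact (zero_add _).symm
  | cons p v ih =>
    obtain ⟨r, i⟩ := p
    simp only [List.cons_append, pathCost, redEnd, ih, add_assoc]

theorem red_pathCost_lip (c c' : Fin k → X) (w : List (X × Fin k)) :
    pathCost c w ≤ pathCost c' w + redD c c' := by
  induction w generalizing c c' with
  | nil => simpa [pathCost] using redD_nonneg c c'
  | cons p w ih =>
    obtain ⟨r, i⟩ := p
    have h1 := ih (Function.update c i r) (Function.update c' i r)
    have h2 := redD_update c c' i r r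
    have h3 := dist_triangle (c i) (c' i) r
    rw [dist_self] at h2
    simp only [pathCost]
    linarith

theorem redD_end (c : Fin k → X) (w : List (X × Fin k)) : redD c (redEnd c w) ≤ pathCost c w := by
  induction w generalizing c with
  | nil => exact (redD_self c).le
  | cons p w ih =>
    obtain ⟨r, i⟩ := p
    have h1 := ih (Function.update c i r)
    have h2 := redD_update c c i (c i) r
    have h3 := redD_triangle c (Function.update c i r) (redEnd (Function.update c i r) w)
    rw [dist_self, redD_self, Function.update_eq_self] at h2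
    simp only [pathCost, redEnd]
    linarith

theorem red_pathCost_home (s c : Fin k → X) (w : List (X × Fin k)) (hw : ∀ p ∈ w, p.1 = s p.2) :
    pathCost c w + redD (redEnd c w) s ≤ redD c s := by
  induction w generalizing c with
  | nil => exact (zero_add _).le
  | cons p w ih =>
    obtain ⟨r, i⟩ := p
    have h1 := ih (Function.update c i r) fun p hp => hw p (List.mem_cons_of_mem _ hp)
    obtain rfl : r = s i := hw _ List.mem_cons_self
    have h2 := redD_update c s i (s i) (s i)
    rw [dist_self, Function.update_eq_self] at h2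
    simp only [pathCost, redEnd]
    linarith

theorem red_dcost_eq (a : List X → Fin k) (c : Fin k → X) (σ : List X) :
    dcost a c σ = pathCost c (redRun a σ) := by
  induction σ generalizing a c with
  | nil => rfl
  | cons x σ ih => simp only [dcost, redRun, pathCost, ih]

theorem red_dcost_append (a : List X → Fin k) (c : Fin k → X) (σ τ : List X) :
    dcost a c (σ ++ τ) =
      dcost a c σ + dcost (fun l => a (σ ++ l)) (redEnd c (redRun a σ)) τ := by
  simp only [red_dcost_eq, redRun_append, red_pathCost_append]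

theorem red_dcost_lip (a : List X → Fin k) (c c' : Fin k → X) (σ : List X) :
    dcost a c σ ≤ dcost a c' σ + redD c c' := by
  simp only [red_dcost_eq, red_pathCost_lip]

theorem red_dcost_perm (π : Equiv.Perm (Fin k)) (a : List X → Fin k) (c : Fin k → X)
    (σ : List X) : dcost a (c ∘ π) σ = dcost (fun l => π (a l)) c σ := by
  induction σ generalizing a c with
  | nil => rfl
  | cons x σ ih =>
    simp only [dcost, Function.comp_apply]
    rw [← ih, Function.update_comp_eq_of_injective _ π.injective]

/-- A service of cost less than the least positive distance moves nothing. -/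
theorem red_cheap {δ : ℝ} (hδ : ∀ x y : X, dist x y < δ → x = y) (c : Fin k → X)
    (w : List (X × Fin k)) (h : pathCost c w < δ) : ∀ p ∈ w, ∃ i, c i = p.1 := by
  induction w with
  | nil => simp
  | cons p w ih =>
    obtain ⟨r, i⟩ := p
    have h1 := red_pathCost_nonneg (Function.update c i r) w
    have h2 : 0 ≤ dist (c i) r := dist_nonneg
    simp only [pathCost] at h
    obtain rfl : c i = r := hδ _ _ (by linarith)
    rw [Function.update_eq_self] at h
    intro p hp
    rcases List.mem_cons.1 hp with rfl | hp
    · exact ⟨i, rfl⟩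
    · exact ih (by linarith) p hp

/-- `M` rounds of the requests `s 0, s 1, …`, each served by its own server. -/
def redReset (s : Fin k → X) : ℕ → List (X × Fin k)
  | 0 => []
  | M + 1 => List.ofFn (fun i => (s i, i)) ++ redReset s M

omit [MetricSpace X] in
theorem redReset_home (s : Fin k → X) (M : ℕ) : ∀ p ∈ redReset s M, p.1 = s p.2 := by
  induction M with
  | zero => simp [redReset]
  | succ M ih =>
    intro p hp
    rcases List.mem_append.1 hp with hp | hp
    · obtain ⟨i, rfl⟩ := List.mem_ofFn.1 hp
      rfl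
    · exact ih p hp

omit [MetricSpace X] in
theorem redReset_end (s c : Fin k → X) (M : ℕ) : redEnd c (redReset s (M + 1)) = s := by
  funext i
  exact redEnd_home s c _ (redReset_home s _) i
    (Or.inr ⟨(s i, i), List.mem_append_left _ (List.mem_ofFn.2 ⟨i, rfl⟩), rfl⟩)

theorem red_reset_or {δ : ℝ} (hδ : ∀ x y : X, dist x y < δ → x = y) {s : Fin k → X}
    (hs : Function.Injective s) (M : ℕ) (c : Fin k → X) (w : List (X × Fin k))
    (hw : w.map Prod.fst = (redReset s M).map Prod.fst) :
    (∃ π : Equiv.Perm (Fin k), redD (s ∘ π) (redEnd c w) ≤ pathCost c w) ∨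
      M * δ ≤ pathCost c w := by
  induction M generalizing c w with
  | zero => exact Or.inr (by simpa using red_pathCost_nonneg c w)
  | succ M ih =>
    rw [redReset, List.map_append, List.map_eq_append_iff] at hw
    obtain ⟨w₁, w₂, rfl, h1, h2⟩ := hw
    rcases lt_or_ge (pathCost c w₁) δ with h | h
    · have h3 : ∀ j, ∃ i, c i = s j := fun j => by
        have h4 : s j ∈ w₁.map Prod.fst := by
          rw [h1]
          exact List.mem_map.2 ⟨(s j, j), List.mem_ofFn.2 ⟨j, rfl⟩, rfl⟩
        obtain ⟨p, hp, e⟩ := List.mem_map.1 h4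
        exact e ▸ red_cheap hδ c w₁ h p hp
      choose f hf using h3
      have h5 : Function.Injective f := fun a b e => hs (by rw [← hf, ← hf, e])
      have h6 : s ∘ (Equiv.ofBijective f (Finite.injective_iff_bijective.1 h5)).symm = c := by
        funext i
        rw [Function.comp_apply, ← hf]
        exact congrArg c (Equiv.ofBijective_apply_symm_apply f _ i)
      exact Or.inl ⟨_, by rw [h6]; exact redD_end _ _⟩
    · rw [red_pathCost_append, redEnd_append]
      have h4 := red_pathCost_nonneg c w₁
      rcases ih (redEnd c w₁) w₂ h2 with ⟨π, h3⟩ | h3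
      · exact Or.inl ⟨π, by linarith⟩
      · exact Or.inr (by push_cast; linarith)

theorem red_reset [Finite X] {s : Fin k → X} (hs : Function.Injective s) :
    ∃ ρ : List (X × Fin k), (∀ c, redEnd c ρ = s ∧ pathCost c ρ ≤ redD c s) ∧
      ∀ (a : List X → Fin k) (c : Fin k → X), ∃ π : Equiv.Perm (Fin k),
        redD (s ∘ π) (redEnd c (redRun a (ρ.map Prod.fst))) ≤ dcost a c (ρ.map Prod.fst) := by
  classical
  obtain ⟨δ, hδ0, hδ⟩ : ∃ δ : ℝ, 0 < δ ∧ ∀ x y : X, dist x y < δ → x = y := by
    obtain ⟨δ, h0, h1⟩ := ((Set.finite_range fun p : X × X =>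
      if p.1 = p.2 then 1 else dist p.1 p.2).insert 1).toFinset.exists_min_image id
        ⟨1, by simp⟩
    refine ⟨δ, ?_, fun x y h => by_contra fun hne => ?_⟩
    · simp only [Set.Finite.mem_toFinset, Set.mem_insert_iff, Set.mem_range] at h0
      rcases h0 with rfl | ⟨p, rfl⟩
      · exact one_pos
      · split_ifs with h
        exacts [one_pos, dist_pos.2 h]
    · have := h1 (dist x y) (by
        simp only [Set.Finite.mem_toFinset, Set.mem_insert_iff, Set.mem_range]
        exact Or.inr ⟨(x, y), if_neg hne⟩)
      exact absurd h (not_lt.2 this)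
  obtain ⟨D, hD⟩ := (Set.finite_range fun c : Fin k → X => redD s c).bddAbove
  obtain ⟨M, hM⟩ := exists_nat_ge (D / δ)
  refine ⟨redReset s (M + 1), fun c => ⟨redReset_end s c M, ?_⟩, fun a c => ?_⟩
  · have h1 := red_pathCost_home s c _ (redReset_home s (M + 1))
    have h2 := redD_nonneg (redEnd c (redReset s (M + 1))) s
    linarith
  · rw [red_dcost_eq]
    rcases red_reset_or hδ hs (M + 1) c _ (redRun_fst a _) with h | h
    · exact h
    · refine ⟨1, (hD ⟨_, rfl⟩).trans (le_trans ?_ h)⟩
      rw [div_le_iff₀ hδ0] at hM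
      push_cast
      linarith

/-- The `N`-fold repetition of a prior, with resets in between. -/
theorem red_blocks [Finite X] {s : Fin k → X} (hs : Function.Injective s) {Θ : Type} [Fintype Θ]
    (β : Θ → ℝ) (w : Θ → List (X × Fin k)) (hβ : ∀ θ, 0 ≤ β θ) (hβ1 : ∑ θ, β θ = 1) {V : ℝ}
    (hV : ∀ a : List X → Fin k, V ≤ ∑ θ, β θ * dcost a s ((w θ).map Prod.fst)) (N : ℕ) :
    ∃ (Θ' : Type) (_ : Fintype Θ') (β' : Θ' → ℝ) (w' : Θ' → List (X × Fin k)),
      (∀ θ, 0 ≤ β' θ) ∧ ∑ θ, β' θ = 1 ∧
      (∀ (a : List X → Fin k) c, N * V ≤ ∑ θ, β' θ * dcost a c ((w' θ).map Prod.fst)) ∧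
      ∀ c, ∑ θ, β' θ * pathCost c (w' θ) ≤
        redD c s + N * (2 * ∑ θ, β θ * pathCost s (w θ)) := by
  obtain ⟨ρ, hρ₁, hρ₂⟩ := red_reset hs
  have avg : ∀ {T : Type} [Fintype T] (b : T → ℝ), ∑ t, b t = 1 → ∀ (x : ℝ) (f : T → ℝ),
      ∑ t, b t * (x + f t) = x + ∑ t, b t * f t := fun b hb x f => by
    simp only [mul_add, Finset.sum_add_distrib, ← Finset.sum_mul, hb, one_mul]
  induction N with
  | zero =>
    exact ⟨Unit, inferInstance, fun _ => 1, fun _ => [], fun _ => zero_le_one, by simp,
      fun a c => by simp [dcost], fun c => by simpa [pathCost] using redD_nonneg c s⟩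
  | succ N ih =>
    obtain ⟨Θ', _, β', w', h1, h2, h3, h4⟩ := ih
    refine ⟨Θ × Θ', inferInstance, fun p => β p.1 * β' p.2, fun p => ρ ++ (w p.1 ++ w' p.2),
      fun p => mul_nonneg (hβ _) (h1 _), ?_, fun a c => ?_, fun c => ?_⟩
    · simp only [Fintype.sum_prod_type, ← Finset.mul_sum, h2, mul_one, hβ1]
    · obtain ⟨π, hπ⟩ := hρ₂ a c
      simp only [Fintype.sum_prod_type, List.map_append, red_dcost_append, mul_assoc,
        ← Finset.mul_sum, avg β' h2, avg β hβ1]
      set a₁ : List X → Fin k := fun l => a (ρ.map Prod.fst ++ l)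
      set c₁ := redEnd c (redRun a (ρ.map Prod.fst))
      have h5 := hV fun l => π (a₁ l)
      have h6 : ∑ θ, β θ * dcost (fun l => π (a₁ l)) s ((w θ).map Prod.fst) + N * V ≤
          redD (s ∘ π) c₁ + ∑ θ, β θ * (dcost a₁ c₁ ((w θ).map Prod.fst) + ∑ θ', β' θ' *
            dcost (fun l => a₁ ((w θ).map Prod.fst ++ l))
              (redEnd c₁ (redRun a₁ ((w θ).map Prod.fst))) ((w' θ').map Prod.fst)) := by
        rw [add_comm, ← avg β hβ1, ← avg β hβ1]
        refine Finset.sum_le_sum fun θ _ => mul_le_mul_of_nonneg_left ?_ (hβ θ)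
        have h7 := red_dcost_lip a₁ (s ∘ π) c₁ ((w θ).map Prod.fst)
        rw [red_dcost_perm] at h7
        have h8 := h3 (fun l => a₁ ((w θ).map Prod.fst ++ l))
          (redEnd c₁ (redRun a₁ ((w θ).map Prod.fst)))
        linarith
      push_cast
      linarith
    · simp only [Fintype.sum_prod_type, red_pathCost_append, (hρ₁ c).1, mul_assoc,
        ← Finset.mul_sum, avg β' h2, avg β hβ1]
      have h5 := (hρ₁ c).2
      have h6 : ∑ θ, β θ * (pathCost s (w θ) + ∑ θ', β' θ' * pathCost (redEnd s (w θ)) (w' θ')) ≤
          N * (2 * ∑ θ, β θ * pathCost s (w θ)) + 2 * ∑ θ, β θ * pathCost s (w θ) := by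
        have e : 2 * ∑ θ, β θ * pathCost s (w θ) = ∑ θ, β θ * (2 * pathCost s (w θ)) := by
          rw [Finset.mul_sum]
          exact Finset.sum_congr rfl fun _ _ => mul_left_comm _ _ _
        generalize N * (2 * ∑ θ, β θ * pathCost s (w θ)) = x at h4
        rw [e, ← avg β hβ1]
        refine Finset.sum_le_sum fun θ _ => mul_le_mul_of_nonneg_left ?_ (hβ θ)
        have h7 := h4 (redEnd s (w θ))
        have h8 := redD_end s (w θ)
        rw [redD_comm] at h8
        linarith
      push_cast
      linarith

/-- The approximate Bayesian bound with a given additive constant. -/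
def RedAB (s : Fin k → X) (K B : ℝ) : Prop :=
  ∀ (Θ : Type) [Fintype Θ] (β : Θ → ℝ) (w : Θ → List (X × Fin k)),
    (∀ θ, 0 ≤ β θ) → ∑ θ, β θ = 1 → ∀ γ : ℝ, 0 < γ → ∃ a : List X → Fin k,
      ∑ θ, β θ * dcost a s ((w θ).map Prod.fst) ≤ K * ∑ θ, β θ * pathCost s (w θ) + B + γ

theorem red_finite {C : ℝ} (hC : 0 ≤ C) (h : BayesBound C) (hk : 2 ≤ k) {Y : Type} [MetricSpace Y]
    [Fintype Y] {s : Fin k → Y} (hs : Function.Injective s) :
    RedAB s (2 * C * Real.log (k + 1) ^ 2) 0 := by
  intro Θ _ β w hβ hβ1 γ hγ
  by_contra hne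
  push Not at hne
  obtain ⟨B, hB⟩ := h k hk Y s
  obtain ⟨N, hN⟩ := exists_nat_gt (B / γ)
  obtain ⟨Θ', _, β', w', h1, h2, h3, h4⟩ := red_blocks hs β w hβ hβ1 (fun a => (hne a).le) N
  obtain ⟨a, ha⟩ := hB Θ' β' w' h1 h2
  have h5 := h3 a s
  have h6 := mul_le_mul_of_nonneg_left (h4 s) (mul_nonneg hC (sq_nonneg (Real.log (k + 1))))
  rw [redD_self] at h6
  rw [div_lt_iff₀ hγ] at hN
  nlinarith

end Crest.Agent.R314
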