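import Crest.Agent.R314.RedA

/-!
Module A, part 2: transport to arbitrary spaces and starts; realisation plans, finite minimax and
compactness.
-/

set_option autoImplicit false
open Crest.LogicCS.KServer

namespace Crest.Agent.R314

variable {X : Type*} {k : ℕ}

section
variable [MetricSpace X] {Y : Type*} [MetricSpace Y]

theorem red_pathCost_map {e : Y → X} (he : ∀ a b, dist (e a) (e b) = dist a b) (c : Fin k → Y)
    (w : List (Y × Fin k)) : pathCost (e ∘ c) (w.map (Prod.map e id)) = pathCost c w := by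
  induction w generalizing c with
  | nil => rfl
  | cons p w ih =>
    obtain ⟨r, i⟩ := p
    simp only [List.map_cons, Prod.map_apply, id, pathCost, Function.comp_apply, he]
    rw [← ih, Function.comp_update]

theorem red_dcost_map {e : Y → X} (he : ∀ a b, dist (e a) (e b) = dist a b) {r : X → Y}
    (hr : ∀ y, r (e y) = y) (a : List Y → Fin k) (c : Fin k → Y) (σ : List Y) :
    dcost (fun l => a (l.map r)) (e ∘ c) (σ.map e) = dcost a c σ := by
  induction σ generalizing a c with
  | nil => rfl
  | cons x σ ih =>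
    simp only [List.map_cons, dcost, List.map_nil, hr, Function.comp_apply, he]
    rw [← ih, Function.comp_update]

theorem red_inj {C : ℝ} (hC : 0 ≤ C) (h : BayesBound C) (hk : 2 ≤ k) {s : Fin k → X}
    (hs : Function.Injective s) : RedAB s (2 * C * Real.log (k + 1) ^ 2) 0 := by
  classical
  intro Θ _ β w hβ hβ1 γ hγ
  let F : Finset X := Finset.univ.image s ∪ Finset.univ.biUnion fun θ =>
    ((w θ).map Prod.fst).toFinset
  let e : Fin F.card → X := fun i => (F.equivFin.symm i : X)
  have he : Function.Injective e := Subtype.val_injective.comp F.equivFin.symm.injective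
  have hsF : ∀ i, s i ∈ F := fun i =>
    Finset.mem_union_left _ (Finset.mem_image_of_mem _ (Finset.mem_univ _))
  have hwF : ∀ θ, ∀ p ∈ w θ, p.1 ∈ F := fun θ p hp => Finset.mem_union_right _
    (Finset.mem_biUnion.2 ⟨θ, Finset.mem_univ _, List.mem_toFinset.2 (List.mem_map_of_mem hp)⟩)
  have : Nonempty (Fin F.card) := ⟨F.equivFin ⟨_, hsF ⟨0, by omega⟩⟩⟩
  let r : X → Fin F.card := Function.invFun e
  have hr : ∀ y, r (e y) = y := Function.leftInverse_invFun he
  have hr' : ∀ x ∈ F, e (r x) = x := fun x hx =>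
    Function.invFun_eq ⟨F.equivFin ⟨x, hx⟩, by simp [e]⟩
  let : MetricSpace (Fin F.card) := MetricSpace.induced e he inferInstance
  have hd : ∀ a b : Fin F.card, dist (e a) (e b) = dist a b := fun _ _ => rfl
  have e1 : e ∘ (r ∘ s) = s := funext fun i => hr' _ (hsF i)
  have e2 : ∀ θ, ((w θ).map (Prod.map r id)).map (Prod.map e id) = w θ := fun θ => by
    rw [List.map_map]
    conv_rhs => rw [← List.map_id (w θ)]
    exact List.map_congr_left fun p hp => Prod.ext (hr' _ (hwF θ p hp)) rfl
  obtain ⟨a, ha⟩ := red_finite hC h hk (s := r ∘ s) (Function.Injective.of_comp (e1.symm ▸ hs))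
    Θ β (fun θ => (w θ).map (Prod.map r id)) hβ hβ1 γ hγ
  refine ⟨fun l => a (l.map r), ?_⟩
  have e3 : ∀ θ, dcost a (r ∘ s) (((w θ).map (Prod.map r id)).map Prod.fst) =
      dcost (fun l => a (l.map r)) s ((w θ).map Prod.fst) := fun θ => by
    rw [← red_dcost_map hd hr, e1]
    congr 1
    conv_rhs => rw [← e2 θ]
    simp only [List.map_map]
    rfl
  have e4 : ∀ θ, pathCost (r ∘ s) ((w θ).map (Prod.map r id)) = pathCost s (w θ) := fun θ => by
    rw [← red_pathCost_map hd, e1, e2]
  simpa only [e3, e4] using ha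

theorem RedAB.shift {s s' : Fin k → X} {K : ℝ} (hK : 0 ≤ K) (h : RedAB s' K 0) :
    RedAB s K ((K + 1) * redD s s') := by
  intro Θ _ β w hβ hβ1 γ hγ
  obtain ⟨a, ha⟩ := h Θ β w hβ hβ1 γ hγ
  refine ⟨a, ?_⟩
  have avg : ∀ (x : ℝ) (f : Θ → ℝ), ∑ t, β t * (f t + x) = ∑ t, β t * f t + x := fun x f => by
    simp only [mul_add, Finset.sum_add_distrib, ← Finset.sum_mul, hβ1, one_mul]
  have h1 : ∑ θ, β θ * dcost a s ((w θ).map Prod.fst) ≤
      ∑ θ, β θ * dcost a s' ((w θ).map Prod.fst) + redD s s' := by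
    rw [← avg]
    exact Finset.sum_le_sum fun θ _ => mul_le_mul_of_nonneg_left (red_dcost_lip _ _ _ _) (hβ θ)
  have h2 : ∑ θ, β θ * pathCost s' (w θ) ≤ ∑ θ, β θ * pathCost s (w θ) + redD s s' := by
    rw [← avg, redD_comm]
    exact Finset.sum_le_sum fun θ _ => mul_le_mul_of_nonneg_left (red_pathCost_lip _ _ _) (hβ θ)
  have h3 := mul_le_mul_of_nonneg_left h2 hK
  linarith

end

/-- Realisation plans. -/
def redPlans (X : Type*) (k : ℕ) : Set (List (X × Fin k) → ℝ) :=
  {q | (∀ w, q w ∈ Set.Icc (0 : ℝ) 1) ∧ q [] = 1 ∧ ∀ w r, ∑ i, q (w ++ [(r, i)]) = q w}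

theorem redPlans_compact : IsCompact (redPlans X k) := by
  have h1 : IsCompact (Set.pi Set.univ fun _ : List (X × Fin k) => Set.Icc (0 : ℝ) 1) :=
    isCompact_univ_pi fun _ => isCompact_Icc
  refine h1.of_isClosed_subset ?_ fun q hq w _ => hq.1 w
  simp only [redPlans, Set.ofPred_and, Set.ofPred_forall]
  refine (isClosed_iInter fun w => isClosed_Icc.preimage (continuous_apply w)).inter
    ((isClosed_eq (continuous_apply _) continuous_const).inter
      (isClosed_iInter fun w => isClosed_iInter fun r => isClosed_eq ?_ (continuous_apply _)))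
  exact continuous_finsetSum _ fun i _ => continuous_apply _

theorem redPlans_convex : Convex ℝ (redPlans X k) := by
  intro p hp q hq a b ha hb hab
  refine ⟨fun w => convex_Icc (0 : ℝ) 1 (hp.1 w) (hq.1 w) ha hb hab, ?_, fun w r => ?_⟩
  · simp [hp.2.1, hq.2.1, hab]
  · simp only [Pi.add_apply, Pi.smul_apply, smul_eq_mul, Finset.sum_add_distrib, ← Finset.mul_sum,
      hp.2.2, hq.2.2]

open Classical in
/-- The plan of a deterministic algorithm. -/
noncomputable def redDet (a : List X → Fin k) (w : List (X × Fin k)) : ℝ :=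
  if w = redRun a (w.map Prod.fst) then 1 else 0

theorem redDet_mem (a : List X → Fin k) : redDet a ∈ redPlans X k := by
  classical
  refine ⟨fun w => ?_, by simp [redDet, redRun], fun w r => ?_⟩
  · unfold redDet
    split_ifs <;> simp
  · simp only [redDet, List.map_append, redRun_append, List.map_cons, List.map_nil, redRun,
      List.append_singleton_inj, Prod.mk.injEq, true_and]
    by_cases h : w = redRun a (w.map Prod.fst)
    · simp [← h]
    · simp [h]

open Classical in
/-- The policy of a plan (Kuhn). -/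
noncomputable def redPol (hk : 0 < k) {q : List (X × Fin k) → ℝ} (hq : q ∈ redPlans X k) :
    Policy X k where
  prob reqs past i := match reqs.getLast? with
    | none => 1 / k
    | some r => if q (reqs.zip past) = 0 then 1 / k
        else q (reqs.zip past ++ [(r, i)]) / q (reqs.zip past)
  prob_nonneg reqs past i := by
    split
    · positivity
    · split_ifs
      · positivity
      · exact div_nonneg (hq.1 _).1 (hq.1 _).1
  prob_sum reqs past := by
    have h : ∑ _i : Fin k, (1 / k : ℝ) = 1 := by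
      have : (k : ℝ) ≠ 0 := by positivity
      simp [this]
    split
    · exact h
    · split_ifs with h0
      · exact h
      · rw [← Finset.sum_div, hq.2.2, div_self h0]

theorem redPol_path (hk : 0 < k) {q : List (X × Fin k) → ℝ} (hq : q ∈ redPlans X k)
    (v w : List (X × Fin k)) :
    q w * pathProb (redPol hk hq) (w.map Prod.fst) (w.map Prod.snd) v = q (w ++ v) := by
  induction v generalizing w with
  | nil => simp [pathProb]
  | cons p v ih =>
    obtain ⟨r, i⟩ := p
    have h1 := ih (w ++ [(r, i)])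
    simp only [List.map_append, List.map_cons, List.map_nil, List.append_assoc,
      List.singleton_append] at h1
    rw [pathProb, ← mul_assoc, ← h1]
    congr 1
    have h2 : (w.map Prod.fst ++ [r]).zip (w.map Prod.snd) = w := by
      conv_lhs => rw [← List.append_nil (w.map Prod.snd)]
      rw [List.zip_append (by simp), List.zip_nil_right, List.append_nil, List.zip_map']
      simp
    simp only [redPol, List.getLast?_concat, h2]
    split_ifs with h0
    · rw [h0, zero_mul]
      have h3 := hq.2.2 w r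
      rw [h0, Finset.sum_eq_zero_iff_of_nonneg fun i _ => (hq.1 _).1] at h3
      exact (h3 i (Finset.mem_univ _)).symm
    · exact mul_div_cancel₀ _ h0

variable [MetricSpace X]

/-- The expected cost of a plan. -/
def redCost (s : Fin k → X) (σ : List X) (q : List (X × Fin k) → ℝ) : ℝ :=
  ∑ j : Fin σ.length → Fin k, q (σ.zip (List.ofFn j)) * pathCost s (σ.zip (List.ofFn j))

theorem redCost_cont (s : Fin k → X) (σ : List X) : Continuous (redCost s σ) :=
  continuous_finsetSum _ fun _ _ => (continuous_apply _).mul continuous_const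

theorem redCost_pol (hk : 0 < k) {q : List (X × Fin k) → ℝ} (hq : q ∈ redPlans X k)
    (s : Fin k → X) (σ : List X) : expCost (redPol hk hq) s σ = redCost s σ q := by
  refine Finset.sum_congr rfl fun j _ => ?_
  have h := redPol_path hk hq (σ.zip (List.ofFn j)) []
  rw [hq.2.1, one_mul] at h
  exact congrArg (· * _) h

omit [MetricSpace X] in
theorem red_zip_fst (σ : List X) (j : Fin σ.length → Fin k) :
    (σ.zip (List.ofFn j)).map Prod.fst = σ := List.map_fst_zip (by simp)

theorem redCost_det (s : Fin k → X) (σ : List X) (a : List X → Fin k) :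
    redCost s σ (redDet a) ≤ dcost a s σ := by
  classical
  rw [red_dcost_eq]
  simp only [redCost, redDet, red_zip_fst]
  by_cases h : ∃ j : Fin σ.length → Fin k, σ.zip (List.ofFn j) = redRun a σ
  · obtain ⟨j, hj⟩ := h
    rw [Finset.sum_eq_single j (fun j' _ hne => ?_) (by simp), if_pos hj, one_mul, hj]
    rw [if_neg fun h' => hne ?_, zero_mul]
    have h2 := congrArg (List.map Prod.snd) (h'.trans hj.symm)
    rw [List.map_snd_zip (by simp), List.map_snd_zip (by simp)] at h2
    exact List.ofFn_injective h2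
  · push Not at h
    simpa [h] using red_pathCost_nonneg s (redRun a σ)

/-- Finite minimax by separation. -/
theorem red_minimax {ι : Type} [Fintype ι] {S : Set (ι → ℝ)} (hS : Convex ℝ S) (hc : IsCompact S)
    (hne : S.Nonempty)
    (h : ∀ β : ι → ℝ, (∀ i, 0 ≤ β i) → ∑ i, β i = 1 → ∀ γ : ℝ, 0 < γ →
      ∃ x ∈ S, ∑ i, β i * x i ≤ γ) : ∃ x ∈ S, ∀ i, x i ≤ 0 := by
  classical
  by_contra hn
  have hd : Disjoint S (Set.Iic 0) := Set.disjoint_left.2 fun x hx h0 => hn ⟨x, hx, h0⟩
  obtain ⟨f, u, v, h1, h2, h3⟩ :=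
    geometric_hahn_banach_compact_closed hS hc (convex_Iic 0) isClosed_Iic hd
  have hv : v < 0 := by simpa using h3 0 Set.self_mem_Iic
  let m : ι → ℝ := fun i => - f (Pi.single i 1)
  have hf : ∀ x, f x = - ∑ i, m i * x i := fun x => by
    conv_lhs => rw [← Finset.univ_sum_single x]
    rw [map_sum, ← Finset.sum_neg_distrib]
    refine Finset.sum_congr rfl fun i _ => ?_
    rw [show (Pi.single i (x i) : ι → ℝ) = x i • Pi.single i 1 by rw [← Pi.single_smul']; simp,
      map_smul]
    simp [m, mul_comm]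
  have hm : ∀ i, 0 ≤ m i := fun i => by
    by_contra hneg
    push Not at hneg
    have h5 : v / (- m i) ≤ 0 := div_nonpos_of_nonpos_of_nonneg hv.le (neg_nonneg.2 hneg.le)
    have h6 : (0 : ι → ℝ) ≤ Pi.single i 1 := Pi.single_nonneg.2 zero_le_one
    have h4 := h3 ((v / (- m i)) • Pi.single i 1) (smul_nonpos_of_nonpos_of_nonneg h5 h6)
    rw [map_smul, smul_eq_mul, show f (Pi.single i 1) = - m i by simp [m],
      div_mul_cancel₀ _ (by linarith)] at h4
    exact lt_irrefl _ h4
  have hs : ∀ x ∈ S, -u < ∑ i, m i * x i := fun x hx => by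
    have := h1 x hx
    rw [hf] at this
    linarith
  have hM : 0 < ∑ i, m i := by
    refine (Finset.sum_nonneg fun i _ => hm i).lt_of_ne' fun h0 => ?_
    rw [Finset.sum_eq_zero_iff_of_nonneg fun i _ => hm i] at h0
    obtain ⟨x, hx⟩ := hne
    have h5 := hs x hx
    rw [Finset.sum_eq_zero fun i hi => by rw [h0 i hi, zero_mul]] at h5
    linarith
  obtain ⟨x, hx, h5⟩ := h (fun i => m i / ∑ i, m i) (fun i => div_nonneg (hm i) hM.le)
    (by rw [← Finset.sum_div, div_self hM.ne']) (-u / ∑ i, m i) (div_pos (by linarith) hM)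
  simp only [div_mul_eq_mul_div, ← Finset.sum_div] at h5
  exact absurd (hs x hx) (not_lt.2 ((div_le_div_iff_of_pos_right hM).1 h5))

theorem red_plan_fin (hk : 0 < k) {s : Fin k → X} {K B : ℝ} (h : RedAB s K B) {Θ : Type}
    [Fintype Θ] (w : Θ → List (X × Fin k)) :
    ∃ q ∈ redPlans X k, ∀ θ, redCost s ((w θ).map Prod.fst) q ≤ K * pathCost s (w θ) + B := by
  let Φ : (List (X × Fin k) → ℝ) → Θ → ℝ := fun q θ =>
    redCost s ((w θ).map Prod.fst) q - (K * pathCost s (w θ) + B)
  have hΦ : Continuous Φ := continuous_pi fun θ => (redCost_cont _ _).sub continuous_const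
  have hc : Convex ℝ (Φ '' redPlans X k) := by
    rintro _ ⟨p, hp, rfl⟩ _ ⟨q, hq, rfl⟩ a b ha hb hab
    refine ⟨a • p + b • q, redPlans_convex hp hq ha hb hab, funext fun θ => ?_⟩
    simp only [Φ, redCost, Pi.add_apply, Pi.smul_apply, smul_eq_mul, add_mul,
      Finset.sum_add_distrib, mul_assoc, ← Finset.mul_sum]
    linear_combination (K * pathCost s (w θ) + B) * hab
  obtain ⟨_, ⟨q, hq, rfl⟩, h1⟩ := red_minimax hc (redPlans_compact.image hΦ)
    ⟨_, _, redDet_mem fun _ => ⟨0, hk⟩, rfl⟩ fun β hβ hβ1 γ hγ => by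
      obtain ⟨a, ha⟩ := h Θ β w hβ hβ1 γ hγ
      refine ⟨_, ⟨_, redDet_mem a, rfl⟩, ?_⟩
      have h2 : ∑ θ, β θ * redCost s ((w θ).map Prod.fst) (redDet a) ≤
          ∑ θ, β θ * dcost a s ((w θ).map Prod.fst) :=
        Finset.sum_le_sum fun θ _ => mul_le_mul_of_nonneg_left (redCost_det _ _ _) (hβ θ)
      simp only [Φ, mul_sub, mul_add, Finset.sum_sub_distrib, Finset.sum_add_distrib,
        ← Finset.sum_mul, hβ1, mul_left_comm _ K, ← Finset.mul_sum]
      linarith
  exact ⟨q, hq, fun θ => sub_nonpos.1 (h1 θ)⟩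

theorem red_policy (hk : 0 < k) {s : Fin k → X} {K B : ℝ} (h : RedAB s K B) :
    ∃ A : Policy X k, ∀ (σ : List X) (j : Fin σ.length → Fin k),
      expCost A s σ ≤ K * pathCost s (σ.zip (List.ofFn j)) + B := by
  obtain ⟨q, hq, h1⟩ := (redPlans_compact (X := X) (k := k)).inter_iInter_nonempty
    (fun w : List (X × Fin k) => {q | redCost s (w.map Prod.fst) q ≤ K * pathCost s w + B})
    (fun w => isClosed_le (redCost_cont _ _) continuous_const) fun u => by
      obtain ⟨q, hq, h1⟩ := red_plan_fin hk h fun θ : Fin u.card => (u.equivFin.symm θ : List _)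
      refine ⟨q, hq, Set.mem_iInter₂.2 fun w hw => ?_⟩
      simpa using h1 (u.equivFin ⟨w, hw⟩)
  refine ⟨redPol hk hq, fun σ j => ?_⟩
  have h2 := Set.mem_iInter.1 h1 (σ.zip (List.ofFn j))
  rwa [Set.mem_ofPred_eq, red_zip_fst, ← redCost_pol hk hq] at h2

end Crest.Agent.R314
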