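import Crest.Agent.R314.RedB

/-!
Module A: from the Bayesian bound on finite spaces to the statement of S0486
(reset blocks for `B = 0`, finite minimax, Kuhn's theorem, compactness).
-/

set_option autoImplicit false
open Crest.LogicCS.KServer

namespace Crest.Agent.R314

theorem reduce (C : ℝ) (hC : 0 ≤ C) (h : BayesBound C) :
    ∀ (k : ℕ), 2 ≤ k → ∀ (X : Type*) [MetricSpace X], Nonempty (Fin (k + 1) ↪ X) →
      ∀ s : Fin k → X, ∃ (A : Policy X k) (B : ℝ), 0 ≤ B ∧ (Function.Injective s → B = 0) ∧
        ∀ (σ : List X) (j : Fin σ.length → Fin k),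
          expCost A s σ ≤
            (2 * C) * Real.log (k + 1) ^ 2 * pathCost s (σ.zip (List.ofFn j)) + B := by
  classical
  intro k hk X _ ⟨e⟩ s
  by_cases hs : Function.Injective s
  · obtain ⟨A, hA⟩ := red_policy (by omega) (red_inj hC h hk hs)
    exact ⟨A, 0, le_rfl, fun _ => rfl, hA⟩
  · have hK : 0 ≤ 2 * C * Real.log (k + 1) ^ 2 := by positivity
    obtain ⟨A, hA⟩ := red_policy (by omega) (RedAB.shift (s := s) hK
      (red_inj hC h hk (e.injective.comp (Fin.castSucc_injective k))))
    exact ⟨A, _, mul_nonneg (by positivity) (redD_nonneg _ _), fun h' => absurd h' hs, hA⟩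

end Crest.Agent.R314
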