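import Crest.Agent.R314.LabL

/-! Balanced matrices with prescribed margins. -/

set_option autoImplicit false

namespace Crest.Agent.R314

open Finset

namespace Round

variable {I J : Type} [Fintype I] [DecidableEq I] [Fintype J] [DecidableEq J]

/-- entries differ by at most one -/
def B (f : I → ℤ) : Prop := ∀ m m', f m ≤ f m' + 1

/-- unit vector -/
def u (m a : I) : ℤ := if a = m then 1 else 0

omit [Fintype I] in
theorem u_nonneg (m a : I) : 0 ≤ u m a := by unfold u; split_ifs <;> simp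

theorem sum_u (m : I) : ∑ a, u m a = 1 := by simp [u]

omit [Fintype I] [DecidableEq I] in
theorem B.neg {f : I → ℤ} (h : B f) : B fun a => -f a := fun m m' => by linarith [h m' m]

omit [Fintype I] in
theorem B.dec {f : I → ℤ} (h : B f) {m : I} (hm : ∀ a, f a ≤ f m) : B fun a => f a - u m a := by
  intro a a'
  have := h a a'
  have := hm a
  by_cases h1 : a = m <;> by_cases h2 : a' = m <;> simp only [u, h1, h2, if_true, if_false] at * <;>
    omega

omit [Fintype I] [Fintype J] in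
theorem dec {A : I → J → ℤ} (h : ∀ j, B fun a => A a j) {m : I} {j : J} (hm : ∀ a, A a j ≤ A m j) :
    ∀ b, B fun a => A a b - u m a * u j b := fun b => by
  by_cases hb : b = j
  · subst hb
    simpa [u] using (h b).dec hm
  · simpa [u, hb] using h b

theorem remove {A : I → J → ℤ} (h : ∀ j, B fun a => A a j) {m : I}
    (hm : ∀ a, ∑ b, A a b ≤ ∑ b, A m b) (j : J) : ∃ C : I → J → ℤ, (∀ j, B fun a => C a j) ∧
      (∀ a, ∑ b, C a b = ∑ b, A a b - u m a) ∧ (∀ b, ∑ a, C a b = ∑ a, A a b - u j b) ∧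
      ∑ a, ∑ b, |A a b - C a b| ≤ 3 := by
  by_cases h1 : ∀ a, A a j ≤ A m j
  · refine ⟨_, dec h h1, fun a => ?_, fun b => ?_, ?_⟩
    · rw [sum_sub_distrib, ← mul_sum, sum_u, mul_one]
    · rw [sum_sub_distrib, ← sum_mul, sum_u, one_mul]
    · simp only [sub_sub_cancel, abs_of_nonneg (mul_nonneg (u_nonneg _ _) (u_nonneg _ _)),
        ← mul_sum, sum_u, mul_one]
      norm_num
  obtain ⟨m', h2⟩ := not_forall.1 h1
  obtain ⟨j', h3⟩ : ∃ j', A m' j' < A m j' := by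
    by_contra h3
    exact (hm m').not_gt (sum_lt_sum (fun b _ => not_lt.1 fun h => h3 ⟨b, h⟩)
      ⟨j, mem_univ _, not_le.1 h2⟩)
  have hj : j' ≠ j := by rintro rfl; omega
  have hm' : m' ≠ m := by rintro rfl; omega
  have a1 := dec h (m := m') (j := j) fun a => by have : A a j ≤ A m j + 1 := h j a m; omega
  have a2 := dec a1 (m := m) (j := j') fun a => by
    have : A a j' ≤ A m' j' + 1 := h j' a m'
    simp only [u, if_neg hj, mul_zero, sub_zero]
    omega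
  have a3 := dec (fun b => (a2 b).neg) (m := m') (j := j') fun a => by
    have : A m j' ≤ A a j' + 1 := h j' m a
    by_cases ha : a = m <;> simp only [u, if_neg hj, if_neg hm', ha, if_true, if_false] at * <;>
      omega
  refine ⟨_, fun b => (a3 b).neg, fun a => ?_, fun b => ?_, ?_⟩
  · simp only [sum_neg_distrib, sum_sub_distrib, ← mul_sum, sum_u]
    ring
  · simp only [sum_neg_distrib, sum_sub_distrib, ← sum_mul, sum_u]
    ring
  · refine (sum_le_sum fun a _ => sum_le_sum (g := fun b => u m' a * u j b + u m a * u j' b +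
      u m' a * u j' b) fun b _ => ?_).trans ?_
    · have := mul_nonneg (u_nonneg m' a) (u_nonneg j b)
      have := mul_nonneg (u_nonneg m a) (u_nonneg j' b)
      have := mul_nonneg (u_nonneg m' a) (u_nonneg j' b)
      exact abs_le.2 ⟨by linarith, by linarith⟩
    · simp only [sum_add_distrib, ← mul_sum, sum_u, mul_one]
      norm_num

theorem sum_abs_dec (f g : I → ℤ) (m : I) :
    ∑ a, |f a - u m a - g a| ≤ ∑ a, |f a - g a| + if g m < f m then -1 else 1 := by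
  refine le_trans ?_ (add_le_add_right ((congrArg _ (sum_u m)).trans (mul_one _)).le _)
  rw [mul_sum, ← sum_add_distrib]
  refine sum_le_sum fun a _ => ?_
  by_cases h : a = m
  · subst h
    simp only [u, if_true, Int.abs_eq_natAbs]
    split_ifs <;> omega
  · simp [u, h]

/-- the potential -/
def Φ (A : I → J → ℤ) (ρ : I → ℤ) (γ : J → ℤ) : ℤ :=
  ∑ a, |∑ b, A a b - ρ a| + ∑ b, |∑ a, A a b - γ b| - |∑ a, ∑ b, A a b - ∑ a, ρ a|

/-- balanced columns and row sums -/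
def BB (A : I → J → ℤ) : Prop := (∀ j, B fun a => A a j) ∧ B fun a => ∑ b, A a b

omit [DecidableEq I] in
theorem exists_lt {f g : I → ℤ} (h : ∑ a, g a ≤ ∑ a, f a) (h' : ¬ ∀ a, f a = g a) :
    ∃ a, g a < f a := by
  by_contra h1
  have h2 : ∀ a, f a ≤ g a := fun a => not_lt.1 fun h => h1 ⟨a, h⟩
  exact h' fun a => (sum_eq_sum_iff_of_le fun a _ => h2 a).1
    (le_antisymm (sum_le_sum fun a _ => h2 a) h) a (mem_univ a)

theorem step₀ (m₀ : I) (j₀ : J) {A : I → J → ℤ} (h : BB A) {ρ : I → ℤ} {γ : J → ℤ} (hρ : B ρ)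
    (hs : ∑ a, ρ a = ∑ b, γ b) (hS : ∑ a, ρ a ≤ ∑ a, ∑ b, A a b)
    (hne : ¬ ((∀ a, ∑ b, A a b = ρ a) ∧ ∀ b, ∑ a, A a b = γ b)) :
    ∃ C, BB C ∧ Φ C ρ γ + 1 ≤ Φ A ρ γ ∧ ∑ a, ∑ b, |A a b - C a b| ≤ 3 := by
  have hS' : ∑ b, γ b ≤ ∑ b, ∑ a, A a b := by rwa [← hs, sum_comm]
  obtain ⟨m, hm, hm'⟩ : ∃ m, (∀ a, ∑ b, A a b ≤ ∑ b, A m b) ∧
      ((¬ ∀ a, ∑ b, A a b = ρ a) → ρ m < ∑ b, A m b) := by
    obtain ⟨m, -, hm⟩ := exists_max_image univ (fun a => ∑ b, A a b) ⟨m₀, mem_univ _⟩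
    replace hm := fun a => hm a (mem_univ a)
    by_cases h1 : ∀ a, ∑ b, A a b = ρ a
    · exact ⟨m, hm, fun h2 => absurd h1 h2⟩
    obtain ⟨a, ha⟩ := exists_lt hS h1
    rcases (hm a).eq_or_lt with h2 | h2
    · exact ⟨a, fun a' => h2 ▸ hm a', fun _ => ha⟩
    · exact ⟨m, hm, fun _ => by have := hρ m a; omega⟩
  obtain ⟨j, hj⟩ : ∃ j, (¬ ∀ b, ∑ a, A a b = γ b) → γ j < ∑ a, A a j := by
    by_cases h1 : ∀ b, ∑ a, A a b = γ b
    · exact ⟨j₀, fun h2 => absurd h1 h2⟩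
    · exact (exists_lt hS' h1).imp fun _ h _ => h
  obtain ⟨C, c1, c2, c3, c4⟩ := remove h.1 hm j
  refine ⟨C, ⟨c1, by simpa only [c2] using h.2.dec hm⟩, ?_, c4⟩
  have a1 := sum_abs_dec (fun a => ∑ b, A a b) ρ m
  have a2 := sum_abs_dec (fun b => ∑ a, A a b) γ j
  simp only [Φ, c2, c3]
  rw [sum_sub_distrib, sum_u, abs_of_nonneg (sub_nonneg.2 hS)]
  rcases hS.eq_or_lt with h1 | h1
  · rw [← h1, sub_sub_cancel_left, abs_neg, abs_one]
    rcases not_and_or.1 hne with h2 | h2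
    · rw [if_pos (hm' h2)] at a1
      split_ifs at a2 <;> linarith
    · rw [if_pos (hj h2)] at a2
      split_ifs at a1 <;> linarith
  · rw [if_pos (hm' fun h2 => h1.ne' (sum_congr rfl fun a _ => h2 a))] at a1
    rw [if_pos (hj fun h2 => h1.ne' (by rw [hs, sum_comm]; exact sum_congr rfl fun b _ => h2 b))]
      at a2
    rw [abs_of_nonneg (by omega)]
    linarith

omit [DecidableEq I] [DecidableEq J] in
theorem Φ_neg (A : I → J → ℤ) (ρ : I → ℤ) (γ : J → ℤ) :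
    Φ (fun a b => -A a b) (fun a => -ρ a) (fun b => -γ b) = Φ A ρ γ := by
  simp only [Φ, sum_neg_distrib, neg_sub_neg, abs_sub_comm]

omit [Fintype I] [DecidableEq I] [DecidableEq J] in
theorem BB.neg {A : I → J → ℤ} (h : BB A) : BB fun a b => -A a b :=
  ⟨fun j => (h.1 j).neg, by simpa only [sum_neg_distrib] using h.2.neg⟩

theorem step (m₀ : I) (j₀ : J) {A : I → J → ℤ} (h : BB A) {ρ : I → ℤ} {γ : J → ℤ} (hρ : B ρ)
    (hs : ∑ a, ρ a = ∑ b, γ b)
    (hne : ¬ ((∀ a, ∑ b, A a b = ρ a) ∧ ∀ b, ∑ a, A a b = γ b)) :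
    ∃ C, BB C ∧ Φ C ρ γ + 1 ≤ Φ A ρ γ ∧ ∑ a, ∑ b, |A a b - C a b| ≤ 3 := by
  rcases le_total (∑ a, ρ a) (∑ a, ∑ b, A a b) with hS | hS
  · exact step₀ m₀ j₀ h hρ hs hS hne
  obtain ⟨C, c1, c2, c3⟩ := step₀ m₀ j₀ h.neg (γ := fun b => -γ b) hρ.neg
    (by simp only [sum_neg_distrib, hs]) (by simpa only [sum_neg_distrib, neg_le_neg_iff] using hS)
    (by simpa only [sum_neg_distrib, neg_inj] using hne)
  refine ⟨_, c1.neg, ?_, ?_⟩
  · rw [← Φ_neg A, ← Φ_neg]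
    simpa only [neg_neg] using c2
  · simpa only [← neg_add', abs_neg, sub_neg_eq_add] using c3

theorem main (m₀ : I) (j₀ : J) {ρ : I → ℤ} {γ : J → ℤ} (hρ : B ρ) (hs : ∑ a, ρ a = ∑ b, γ b)
    (n : ℕ) : ∀ A : I → J → ℤ, BB A → Φ A ρ γ < n → ∃ C : I → J → ℤ, BB C ∧
      (∀ a, ∑ b, C a b = ρ a) ∧ (∀ b, ∑ a, C a b = γ b) ∧
        ∑ a, ∑ b, |A a b - C a b| ≤ 3 * Φ A ρ γ := by
  have h0 : ∀ A : I → J → ℤ, 0 ≤ Φ A ρ γ := fun A => by
    have h1 := abs_sum_le_sum_abs (fun a => ∑ b, A a b - ρ a) univ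
    have h2 : 0 ≤ ∑ b, |∑ a, A a b - γ b| := sum_nonneg fun _ _ => abs_nonneg _
    rw [sum_sub_distrib] at h1
    rw [Φ]
    linarith
  induction n with
  | zero => exact fun A _ h => absurd h (h0 A).not_gt
  | succ n ih =>
    intro A hA h
    by_cases hne : (∀ a, ∑ b, A a b = ρ a) ∧ ∀ b, ∑ a, A a b = γ b
    · exact ⟨A, hA, hne.1, hne.2, by simpa using h0 A⟩
    obtain ⟨C, c1, c2, c3⟩ := step m₀ j₀ hA hρ hs hne
    obtain ⟨D, d1, d2, d3, d4⟩ := ih C c1 (by omega)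
    refine ⟨D, d1, d2, d3, ?_⟩
    have := sum_le_sum (s := univ) fun a _ => sum_le_sum (s := univ) fun b _ =>
      abs_sub_le (A a b) (C a b) (D a b)
    simp only [sum_add_distrib] at this
    linarith

end Round

/-- A matrix with balanced columns and balanced row sums can be changed into one with new
(balanced) row sums and new column sums at `ℓ¹` cost proportional to the change of the margins. -/
theorem bal_matrix {M : ℕ} {J : Type} [Fintype J] [DecidableEq J] (A : Fin M → J → ℕ)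
    (hA : ∀ j, Bal1 fun m => A m j) (hρ : Bal1 fun m => ∑ j, A m j)
    (ρ' : Fin M → ℕ) (γ' : J → ℕ) (hρ' : Bal1 ρ') (hsum : ∑ m, ρ' m = ∑ j, γ' j) :
    ∃ A' : Fin M → J → ℕ, (∀ j, Bal1 fun m => A' m j) ∧ (∀ m, ∑ j, A' m j = ρ' m) ∧
      (∀ j, ∑ m, A' m j = γ' j) ∧
      ∑ m, ∑ j, |(A m j : ℝ) - A' m j| ≤
        4 * (∑ m, |((∑ j, A m j : ℕ) : ℝ) - ρ' m| + ∑ j, |((∑ m, A m j : ℕ) : ℝ) - γ' j|) := by
  rcases isEmpty_or_nonempty (Fin M) with h | ⟨⟨m₀⟩⟩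
  · refine ⟨A, hA, h.elim, fun j => ?_, by simp [sum_nonneg]⟩
    rw [univ_eq_empty, sum_empty] at hsum ⊢
    exact (sum_eq_zero_iff.1 hsum.symm j (mem_univ j)).symm
  rcases isEmpty_or_nonempty J with h | ⟨⟨j₀⟩⟩
  · refine ⟨A, hA, fun m => ?_, h.elim, by simp [sum_nonneg]⟩
    rw [univ_eq_empty (α := J), sum_empty] at hsum ⊢
    exact (sum_eq_zero_iff.1 hsum m (mem_univ m)).symm
  obtain ⟨C, c1, c2, c3, c4⟩ := Round.main m₀ j₀ (ρ := fun m => ρ' m) (γ := fun j => γ' j)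
    (fun m m' => by beta_reduce; exact_mod_cast hρ' m m') (by exact_mod_cast hsum) _ (fun m j => A m j)
    ⟨fun j m m' => Int.ofNat_le.2 (hA j m m'), fun m m' => by
      have : ∑ j, A m j ≤ ∑ j, A m' j + 1 := hρ m m'
      beta_reduce
      exact_mod_cast this⟩
    ((Int.self_le_toNat _).trans_lt (by exact_mod_cast Nat.lt_succ_self _))
  have h0 : ∀ m j, 0 ≤ C m j := fun m j => not_lt.1 fun h => by
    have := sum_lt_sum (s := univ) (f := fun a => C a j) (g := fun _ => 0)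
      (fun a _ => by have : C a j ≤ C m j + 1 := c1.1 j a m; omega) ⟨m, mem_univ _, h⟩
    rw [c3, sum_const_zero] at this
    omega
  lift C to Fin M → J → ℕ using h0 with A'
  refine ⟨A', fun j m m' => Int.ofNat_le.1 (c1.1 j m m'), fun m => by exact_mod_cast c2 m,
    fun j => by exact_mod_cast c3 j, ?_⟩
  have h1 : 0 ≤ ∑ m, |∑ j, (A m j : ℤ) - ρ' m| := sum_nonneg fun _ _ => abs_nonneg _
  have h2 : 0 ≤ ∑ j, |∑ m, (A m j : ℤ) - γ' j| := sum_nonneg fun _ _ => abs_nonneg _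
  have h3 : ∑ m, ∑ j, |(A m j : ℤ) - A' m j| ≤
      4 * (∑ m, |∑ j, (A m j : ℤ) - ρ' m| + ∑ j, |∑ m, (A m j : ℤ) - γ' j|) := by
    have := abs_nonneg (∑ m, ∑ j, (A m j : ℤ) - ∑ m, (ρ' m : ℤ))
    simp only [Round.Φ] at c4
    linarith
  exact_mod_cast h3

end Crest.Agent.R314
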