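import Crest.Agent.R314.Recenter

/-! Module C: the situation passes to the children on the path of the request. -/

set_option autoImplicit false

namespace Crest.Agent.R314

open Finset 

variable {X : Type} [MetricSpace X] [Fintype X] [DecidableEq X] [Nonempty X] {p : Par} {n : ℕ}
  {t : Tol} {σ : X} {c : Ctx X} {m : X → ℝ}

theorem Sit.mσ_pos {D : Dom X n} (h : Sit p t σ c m D) : 0 < m σ := by
  have h1 := h.tol.κ_pos.trans_le h.small
  exact (mul_pos_iff_of_pos_left (pow_pos h.tol.t0_pos n)).1 h1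

theorem Sit.κ_le {D : Dom X n} (h : Sit p t σ c m D) : t.κ ≤ m σ := by
  exact h.small.trans
    (mul_le_of_le_one_left h.mσ_pos.le (pow_le_one₀ h.tol.t0_pos.le h.tol.t0_le))

theorem Sit.gM_pos {D : Dom X (n + 1)} (h : Sit p t σ c m D) {b : Br X} (hb : b ≠ some none)
    (hσ : 0 < D.tb p b σ) : 0 < Dom.gM p c m D := by
  unfold Dom.gM
  split_ifs with hD
  · have h1 : D.hc p σ < 1 := lt_of_le_of_ne (D.hc_le_one σ) fun he =>
      hσ.ne' (h.vc.1.tb_of_hc_one h.hyp.r0_pos he hb)
    exact sum_pos' (fun y _ => mul_nonneg (h.m_nonneg y) (sub_nonneg.2 (D.hc_le_one y)))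
      ⟨σ, mem_univ _, mul_pos h.mσ_pos (sub_pos.2 h1)⟩
  · exact h.mG_pos

theorem Sit.SitC_small {D : Dom X (n + 1)} (h : Sit p t σ c m D) {b : Br X}
    (hσ : 0 < D.tb p b σ) : t.κ ≤ t.t0 ^ n * Dom.mb p m D b σ := by
  have h1 := h.vc.1.t0_le h.hyp.r0_pos h.tol hσ
  have h2 := mul_nonneg (pow_pos h.tol.t0_pos n).le h.mσ_pos.le
  calc t.κ ≤ t.t0 ^ (n + 1) * m σ := h.small
    _ = t.t0 ^ n * m σ * t.t0 := by ring
    _ ≤ t.t0 ^ n * m σ * D.tb p b σ := mul_le_mul_of_nonneg_left h1 h2
    _ = _ := by unfold Dom.mb; ring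

theorem Sit.κ_le_mb {D : Dom X (n + 1)} (h : Sit p t σ c m D) {b : Br X} (hσ : 0 < D.tb p b σ) :
    t.κ ≤ Dom.mb p m D b σ := by
  refine (h.SitC_small hσ).trans (mul_le_of_le_one_left ?_
    (pow_le_one₀ h.tol.t0_pos.le h.tol.t0_le))
  exact mul_nonneg (h.m_nonneg σ) hσ.le

/-- locality: the whole mass is in the ball -/
theorem Sit.Mb_eq {D : Dom X n} (h : Sit p t σ c m D) (ha : c.allow) :
    Mb m σ (4 * p.r n) = ∑ y, m y := by
  refine sum_congr rfl fun y _ => ?_
  split_ifs with hy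
  · rfl
  · by_contra hne
    have h1 := h.loc ha y fun h0 => hne h0.symm
    have h2 := Par.r_pos h.hyp.r0_pos n
    exact hy (by linarith)

theorem Sit.allow_of_heir {D : Dom X (n + 1)} (h : Sit p t σ c m D) (hD : D.heir.isSome) :
    c.allow := by
  rcases h.vc.2.1 with ha | hc
  · exact ha
  · obtain ⟨q, hq⟩ := Option.isSome_iff_exists.1 hD
    simp [Dom.ctr, hq] at hc

theorem Sit.child {D : Dom X (n + 1)} (h : Sit p t σ c m D) {b : Br X} (hσ : 0 < D.tb p b σ) :
    Sit p t σ (Dom.cctx p c m D b) (Dom.mb p m D b) (D.child b) := by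
  have hr := h.hyp.r0_pos
  have hp := Dom.pres_of_pos hσ
  have hv := h.vc.1
  have hmsh : 0 ≤ Dom.msh p m D :=
    sum_nonneg fun y _ => mul_nonneg (h.m_nonneg y) (sub_nonneg.2 (D.hc_le_one y))
  have hgM : 0 ≤ Dom.gM p c m D := by
    unfold Dom.gM
    split_ifs
    · exact hmsh
    · exact h.mG_nonneg
  have hW : ∀ {b : Br X}, b ≠ some none → ∀ l, l < n →
      0 ≤ Dom.gW c D l - (D.child b).Wt l := fun hb l hl => by
    have h1 := hv.Wt_child_le hb hl.ne
    have h2 := h.Wr_nonneg l (Nat.lt_succ_of_lt hl)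
    unfold Dom.gW
    split_ifs <;> linarith
  have hrn := Par.r_pos hr n
  have hmG : 0 < (Dom.cctx p c m D b).mG := by
    rcases b with _ | _ | z
    · exact h.gM_pos (b := none) (by simp) hσ
    · exact sum_pos' (fun y _ => mul_nonneg (h.m_nonneg y) (D.hc_nonneg y))
        ⟨σ, mem_univ _, mul_pos h.mσ_pos hσ⟩
    · exact h.gM_pos (b := some (some z)) (by simp) hσ
  refine
    { hyp := h.hyp.mono n.le_succ
      tol := h.tol.mono n.le_succ
      vc := Dom.child_vc hr h.vc b hp
      eq := Dom.Eq.child hr h.hyp.G_pos h.vc h.m_nonneg h.P_nonneg h.eq hp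
      m_nonneg := fun y => mul_nonneg (h.m_nonneg y) (hv.tb_nonneg hr b y)
      P_nonneg := ?_
      mG_nonneg := hmG.le
      Wr_nonneg := ?_
      par_allow := ?_
      plink := ?_
      small := h.SitC_small hσ
      mG_pos := hmG
      loc := ?_ }
  · rcases b with _ | _ | z
    · exact le_rfl
    · exact add_nonneg h.P_nonneg hmsh
    · exact le_rfl
  · rcases b with _ | _ | z
    · exact hW (b := none) (by simp)
    · exact fun _ _ => le_rfl
    · exact hW (b := some (some z)) (by simp)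
  · rcases b with _ | _ | z
    · intro h0
      simp [Dom.cctx] at h0
    · exact fun _ => trivial
    · exact fun _ => trivial
  · rcases b with _ | _ | z
    · change (0 : ℝ) ≤ _
      positivity
    · obtain ⟨q, hq, -⟩ := Dom.dist_lt_of_heir hr hσ
      have h1 := h.toSit0.recenter hq
      simpa [Dom.cctx, Dom.ctr, Dom.child, Dom.lnkO, hq] using h1
    · change (0 : ℝ) ≤ _
      positivity
  · intro ha y hy
    have hy' : 0 < D.tb p b y :=
      lt_of_le_of_ne (hv.tb_nonneg hr b y) fun h0 => hy (by simp [Dom.mb, ← h0])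
    rcases b with _ | _ | z
    · exact ha.elim
    · obtain ⟨q, hq, h1⟩ := Dom.dist_lt_of_heir hr hσ
      obtain ⟨q', hq', h2⟩ := Dom.dist_lt_of_heir hr hy'
      obtain rfl : q = q' := Option.some.inj (hq.symm.trans hq')
      linarith [dist_triangle_right y σ q.1]
    · have h1 := Dom.dist_lt_of_top hr hσ
      have h2 := Dom.dist_lt_of_top hr hy'
      linarith [dist_triangle_right y σ z]

end Crest.Agent.R314
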