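import Crest.Agent.R314.LabL

/-! The two interfaces of the core argument: the tree system (module B) and the embedding
system (module C). -/

set_option autoImplicit false

namespace Crest.Agent.R314

open Finset MeasureTheory

/-- the logarithmic factor -/
noncomputable def Lg (k : ℕ) : ℝ := 1 + Real.log k

/-- A potential-driven fractional algorithm on trees of height `n` for `k` servers. -/
structure TSys (Λ X : Type) [Fintype Λ] [DecidableEq Λ] (r0 : ℝ) (n k : ℕ) (CT : ℝ) where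
  /-- states -/
  T : Type
  /-- the fractional allocation of a state -/
  al : T → AL Λ n
  /-- the potential of a state against an offline configuration of labels -/
  ψ : T → (Fin k → Lab Λ X n) → ℝ
  /-- admissible states -/
  ok : T → Prop
  t0 : T
  ok0 : ok t0
  valid : ∀ t, ok t → (al t).Valid
  root : ∀ t, ok t → (al t).val = k
  nonneg : ∀ t e, 0 ≤ ψ t e
  lip : ∀ t e e', ψ t e ≤ ψ t e' + CT * Lg k * ∑ i, rel r0 (e i) (e' i)
  step : ∀ (Θ : Type) [Fintype Θ] (b : Θ → ℝ) (e : Θ → Fin k → Lab Λ X n) (t : T),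
    (∀ θ, 0 ≤ b θ) → ∑ θ, b θ = 1 →
    ∃ t', ok t' ∧ ∑ θ, b θ * ψ t' (e θ) + AL.dist r0 (al t) (al t') ≤ ∑ θ, b θ * ψ t (e θ) ∧
      AL.Dom b (al t') (fun θ i => some (e θ i)) ∧
      ∀ u : Lab Λ X n, (∀ θ, b θ ≠ 0 → ∃ i, e θ i = u) → 1 ≤ (al t').leaf u

/-- A potential-driven random hierarchical partition. -/
structure ESys (Λ X : Type) [Fintype Λ] [DecidableEq Λ] [MetricSpace X] [Fintype X]
    (r0 : ℝ) (n k : ℕ) (a0 : X) (CE : ℝ) where
  /-- states -/
  D : Type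
  /-- randomness -/
  Ω : Type
  [mΩ : MeasurableSpace Ω]
  P : Measure Ω
  [prob : IsProbabilityMeasure P]
  /-- the partition of a state -/
  emb : D → Ω → HT Λ X n
  meas : ∀ d H, MeasurableSet {ω | emb d ω = H}
  near : ∀ d ω y, Near r0 (emb d ω) y a0
  /-- the potential of a unit of offline mass -/
  φ : D → X → ℝ
  nonneg : ∀ d y, 0 ≤ φ d y
  d0 : D
  step : ∀ (d : D) (μ : X → ℝ) (σ : X) (lam ζ : ℝ), (∀ y, 0 ≤ μ y) → ∑ y, μ y = k →
    0 < lam → lam ≤ μ σ → 0 < ζ →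
    ∃ d', ∑ y, μ y * φ d' y +
        ∑ y, μ y * ∫ ω, (rel r0 ((emb d ω).lab y) ((emb d' ω).lab y) +
          anc ((emb d ω).lab y) ((emb d' ω).lab y)) ∂P ≤ ∑ y, μ y * φ d y + ζ ∧
      ∀ x, φ d' σ - φ d' x + ∫ ω, rel r0 ((emb d' ω).lab x) ((emb d' ω).lab σ) ∂P ≤
        CE * (1 + Real.log (k / lam)) * dist x σ

attribute [instance] ESys.mΩ ESys.prob

/-- module B -/
def TSysExists (CT : ℝ) : Prop :=
  ∀ (Λ X : Type) [Fintype Λ] [DecidableEq Λ] [Nonempty Λ] (r0 : ℝ), 0 < r0 → ∀ n k : ℕ, 1 ≤ k →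
    Nonempty (TSys Λ X r0 n k CT)

/-- module C -/
def ESysExists (CE : ℝ) : Prop :=
  ∀ (X : Type) [MetricSpace X] [Fintype X] [DecidableEq X] (a0 : X) (k : ℕ), 1 ≤ k →
    ∃ (r0 : ℝ) (n : ℕ), 0 < r0 ∧ (∀ x y : X, dist x y ≤ r0 → x = y) ∧
      Nonempty (ESys (Option (X ⊕ X)) X r0 n k a0 CE)

end Crest.Agent.R314
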