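import Crest.Agent.R314.TSize

/-! Module B: the tests for the activity bits and for the heavy child. -/

set_option autoImplicit false

namespace Crest.Agent.R314

open Finset

variable {Λ : Type} [Fintype Λ] [DecidableEq Λ] {k : ℕ} {ν : Nd Λ k} {q : Λ → Fin k → ℝ}

/-- a change of the discrete data and of the shares -/
def TAct_chg (ν : Nd Λ k) (h : Λ) (act : Λ → Bool) (rho : Λ → ℝ) : Nd Λ k :=
  { ν with h := h, act := act, rho := rho }

/-- the light terms of the potential -/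
noncomputable def TAct_LT (ν : Nd Λ k) (x : Λ → Fin k → ℝ) : ℝ :=
  ∑ c ∈ ν.L, (ν.Sh x c * ν.FF c + ν.Zh x * ν.BB c)

theorem TAct_key {R : ℝ} (he : ν.Eq R q) {h : Λ} {act : Λ → Bool} {rho : Λ → ℝ}
    (h' : (TAct_chg ν h act rho).OK) :
    0 ≤ (TAct_LT (TAct_chg ν h act rho) q - TAct_LT ν q) +
      20 * kap k * (∑ c, (if act c = true then 1 / 4 else ν.sg c) -
        ∑ c, (if ν.act c = true then 1 / 4 else ν.sg c)) +
      5 * kap k * (|∑ c ∈ (TAct_chg ν h act rho).E, ν.sg c - ν.Xh| - |∑ c ∈ ν.E, ν.sg c - ν.Xh|) +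
      100 * kap k * (∑ c ∈ univ.erase h, ν.sg c - ∑ c ∈ univ.erase ν.h, ν.sg c) +
      ν.cost (TAct_chg ν h act rho) R q := by
  have h1 := he _ h'
  have h2 : (TAct_chg ν h act rho).Pm q = TAct_LT (TAct_chg ν h act rho) q +
      14 * kap k * ∑ c, ∑ j, (q c j - (ν.q c j + eta k / 2 * (1 - ν.q c j))) ^ 2 +
      2000 * kap k * ∑ c, ∑ j, (1 - q c j - ν.p c j) ^ 2 +
      20 * kap k * ∑ c, (if act c = true then 1 / 4 else ν.sg c) +
      5 * kap k * |∑ c ∈ (TAct_chg ν h act rho).E, ν.sg c - ν.Xh| +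
      100 * kap k * ∑ c ∈ univ.erase h, ν.sg c := rfl
  rw [h2, Nd.Pm] at h1
  rw [TAct_LT.eq_1 ν]
  linarith

omit [Fintype Λ] [DecidableEq Λ] in
theorem TAct_FF (h : Λ) (act : Λ → Bool) {rho : Λ → ℝ} {c : Λ} (hc : rho c = ν.rho c) :
    (TAct_chg ν h act rho).FF c = ν.FF c := by
  change ν.aa c * Real.log ((1 + ν.dp c) / (rho c + ν.dp c)) = _
  rw [hc, Nd.FF]

omit [Fintype Λ] [DecidableEq Λ] in
theorem TAct_BB (h : Λ) (act : Λ → Bool) {rho : Λ → ℝ} {c : Λ} (hc : rho c = ν.rho c) :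
    (TAct_chg ν h act rho).BB c = ν.BB c := by
  change 14 * rho c + ν.aa c / (1 + ν.ep c) * (rho c - ν.dp c * Real.log (1 + rho c / ν.dp c)) = _
  rw [hc, Nd.BB]

theorem TAct_memL {c : Λ} : c ∈ ν.L ↔ ν.act c = true ∧ c ≠ ν.h := by simp [Nd.L]

theorem TAct_h_notMem (ν : Nd Λ k) : ν.h ∉ ν.L := fun h => (TAct_memL.1 h).2 rfl

omit [Fintype Λ] [DecidableEq Λ] in
theorem TAct_sg_nonneg (ν : Nd Λ k) (c : Λ) : 0 ≤ ν.sg c := sum_nonneg fun _ _ => sq_nonneg _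

theorem TAct_kap (hk : 1 ≤ k) : 700000 ≤ kap k := by
  have := one_le_Lg hk
  rw [kap_eq hk]
  linarith

theorem TAct_Sh (hk : 1 ≤ k) (h : ν.OK) (hw : ν.Win q) (c : Λ) :
    0 ≤ ν.Sh q c ∧ ν.Sh q c ≤ 10001 / 10000 * sig (q c) := by
  have e0 := ep0_pos hk
  have e1 := ep0_le hk
  have e2 : eta k = ep0 k / 100 := rfl
  obtain ⟨h1, h2⟩ := hw.Sh_bounds hk h c
  have h3 : 0 ≤ Sm (q c) := Sm_nonneg fun j => (h.q0 c j).trans (hw c j).1
  have h4 : Sm (q c) ≤ sig (q c) := Sm_le_sig fun j => by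
    have := (hw c j).2
    have := h.q1 c j
    nlinarith
  constructor <;> nlinarith

/-- the movement caused by activating or deactivating one child -/
theorem TAct_move {ν₁ ν₂ : Nd Λ k} (h₁ : ν₁.OK) (h₂ : ν₂.OK) {c : Λ} (hq : ν₁.q = ν₂.q)
    (hh : ν₁.h = ν₂.h) (hc : c ∉ ν₁.E) (hL : ν₂.L = insert c ν₁.L)
    (hr : ∀ d, d ≠ c → ν₁.rho d = ν₂.rho d) (hn : 0 ≤ nom (ν₂.q c)) (R : ℝ) :
    ν₁.cost ν₂ R q ≤ 101 / 100 * (2 * nom (ν₂.q c) + 2 * (ν₂.rho c * ν₂.HH R)) + sig (q c) := by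
  have hE : ν₂.E = insert c ν₁.E := by rw [Nd.E, hL, ← hh, insert_comm]; rfl
  have hcL : c ∉ ν₁.L := fun h => hc (mem_insert_of_mem h)
  have hch : c ≠ ν₁.h := fun h => hc (h ▸ mem_insert_self _ _)
  have hH : ν₁.HH R ≤ ν₂.HH R ∧ ν₂.HH R - ν₁.HH R ≤ nom (ν₂.q c) := by
    rw [Nd.HH, Nd.HH, hE, sum_insert hc, hq]
    refine ⟨max_le_max le_rfl (by linarith), sub_le_iff_le_add.2 (max_le ?_ ?_)⟩
    · exact add_nonneg hn (le_max_left _ _)
    · linarith [le_max_right 0 (∑ c ∈ ν₁.E, nom (ν₂.q c) - R)]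
  have hρ : 0 ≤ ν₂.rho c * ν₂.HH R := mul_nonneg (h₂.r0 c) (le_max_left _ _)
  have hs : ∑ l ∈ ν₂.L, ν₂.rho l = ν₂.rho c + ∑ l ∈ ν₁.L, ν₁.rho l := by
    rw [hL, sum_insert hcL, sum_congr rfl fun d hd => hr d fun e => hcL (e ▸ hd)]
  have key : ∀ d, |ν₁.Rc R d - ν₂.Rc R d| ≤
      (if d = c then nom (ν₂.q c) + ν₂.rho c * ν₂.HH R else 0) +
      (if d ∈ ν₁.E then ν₁.rE d * (ν₂.HH R - ν₁.HH R) else 0) +
      (if d = ν₁.h then ν₂.rho c * ν₂.HH R else 0) := fun d => by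
    have r0 := mul_nonneg (Nd.rE_nonneg h₁ d) (sub_nonneg.2 hH.1)
    rw [Nd.Rc, Nd.Rc, hE, hq]
    by_cases h1 : d = c
    · subst h1
      rw [if_neg hc, if_pos (mem_insert_self _ _), if_pos rfl, if_neg hc, if_neg hch, Nd.rE,
        if_neg (hh ▸ hch), abs_le]
      constructor <;> linarith
    by_cases h2 : d ∈ ν₁.E
    · rw [if_pos h2, if_pos (mem_insert_of_mem h2), if_neg h1, if_pos h2]
      by_cases h3 : d = ν₁.h
      · have : ν₂.rE d = ν₁.rE d - ν₂.rho c := by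
          rw [Nd.rE, Nd.rE, if_pos h3, if_pos (h3.trans hh), hs]; ring
        rw [if_pos h3, this, abs_le]
        constructor <;> linarith
      · have : ν₂.rE d = ν₁.rE d := by rw [Nd.rE, Nd.rE, if_neg h3, if_neg (hh ▸ h3), hr d h1]
        rw [if_neg h3, this, abs_le]
        constructor <;> linarith
    · rw [if_neg h2, if_neg (by simp [h1, h2]), if_neg h1, if_neg h2,
        if_neg fun e : d = ν₁.h => h2 (e ▸ mem_insert_self _ _)]
      simp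
  have h1 := sum_le_sum fun d (_ : d ∈ univ) => key d
  rw [sum_add_distrib, sum_add_distrib, sum_ite_eq', sum_ite_eq', sum_ite_mem, univ_inter,
    ← sum_mul, Nd.sum_rE] at h1
  have h2 : ∑ d, (if (d ∈ ν₁.E ↔ d ∈ ν₂.E) then 0 else sig (q d)) = sig (q c) := by
    rw [sum_eq_single c (fun d _ hd => by simp [hE, hd]) (by simp)]
    simp [hE, hc]
  rw [Nd.cost, sum_add_distrib, ← mul_sum, h2]
  simp only [mem_univ, if_true] at h1
  linarith [hH.2]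

theorem TAct_cost_comm (ν₁ ν₂ : Nd Λ k) (R : ℝ) : ν₁.cost ν₂ R q = ν₂.cost ν₁ R q :=
  sum_congr rfl fun c _ => by rw [abs_sub_comm]; simp only [Iff.comm]

theorem TAct_act (ν : Nd Λ k) (c : Λ) (b : Bool) :
    ∑ d, (if Function.update ν.act c b d = true then 1 / 4 else ν.sg d) -
      ∑ d, (if ν.act d = true then 1 / 4 else ν.sg d) =
      (if b = true then 1 / 4 else ν.sg c) - (if ν.act c = true then 1 / 4 else ν.sg c) := by
  rw [← sum_sub_distrib, sum_eq_single c (fun d _ hd => by simp [hd]) (by simp)]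
  simp

theorem TAct_abs (a b s : ℝ) (hs : 0 ≤ s) :
    |s + a - b| - |a - b| ≤ s ∧ |a - b| - |s + a - b| ≤ s := by
  constructor <;> refine (abs_sub_abs_le_abs_sub _ _).trans (abs_le.2 ⟨?_, ?_⟩) <;> linarith

theorem Nd.Eq.act_off (hk : 1 ≤ k) (h : ν.OK) (hw : ν.Win q) {R : ℝ} (he : ν.Eq R q)
    (hH : ν.HH R ≤ 31 / 10 * ν.Zh q) {c : Λ} (hc : c ∈ ν.L) : 1 / 8 ≤ ν.sg c := by
  by_contra hlt
  obtain ⟨c1, c2⟩ := TAct_memL.1 hc
  set ν' := TAct_chg ν ν.h (Function.update ν.act c false) ν.rho with hν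
  have hL : ν'.L = ν.L.erase c := by
    ext d
    rw [TAct_memL, mem_erase, TAct_memL]
    by_cases hd : d = c <;> simp [hν, TAct_chg, hd]
  have hL' : ν.L = insert c ν'.L := by rw [hL, insert_erase hc]
  have hcE : c ∉ ν'.E := by
    rw [Nd.E, hL, mem_insert]
    exact fun h => h.elim c2 (notMem_erase _ _)
  have hE : ν.E = insert c ν'.E := by rw [Nd.E, hL', insert_comm]; rfl
  have h' : ν'.OK := ⟨h.X0, h.X1, h.q0, h.q1, h.p0, h.p1, h.r0, h.r1, by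
    rw [hL]
    exact (sum_le_sum_of_subset_of_nonneg (erase_subset _ _) fun d _ _ => h.r0 d).trans h.rs⟩
  have S := TAct_Sh hk h hw
  have hZ : ν.Zh q = ν.Sh q c + ν'.Zh q := by rw [Nd.Zh, hE, sum_insert hcE]; rfl
  have hZ0 : 0 ≤ ν.Zh q := sum_nonneg fun d _ => (S d).1
  have k1 : TAct_LT ν' q ≤ TAct_LT ν q := by
    rw [TAct_LT, TAct_LT, hL]
    refine le_trans (sum_le_sum fun d _ => ?_) (sum_le_sum_of_subset_of_nonneg (erase_subset _ _)
      fun d _ _ => add_nonneg (mul_nonneg (S d).1 (Nd.FF_bounds hk h d).1)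
        (mul_nonneg hZ0 (Nd.BB_bounds hk h d).1))
    exact add_le_add le_rfl
      (mul_le_mul_of_nonneg_right (by linarith [(S c).1]) (Nd.BB_bounds hk h d).1)
  have k2 := TAct_move (q := q) h' h rfl rfl hcE hL' (fun _ _ => rfl) (hw.nom_le_sig hk h c).1 R
  have k3 := TAct_key he h'
  rw [TAct_act, if_pos c1, if_neg Bool.false_ne_true, ← hν, TAct_cost_comm, hE,
    sum_insert hcE] at k3
  have k4 := (TAct_abs (∑ d ∈ ν'.E, ν.sg d) ν.Xh _ (TAct_sg_nonneg ν c)).2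
  have k5 := he.eq0.rho_le hk h hw hH hc
  have k6 := mul_le_mul_of_nonneg_left hH (h.r0 c)
  have k7 := mul_le_mul_of_nonneg_right (Nd.ep_bounds hk h c).2 (S c).1
  have k8 := (he.eq0.sg_bounds hk h hw hH c).2
  have k9 := (hw.nom_le_sig hk h c).2
  have k10 := TAct_kap hk
  have k11 := (S c).2
  nlinarith

theorem Nd.Eq.act_on (hk : 1 ≤ k) (h : ν.OK) (hw : ν.Win q) {R : ℝ} (he : ν.Eq R q)
    (hH : ν.HH R ≤ 31 / 10 * ν.Zh q) {c : Λ} (hc : 1 / 2 ≤ ν.sg c) : c ∈ ν.E := by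
  by_contra hcE
  have hcL : c ∉ ν.L := fun h => hcE (mem_insert_of_mem h)
  have c2 : c ≠ ν.h := fun h => hcE (h ▸ mem_insert_self _ _)
  have c1 : ¬ν.act c = true := fun h => hcL (TAct_memL.2 ⟨h, c2⟩)
  set ν' := TAct_chg ν ν.h (Function.update ν.act c true) (Function.update ν.rho c 0) with hν
  have hL : ν'.L = insert c ν.L := by
    ext d
    rw [TAct_memL, mem_insert, TAct_memL]
    by_cases hd : d = c <;> simp [hν, TAct_chg, hd, c2]
  have hE : ν'.E = insert c ν.E := by rw [Nd.E, hL, insert_comm]; rfl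
  have r1 : ν'.rho c = 0 := Function.update_self ..
  have r2 : ∀ d, d ≠ c → ν'.rho d = ν.rho d := fun d hd => Function.update_of_ne hd ..
  have r3 : ∀ d ∈ ν.L, ν'.rho d = ν.rho d := fun d hd => r2 d fun e => hcL (e ▸ hd)
  have r4 : ∀ d, 0 ≤ ν'.rho d ∧ ν'.rho d ≤ 1 := fun d => by
    by_cases hd : d = c
    · rw [hd, r1]; norm_num
    · rw [r2 d hd]; exact ⟨h.r0 d, h.r1 d⟩
  have h' : ν'.OK := ⟨h.X0, h.X1, h.q0, h.q1, h.p0, h.p1, fun d => (r4 d).1, fun d => (r4 d).2, by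
    rw [hL, sum_insert hcL, r1, zero_add, sum_congr rfl r3]
    exact h.rs⟩
  have S := TAct_Sh hk h hw
  have hZ : ν'.Zh q = ν.Sh q c + ν.Zh q := by rw [Nd.Zh, hE, sum_insert hcE]; rfl
  have k1 : TAct_LT ν' q - TAct_LT ν q ≤ ν.Sh q c * kap k := by
    have b0 : ν'.BB c = 0 := by simp [Nd.BB, r1]
    have e : TAct_LT ν' q - TAct_LT ν q = ν.Sh q c * (ν'.FF c + ∑ d ∈ ν.L, ν.BB d) := by
      rw [TAct_LT, TAct_LT, hL, sum_insert hcL, b0, hZ, add_sub_assoc, ← sum_sub_distrib, mul_add,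
        mul_sum, mul_zero, add_zero]
      refine congrArg₂ _ rfl (sum_congr rfl fun d hd => ?_)
      rw [show ν'.FF d = _ from TAct_FF _ _ (r3 d hd), show ν'.BB d = _ from TAct_BB _ _ (r3 d hd),
        show ν'.Sh q d = ν.Sh q d from rfl]
      ring
    rw [e]
    refine mul_le_mul_of_nonneg_left ((add_le_add (Nd.FF_bounds hk h' c).2
      (Nd.sum_BB_le hk h)).trans ?_) (S c).1
    rw [← add_div, kap]
    exact div_le_div_of_nonneg_right (by norm_num) (ep0_pos hk).le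
  have k2 := TAct_move (q := q) h h' rfl rfl hcE hL (fun d hd => (r2 d hd).symm)
    (hw.nom_le_sig hk h c).1 R
  rw [r1, show ν'.q = ν.q from rfl] at k2
  have k3 := TAct_key he h'
  rw [TAct_act, if_neg c1, if_pos rfl, ← hν, hE, sum_insert hcE] at k3
  have k4 := (TAct_abs (∑ d ∈ ν.E, ν.sg d) ν.Xh _ (TAct_sg_nonneg ν c)).1
  have k8 := (he.eq0.sg_bounds hk h hw hH c).2
  have k9 := (hw.nom_le_sig hk h c).2
  have k10 := TAct_kap hk
  have k11 := (S c).2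
  nlinarith

theorem Nd.Eq.sum_dl_le (hk : 1 ≤ k) (h : ν.OK) (hw : ν.Win q) {R : ℝ} (he : ν.Eq R q)
    (hH : ν.HH R ≤ 31 / 10 * ν.Zh q) (hσ : ∑ c, sig (q c) ≤ k) :
    ∑ c ∈ ν.L, ν.dl c ≤ ep0 k / 16 := by
  have e0 := ep0_pos hk
  have h1 := (abs_le.1 (he.eq0.Xh_bounds hk h hw hH hσ)).2
  have h2 : ∑ c ∈ ν.L, ν.sg c ≤ ∑ c ∈ ν.E, ν.sg c :=
    sum_le_sum_of_subset_of_nonneg (subset_insert _ _) fun d _ _ => TAct_sg_nonneg ν d
  have h3 : 0 < max ν.Xh (1 / 8) := lt_max_of_lt_right (by norm_num)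
  have h4 : (∑ c ∈ ν.L, ν.sg c) / max ν.Xh (1 / 8) ≤ 2 :=
    (div_le_iff₀ h3).2 (by linarith [le_max_left ν.Xh (1 / 8)])
  refine (sum_le_sum fun c hc => (Nd.dl_le hk ν c).trans_eq
    (by rw [max_eq_left (he.act_off hk h hw hH hc)])).trans ?_
  rw [← mul_sum, ← sum_div]
  nlinarith

theorem Nd.Eq.heavy (hk : 1 ≤ k) (h : ν.OK) (hw : ν.Win q) {R : ℝ} (he : ν.Eq R q)
    (hH : ν.HH R ≤ 31 / 10 * ν.Zh q) (hσ : ∑ c, sig (q c) ≤ k) {c : Λ} (hc : c ∈ ν.L) :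
    ν.sg c ≤ 2 * ν.sg ν.h := by
  by_contra hlt
  obtain ⟨c1, c2⟩ := TAct_memL.1 hc
  set ν' := TAct_chg ν c (Function.update ν.act ν.h true)
    (Function.update ν.rho ν.h (ν.rE ν.h)) with hν
  have hL : ν'.L = insert ν.h (ν.L.erase c) := by
    ext d
    rw [TAct_memL, mem_insert, mem_erase, TAct_memL]
    by_cases hd : d = ν.h <;> simp [hν, TAct_chg, hd, c2.symm, and_comm]
  have hE : ν'.E = ν.E := by
    rw [Nd.E, hL, insert_comm, show ν'.h = c from rfl, insert_erase hc]; rfl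
  have hhL : ν.h ∉ ν.L.erase c := fun h => TAct_h_notMem ν (mem_of_mem_erase h)
  have r0 : ν.rE ν.h = 1 - ∑ l ∈ ν.L, ν.rho l := if_pos rfl
  have r1 : ν'.rho ν.h = ν.rE ν.h := Function.update_self ..
  have r2 : ∀ d, d ≠ ν.h → ν'.rho d = ν.rho d := fun d hd => Function.update_of_ne hd ..
  have r3 : ∀ d ∈ ν.L.erase c, ν'.rho d = ν.rho d := fun d hd => r2 d fun e => hhL (e ▸ hd)
  have r4 : ∀ d, 0 ≤ ν'.rho d ∧ ν'.rho d ≤ 1 := fun d => by
    by_cases hd : d = ν.h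
    · rw [hd, r1]
      exact ⟨Nd.rE_nonneg h _, r0 ▸ sub_le_self _ (sum_nonneg fun d _ => h.r0 d)⟩
    · rw [r2 d hd]; exact ⟨h.r0 d, h.r1 d⟩
  have r5 : ∑ l ∈ ν'.L, ν'.rho l = 1 - ν.rho c := by
    rw [hL, sum_insert hhL, r1, sum_congr rfl r3, r0, ← add_sum_erase _ _ hc]; ring
  have h' : ν'.OK := ⟨h.X0, h.X1, h.q0, h.q1, h.p0, h.p1, fun d => (r4 d).1, fun d => (r4 d).2,
    r5 ▸ sub_le_self _ (h.r0 c)⟩
  have r6 : ∀ d, ν'.rE d = ν.rE d := fun d => by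
    rw [Nd.rE, r5, show ν'.h = c from rfl]
    split_ifs with h1
    · rw [h1, Nd.rE, if_neg c2, sub_sub_cancel]
    · by_cases hd : d = ν.h
      · rw [hd, r1]
      · rw [r2 d hd, Nd.rE, if_neg hd]
  have k2 : ν.cost ν' R q = 0 := sum_eq_zero fun d _ => by
    rw [Nd.Rc, Nd.Rc, Nd.HH, Nd.HH, hE, r6, show ν'.q = ν.q from rfl]
    simp
  have S := TAct_Sh hk h hw
  have hZ : ν'.Zh q = ν.Zh q := by rw [Nd.Zh, hE]; rfl
  have hZ0 : 0 ≤ ν.Zh q := sum_nonneg fun d _ => (S d).1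
  have e0 := ep0_pos hk
  have e1 := ep0_le hk
  have k0 : ν.rE ν.h * ν.Zh q ≤ 1001 / 1000 * ν.Sh q ν.h := by
    rcases (Nd.rE_nonneg h ν.h).eq_or_lt with h0 | h0
    · rw [← h0]; linarith [(S ν.h).1]
    have a1 : ∑ d ∈ ν.L, (1 + ep0 k / 2) * ν.Sh q d ≤ ∑ d ∈ ν.L, (ν.rho d + ν.dl d) * ν.Zh q :=
      sum_le_sum fun d hd => (mul_le_mul_of_nonneg_right
        (by linarith [(Nd.ep_bounds hk h d).1]) (S d).1).trans (he.eq0.rho_ge hk h hw hH h0 hd)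
    have a2 : ν.Zh q = ν.Sh q ν.h + ∑ d ∈ ν.L, ν.Sh q d := sum_insert (TAct_h_notMem ν)
    rw [← mul_sum, ← sum_mul, sum_add_distrib, eq_sub_of_add_eq' a2.symm] at a1
    have a3 := mul_le_mul_of_nonneg_right (he.sum_dl_le hk h hw hH hσ) hZ0
    rw [r0]
    nlinarith [(S ν.h).1]
  have k1 : TAct_LT ν' q - TAct_LT ν q ≤ ν.Sh q ν.h * kap k := by
    have e : TAct_LT ν' q - TAct_LT ν q = ν.Sh q ν.h * ν'.FF ν.h + ν.Zh q * ν'.BB ν.h -
        (ν.Sh q c * ν.FF c + ν.Zh q * ν.BB c) := by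
      rw [TAct_LT, TAct_LT, hL, sum_insert hhL, ← add_sum_erase _ _ hc, hZ,
        sum_congr rfl fun d hd => by rw [show ν'.FF d = _ from TAct_FF _ _ (r3 d hd),
          show ν'.BB d = _ from TAct_BB _ _ (r3 d hd)]]
      exact add_sub_add_right_eq_sub _ _ _
    have a1 := mul_le_mul_of_nonneg_left (Nd.FF_bounds hk h' ν.h).2 (S ν.h).1
    have a2 := mul_le_mul_of_nonneg_left (Nd.BB_bounds hk h' ν.h).2 hZ0
    have a3 := mul_nonneg (S c).1 (Nd.FF_bounds hk h c).1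
    have a4 := mul_nonneg hZ0 (Nd.BB_bounds hk h c).1
    have a5 := mul_le_mul_of_nonneg_left k0 (inv_pos.2 e0).le
    have a6 := mul_nonneg (S ν.h).1 (inv_pos.2 e0).le
    rw [r1] at a2
    rw [e, kap]
    simp only [div_eq_mul_inv _ (ep0 k)] at a1 a2 ⊢
    linarith
  have k3 := TAct_key he h'
  rw [TAct_act, if_pos rfl, ← hν, hE, k2, sum_erase_eq_sub (mem_univ _),
    sum_erase_eq_sub (mem_univ _)] at k3
  have k4 : 0 ≤ if ν.act ν.h = true then 1 / 4 else ν.sg ν.h := by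
    split_ifs
    · norm_num
    · exact TAct_sg_nonneg _ _
  have k5 := he.act_off hk h hw hH hc
  have k8 := (he.eq0.sg_bounds hk h hw hH ν.h).2
  have k10 := TAct_kap hk
  have k11 := (S ν.h).2
  nlinarith

end Crest.Agent.R314
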