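import Crest.Agent.R314.Sys

/-!
Module B: the tree potential.  Node states `Nd`, the mean potential `Nd.Pm`, the allocation rule
`Nd.Rc`, tree states `TS`, `alloc`, `psi`, equilibria.
For a child `c` and a level `j : Fin k` the variable `x c j` is the indicator of `N_c ≤ j`
(a hole at level `j`) or its expectation.
-/

set_option autoImplicit false

namespace Crest.Agent.R314

open Finset

/-! ### constants -/

noncomputable def ep0 (k : ℕ) : ℝ := 1 / (1000 * Lg k)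
noncomputable def eta (k : ℕ) : ℝ := ep0 k / 100
noncomputable def kap (k : ℕ) : ℝ := 700 / ep0 k

/-! ### scalar functions -/

def g0 (q : ℝ) : ℝ := (1 - q) ^ 2 * (1 + 2 * q)
def sF (q : ℝ) : ℝ := q * (1 - q) ^ 2
def sD (q : ℝ) : ℝ := (1 - q) * (1 - 3 * q)

def nom {k : ℕ} (q : Fin k → ℝ) : ℝ := ∑ j, g0 (q j)
def Sm {k : ℕ} (q : Fin k → ℝ) : ℝ := ∑ j, sF (q j)
def sig {k : ℕ} (q : Fin k → ℝ) : ℝ := ∑ j, (1 - q j) ^ 2
def cub {k : ℕ} (q : Fin k → ℝ) : ℝ := ∑ j, (1 - q j) ^ 3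
/-- the guaranteed amount with slack parameter `A` -/
def GA {k : ℕ} (A : ℝ) (q : Fin k → ℝ) : ℝ := nom q - A * Sm q
/-- the slack allowed at size `σ` -/
noncomputable def Ab (k : ℕ) (σ : ℝ) : ℝ :=
  2 * Real.exp (28 * ep0 k * Real.log (k / max σ (1 / 32)))

/-! ### node states -/

structure Nd (Λ : Type) (k : ℕ) where
  /-- the heavy child -/
  h : Λ
  /-- activity bits -/
  act : Λ → Bool
  /-- tracked total size -/
  Xh : ℝ
  /-- tracked hole probabilities -/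
  q : Λ → Fin k → ℝ
  /-- tracked occupation probabilities -/
  p : Λ → Fin k → ℝ
  /-- shares of the deficit -/
  rho : Λ → ℝ

namespace Nd

variable {Λ : Type} [Fintype Λ] [DecidableEq Λ] {k : ℕ}

/-- active light children -/
def L (ν : Nd Λ k) : Finset Λ := univ.filter fun c => ν.act c = true ∧ c ≠ ν.h
/-- effective children -/
def E (ν : Nd Λ k) : Finset Λ := insert ν.h ν.L

structure OK (ν : Nd Λ k) : Prop where
  X0 : 0 ≤ ν.Xh
  X1 : ν.Xh ≤ 8 * k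
  q0 : ∀ c j, 0 ≤ ν.q c j
  q1 : ∀ c j, ν.q c j ≤ 1
  p0 : ∀ c j, 0 ≤ ν.p c j
  p1 : ∀ c j, ν.p c j ≤ 1
  r0 : ∀ c, 0 ≤ ν.rho c
  r1 : ∀ c, ν.rho c ≤ 1
  rs : ∑ c ∈ ν.L, ν.rho c ≤ 1

/-- tracked size -/
def sg (ν : Nd Λ k) (c : Λ) : ℝ := ∑ j, ν.p c j ^ 2
noncomputable def xx (ν : Nd Λ k) (c : Λ) : ℝ :=
  max 0 (Real.log (max ν.Xh (1 / 8) / max (ν.sg c) (1 / 8)))
noncomputable def ep (ν : Nd Λ k) (c : Λ) : ℝ := ep0 k * (1 + ν.xx c)
noncomputable def dl (ν : Nd Λ k) (c : Λ) : ℝ := ep0 k / 32 * Real.exp (-ν.xx c)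
noncomputable def dp (ν : Nd Λ k) (c : Λ) : ℝ := 4 * ν.dl c / ν.ep c
noncomputable def aa (ν : Nd Λ k) (c : Λ) : ℝ := 168 / ν.ep c
noncomputable def FF (ν : Nd Λ k) (c : Λ) : ℝ :=
  ν.aa c * Real.log ((1 + ν.dp c) / (ν.rho c + ν.dp c))
noncomputable def BB (ν : Nd Λ k) (c : Λ) : ℝ :=
  14 * ν.rho c + ν.aa c / (1 + ν.ep c) * (ν.rho c - ν.dp c * Real.log (1 + ν.rho c / ν.dp c))
/-- linearisation of `Sm` at the tracked point -/
def Sh (ν : Nd Λ k) (x : Λ → Fin k → ℝ) (c : Λ) : ℝ :=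
  ∑ j, (sF (ν.q c j) + sD (ν.q c j) * (x c j - ν.q c j))
def Zh (ν : Nd Λ k) (x : Λ → Fin k → ℝ) : ℝ := ∑ c ∈ ν.E, ν.Sh x c

/-- the node potential (per unit of edge length) -/
noncomputable def Pm (ν : Nd Λ k) (x : Λ → Fin k → ℝ) : ℝ :=
  ∑ c ∈ ν.L, (ν.Sh x c * ν.FF c + ν.Zh x * ν.BB c) +
  14 * kap k * ∑ c, ∑ j, (x c j - (ν.q c j + eta k / 2 * (1 - ν.q c j))) ^ 2 +
  2000 * kap k * ∑ c, ∑ j, (1 - x c j - ν.p c j) ^ 2 +
  20 * kap k * ∑ c, (if ν.act c = true then 1 / 4 else ν.sg c) +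
  5 * kap k * |∑ c ∈ ν.E, ν.sg c - ν.Xh| +
  100 * kap k * ∑ c ∈ univ.erase ν.h, ν.sg c

/-- the share of the deficit: the heavy child takes the remainder -/
def rE (ν : Nd Λ k) (c : Λ) : ℝ := if c = ν.h then 1 - ∑ l ∈ ν.L, ν.rho l else ν.rho c
/-- the deficit -/
def HH (ν : Nd Λ k) (R : ℝ) : ℝ := max 0 (∑ c ∈ ν.E, nom (ν.q c) - R)
/-- the amount handed to the child `c` -/
def Rc (ν : Nd Λ k) (R : ℝ) (c : Λ) : ℝ :=
  if c ∈ ν.E then nom (ν.q c) - ν.rE c * ν.HH R else 0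

/-- upper bound for the movement (per unit of edge length) caused by a change of the node state -/
noncomputable def cost (ν ν' : Nd Λ k) (R : ℝ) (q : Λ → Fin k → ℝ) : ℝ :=
  ∑ c, (101 / 100 * |ν.Rc R c - ν'.Rc R c| + if (c ∈ ν.E ↔ c ∈ ν'.E) then 0 else sig (q c))

/-- equilibrium with respect to changes of the continuous data -/
def Eq0 (ν : Nd Λ k) (R : ℝ) (q : Λ → Fin k → ℝ) : Prop :=
  ∀ ν' : Nd Λ k, ν'.OK → ν'.h = ν.h → ν'.act = ν.act → ν.Pm q ≤ ν'.Pm q + ν.cost ν' R q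

/-- equilibrium of a node -/
def Eq (ν : Nd Λ k) (R : ℝ) (q : Λ → Fin k → ℝ) : Prop :=
  ∀ ν' : Nd Λ k, ν'.OK → ν.Pm q ≤ ν'.Pm q + ν.cost ν' R q

/-- the tracked hole probabilities are accurate -/
def Win (ν : Nd Λ k) (q : Λ → Fin k → ℝ) : Prop :=
  ∀ c j, ν.q c j ≤ q c j ∧ q c j ≤ ν.q c j + eta k * (1 - ν.q c j)

/-- the default node state -/
noncomputable def dflt (Λ : Type) [Nonempty Λ] (k : ℕ) : Nd Λ k :=
  ⟨Classical.arbitrary Λ, fun _ => false, 0, fun _ _ => 1, fun _ _ => 0, fun _ => 0⟩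

end Nd

/-! ### tree states -/

def TS (Λ : Type) (k : ℕ) : ℕ → Type
  | 0 => PUnit
  | n + 1 => Nd Λ k × (Λ → TS Λ k n)

variable {Λ X : Type} [Fintype Λ] [DecidableEq Λ] {k : ℕ}

def TOK : {n : ℕ} → TS Λ k n → Prop
  | 0, _ => True
  | _ + 1, T => T.1.OK ∧ ∀ c, TOK (T.2 c)

def AL.zero (Λ : Type) : (n : ℕ) → AL Λ n
  | 0 => (0 : ℝ)
  | n + 1 => ((0 : ℝ), fun _ => AL.zero Λ n)

/-- the fractional allocation of a tree state that receives the amount `R` -/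
def alloc : {n : ℕ} → TS Λ k n → ℝ → AL Λ n
  | 0, _, R => R
  | n + 1, T, R => (R, fun c => if c ∈ T.1.E then alloc (T.2 c) (T.1.Rc R c) else AL.zero Λ n)

/-- hole indicators of a placement -/
def hole {α : Type} (e : Fin k → Option α) (j : Fin k) : ℝ := if cntO e ≤ j.val then 1 else 0

/-- the tree potential against one offline placement -/
noncomputable def psi (r0 : ℝ) : {n : ℕ} → TS Λ k n → (Fin k → Option (Lab Λ X n)) → ℝ
  | 0, _, _ => 0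
  | n + 1, T, e => rr r0 n * T.1.Pm (fun c => hole fun i => subL c (e i)) +
      ∑ c, psi r0 (T.2 c) fun i => subL c (e i)

/-- hole probabilities of a random placement -/
def qOf {Θ α : Type} [Fintype Θ] (b : Θ → ℝ) (e : Θ → Fin k → Option α) (j : Fin k) : ℝ :=
  ∑ θ, b θ * hole (e θ) j

/-- equilibrium of a tree state -/
def TEq (r0 : ℝ) {Θ : Type} [Fintype Θ] (b : Θ → ℝ) {n : ℕ} (T : TS Λ k n) (R : ℝ)
    (e : Θ → Fin k → Option (Lab Λ X n)) : Prop :=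
  ∀ T' : TS Λ k n, TOK T' →
    ∑ θ, b θ * psi r0 T (e θ) ≤ ∑ θ, b θ * psi r0 T' (e θ) + AL.dist r0 (alloc T R) (alloc T' R)

noncomputable def TS.dflt (Λ : Type) [Nonempty Λ] (k : ℕ) : (n : ℕ) → TS Λ k n
  | 0 => PUnit.unit
  | n + 1 => (Nd.dflt Λ k, fun _ => TS.dflt Λ k n)

/-- distance of optional labels -/
noncomputable def relO (r0 : ℝ) {n : ℕ} : Option (Lab Λ X n) → Option (Lab Λ X n) → ℝ
  | none, none => 0
  | some u, some v => 2 * rel r0 u v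
  | _, _ => SS r0 n

end Crest.Agent.R314
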