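import Crest.Agent.R314.TScal

/-! Module B: hole probabilities, superadditivity, expectation of the node potential. -/

set_option autoImplicit false

namespace Crest.Agent.R314

open Finset

variable {Λ X Θ : Type} [Fintype Λ] [DecidableEq Λ] [Fintype Θ] {k : ℕ}

/-- occupation indicator -/
def TSuper_oc (N : ℕ) (j : Fin k) : ℝ := if j.val < N then 1 else 0

theorem TSuper_cnt_le {α : Type} (e : Fin k → Option α) : cntO e ≤ k := by
  unfold cntO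
  calc (univ.filter fun i => (e i).isSome).card ≤ (univ : Finset (Fin k)).card := card_filter_le _ _
    _ = k := by simp

theorem TSuper_hole {α : Type} (e : Fin k → Option α) (j : Fin k) :
    hole e j = 1 - TSuper_oc (cntO e) j := by
  unfold hole TSuper_oc
  by_cases h : cntO e ≤ j.val
  · rw [if_pos h, if_neg (by omega)]; ring
  · rw [if_neg h, if_pos (by omega)]; ring

theorem TSuper_oc_mul (N N' : ℕ) (j : Fin k) :
    TSuper_oc N j * TSuper_oc N' j = TSuper_oc (min N N') j := by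
  unfold TSuper_oc
  by_cases h : j.val < N <;> by_cases h' : j.val < N' <;> simp [h, h']

theorem TSuper_sum_oc {N : ℕ} (hN : N ≤ k) : ∑ j : Fin k, TSuper_oc N j = N := by
  unfold TSuper_oc
  rw [Finset.sum_boole]
  congr 1
  have : (univ.filter fun j : Fin k => j.val < N) = (univ : Finset (Fin N)).map
      (Fin.castLEEmb hN) := by
    ext j
    simp only [mem_filter, mem_univ, true_and, mem_map]
    constructor
    · intro h
      exact ⟨⟨j.val, h⟩, by ext; simp⟩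
    · rintro ⟨i, rfl⟩
      simpa using i.isLt
  rw [this, card_map]
  simp

theorem TSuper_oc_nonneg (N : ℕ) (j : Fin k) : 0 ≤ TSuper_oc N j := by
  unfold TSuper_oc; split_ifs <;> norm_num

theorem TSuper_oc_le (N : ℕ) (j : Fin k) : TSuper_oc N j ≤ 1 := by
  unfold TSuper_oc; split_ifs <;> norm_num

theorem TSuper_one_sub {α : Type} {b : Θ → ℝ} (hb1 : ∑ θ, b θ = 1) (e : Θ → Fin k → Option α)
    (j : Fin k) : 1 - qOf b e j = ∑ θ, b θ * TSuper_oc (cntO (e θ)) j := by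
  unfold qOf
  simp only [TSuper_hole, mul_sub, mul_one, sum_sub_distrib, hb1]
  ring

theorem qOf_bounds {α : Type} {b : Θ → ℝ} (hb : ∀ θ, 0 ≤ b θ) (hb1 : ∑ θ, b θ = 1)
    (e : Θ → Fin k → Option α) (j : Fin k) : 0 ≤ qOf b e j ∧ qOf b e j ≤ 1 := by
  have h := TSuper_one_sub hb1 e j
  have h0 : 0 ≤ ∑ θ, b θ * TSuper_oc (cntO (e θ)) j :=
    sum_nonneg fun θ _ => mul_nonneg (hb θ) (TSuper_oc_nonneg _ _)
  have h1 : ∑ θ, b θ * TSuper_oc (cntO (e θ)) j ≤ ∑ θ, b θ :=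
    sum_le_sum fun θ _ => mul_le_of_le_one_right (hb θ) (TSuper_oc_le _ _)
  constructor <;> linarith

theorem sum_one_sub_qOf {α : Type} {b : Θ → ℝ} (hb1 : ∑ θ, b θ = 1) (e : Θ → Fin k → Option α) :
    ∑ j, (1 - qOf b e j) = ∑ θ, b θ * (cntO (e θ) : ℝ) := by
  simp only [TSuper_one_sub hb1]
  rw [sum_comm]
  refine sum_congr rfl fun θ _ => ?_
  rw [← mul_sum, TSuper_sum_oc (TSuper_cnt_le _)]

theorem sig_qOf_le {α : Type} {b : Θ → ℝ} (hb : ∀ θ, 0 ≤ b θ) (hb1 : ∑ θ, b θ = 1)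
    (e : Θ → Fin k → Option α) : sig (qOf b e) ≤ k := by
  unfold sig
  calc ∑ j, (1 - qOf b e j) ^ 2 ≤ ∑ _j : Fin k, (1 : ℝ) := by
        refine sum_le_sum fun j _ => ?_
        obtain ⟨h0, h1⟩ := qOf_bounds hb hb1 e j
        nlinarith
    _ = k := by simp

theorem sum_cntO_subL {n : ℕ} (e : Fin k → Option (Lab Λ X (n + 1))) :
    ∑ c : Λ, cntO (fun i => subL c (e i)) = cntO e := by
  unfold cntO
  simp only [card_filter]
  rw [sum_comm]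
  refine sum_congr rfl fun i _ => ?_
  cases h : e i with
  | none => simp [subL]
  | some u =>
    have : ∀ c : Λ, (if (subL c (some u)).isSome = true then 1 else 0 : ℕ) =
        if u.1.1 = c then 1 else 0 := by
      intro c
      by_cases hc : u.1.1 = c <;> simp [subL, hc]
    simp only [this]
    simp

theorem TSuper_sig {α : Type} {b : Θ → ℝ} (hb1 : ∑ θ, b θ = 1) (e : Θ → Fin k → Option α) :
    sig (qOf b e) = ∑ θ, ∑ θ', b θ * b θ' * ((min (cntO (e θ)) (cntO (e θ')) : ℕ) : ℝ) := by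
  unfold sig
  simp only [TSuper_one_sub hb1, sq, sum_mul_sum]
  rw [sum_comm]
  refine sum_congr rfl fun θ _ => ?_
  rw [sum_comm]
  refine sum_congr rfl fun θ' _ => ?_
  rw [← TSuper_sum_oc (k := k) ((min_le_left _ _).trans (TSuper_cnt_le (e θ))), mul_sum]
  refine sum_congr rfl fun j _ => ?_
  rw [← TSuper_oc_mul]; ring

theorem TSuper_cub {α : Type} {b : Θ → ℝ} (hb1 : ∑ θ, b θ = 1) (e : Θ → Fin k → Option α) :
    cub (qOf b e) = ∑ θ, ∑ θ', ∑ θ'', b θ * b θ' * b θ'' *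
      ((min (min (cntO (e θ)) (cntO (e θ'))) (cntO (e θ'')) : ℕ) : ℝ) := by
  unfold cub
  have h3 : ∀ f : Θ → ℝ, (∑ θ, f θ) ^ 3 = ∑ θ, ∑ θ', ∑ θ'', f θ * f θ' * f θ'' := by
    intro f
    rw [pow_succ, sq, sum_mul_sum, sum_mul]
    refine sum_congr rfl fun θ _ => ?_
    rw [sum_mul_sum]
  simp only [TSuper_one_sub hb1, h3]
  rw [sum_comm]
  refine sum_congr rfl fun θ _ => ?_
  rw [sum_comm]
  refine sum_congr rfl fun θ' _ => ?_
  rw [sum_comm]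
  refine sum_congr rfl fun θ'' _ => ?_
  rw [← TSuper_sum_oc (k := k) ((min_le_right _ _).trans (TSuper_cnt_le (e θ''))), mul_sum]
  refine sum_congr rfl fun j _ => ?_
  rw [← TSuper_oc_mul, ← TSuper_oc_mul]; ring

theorem TSuper_min2 (a a' : Λ → ℕ) : ∑ c, min (a c) (a' c) ≤ min (∑ c, a c) (∑ c, a' c) :=
  le_min (sum_le_sum fun _ _ => min_le_left _ _) (sum_le_sum fun _ _ => min_le_right _ _)

theorem TSuper_min3 (a a' a'' : Λ → ℕ) :
    ∑ c, min (min (a c) (a' c)) (a'' c) ≤ min (min (∑ c, a c) (∑ c, a' c)) (∑ c, a'' c) :=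
  le_min ((sum_le_sum fun _ _ => min_le_left _ _).trans (TSuper_min2 a a'))
    (sum_le_sum fun _ _ => min_le_right _ _)

theorem sig_super {n : ℕ} {b : Θ → ℝ} (hb : ∀ θ, 0 ≤ b θ) (hb1 : ∑ θ, b θ = 1)
    (e : Θ → Fin k → Option (Lab Λ X (n + 1))) :
    ∑ c : Λ, sig (qOf b fun θ i => subL c (e θ i)) ≤ sig (qOf b e) := by
  simp only [TSuper_sig hb1]
  rw [sum_comm]
  refine sum_le_sum fun θ _ => ?_
  rw [sum_comm]
  refine sum_le_sum fun θ' _ => ?_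
  rw [← mul_sum]
  refine mul_le_mul_of_nonneg_left ?_ (mul_nonneg (hb _) (hb _))
  rw [← sum_cntO_subL (e θ), ← sum_cntO_subL (e θ')]
  exact_mod_cast TSuper_min2 _ _

theorem TSuper_cub_super {n : ℕ} {b : Θ → ℝ} (hb : ∀ θ, 0 ≤ b θ) (hb1 : ∑ θ, b θ = 1)
    (e : Θ → Fin k → Option (Lab Λ X (n + 1))) :
    ∑ c : Λ, cub (qOf b fun θ i => subL c (e θ i)) ≤ cub (qOf b e) := by
  simp only [TSuper_cub hb1]
  rw [sum_comm]
  refine sum_le_sum fun θ _ => ?_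
  rw [sum_comm]
  refine sum_le_sum fun θ' _ => ?_
  rw [sum_comm]
  refine sum_le_sum fun θ'' _ => ?_
  rw [← mul_sum]
  refine mul_le_mul_of_nonneg_left ?_ (mul_nonneg (mul_nonneg (hb _) (hb _)) (hb _))
  rw [← sum_cntO_subL (e θ), ← sum_cntO_subL (e θ'), ← sum_cntO_subL (e θ'')]
  exact_mod_cast TSuper_min3 _ _ _

theorem GA_super {n : ℕ} {b : Θ → ℝ} (hb : ∀ θ, 0 ≤ b θ) (hb1 : ∑ θ, b θ = 1)
    (e : Θ → Fin k → Option (Lab Λ X (n + 1))) {A : ℝ} (h2 : 2 ≤ A) (h3 : A ≤ 3) :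
    ∑ c : Λ, GA A (qOf b fun θ i => subL c (e θ i)) ≤ GA A (qOf b e) := by
  simp only [GA_eq, sum_add_distrib, ← mul_sum]
  have h1 := sig_super hb hb1 e
  have h4 := TSuper_cub_super hb hb1 e
  have := mul_le_mul_of_nonneg_left h1 (sub_nonneg.2 h3)
  have := mul_le_mul_of_nonneg_left h4 (sub_nonneg.2 h2)
  linarith

/-- a surely occupied node -/
theorem one_le_of_occ {α : Type} {b : Θ → ℝ} (hb : ∀ θ, 0 ≤ b θ) (hb1 : ∑ θ, b θ = 1)
    (e : Θ → Fin k → Option α) (h : ∀ θ, b θ ≠ 0 → ∃ i, (e θ i).isSome) {A : ℝ} (h2 : 2 ≤ A)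
    (h3 : A ≤ 3) : 1 ≤ sig (qOf b e) ∧ 1 ≤ GA A (qOf b e) := by
  have hex : ∃ θ, b θ ≠ 0 := by
    by_contra hc
    push Not at hc
    simp [hc] at hb1
  obtain ⟨θ0, hθ0⟩ := hex
  obtain ⟨i0, -⟩ := h θ0 hθ0
  have hk : 0 < k := lt_of_le_of_lt (Nat.zero_le _) i0.isLt
  have hq : 1 - qOf b e ⟨0, hk⟩ = 1 := by
    rw [TSuper_one_sub hb1, ← hb1]
    refine sum_congr rfl fun θ _ => ?_
    by_cases hθ : b θ = 0
    · simp [hθ]
    · obtain ⟨i, hi⟩ := h θ hθ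
      have : 0 < cntO (e θ) := card_pos.2 ⟨i, by simp [hi]⟩
      simp [TSuper_oc, this]
  have hs : 1 ≤ sig (qOf b e) := by
    unfold sig
    have := single_le_sum (f := fun j => (1 - qOf b e j) ^ 2) (fun j _ => sq_nonneg _)
      (mem_univ (⟨0, hk⟩ : Fin k))
    simp only [hq] at this
    linarith
  have hc : 1 ≤ cub (qOf b e) := by
    unfold cub
    have := single_le_sum (f := fun j => (1 - qOf b e j) ^ 3)
      (fun j _ => pow_nonneg (sub_nonneg.2 (qOf_bounds hb hb1 e j).2) _)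
      (mem_univ (⟨0, hk⟩ : Fin k))
    simp only [hq] at this
    linarith
  refine ⟨hs, ?_⟩
  rw [GA_eq]
  nlinarith

/-- the root -/
theorem qOf_full {α : Type} (b : Θ → ℝ) (e : Θ → Fin k → α) (j : Fin k) :
    qOf b (fun θ i => some (e θ i)) j = 0 := by
  unfold qOf
  refine sum_eq_zero fun θ _ => ?_
  have : cntO (fun i => some (e θ i)) = k := by simp [cntO]
  have hj := j.isLt
  rw [hole, this, if_neg (by omega), mul_zero]

theorem TSuper_E_const {b : Θ → ℝ} (hb1 : ∑ θ, b θ = 1) (r : ℝ) : ∑ θ, b θ * r = r := by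
  rw [← sum_mul, hb1, one_mul]

theorem TSuper_E_sq {b : Θ → ℝ} (hb1 : ∑ θ, b θ = 1) (y : Θ → ℝ) (hy : ∀ θ, y θ = 0 ∨ y θ = 1)
    (u : ℝ) : ∑ θ, b θ * (y θ - u) ^ 2 =
      (∑ θ, b θ * y θ - u) ^ 2 + (∑ θ, b θ * y θ) * (1 - ∑ θ, b θ * y θ) := by
  have h1 : ∀ θ, b θ * (y θ - u) ^ 2 = (1 - 2 * u) * (b θ * y θ) + u ^ 2 * b θ := by
    intro θ
    rcases hy θ with h | h <;> rw [h] <;> ring
  simp only [h1, sum_add_distrib, ← mul_sum, hb1]
  ring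

theorem TSuper_E_sq' {b : Θ → ℝ} (hb1 : ∑ θ, b θ = 1) (y : Θ → ℝ) (hy : ∀ θ, y θ = 0 ∨ y θ = 1)
    (u : ℝ) : ∑ θ, b θ * (1 - y θ - u) ^ 2 =
      (1 - ∑ θ, b θ * y θ - u) ^ 2 + (∑ θ, b θ * y θ) * (1 - ∑ θ, b θ * y θ) := by
  have h := TSuper_E_sq hb1 y hy (1 - u)
  have h1 : ∀ θ, b θ * (1 - y θ - u) ^ 2 = b θ * (y θ - (1 - u)) ^ 2 := fun θ => by ring
  simp only [h1]
  rw [h]; ring

theorem TSuper_E_Sh {b : Θ → ℝ} (hb1 : ∑ θ, b θ = 1) (x : Θ → Λ → Fin k → ℝ) (ν : Nd Λ k)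
    (c : Λ) : ∑ θ, b θ * ν.Sh (x θ) c = ν.Sh (fun c j => ∑ θ, b θ * x θ c j) c := by
  unfold Nd.Sh
  simp only [mul_sum]
  rw [sum_comm]
  refine sum_congr rfl fun j _ => ?_
  have h1 : ∀ θ, b θ * (sF (ν.q c j) + sD (ν.q c j) * (x θ c j - ν.q c j)) =
      (sF (ν.q c j) - sD (ν.q c j) * ν.q c j) * b θ + sD (ν.q c j) * (b θ * x θ c j) :=
    fun θ => by ring
  simp only [h1, sum_add_distrib, ← mul_sum, hb1]
  ring

theorem TSuper_E_Zh {b : Θ → ℝ} (hb1 : ∑ θ, b θ = 1) (x : Θ → Λ → Fin k → ℝ) (ν : Nd Λ k) :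
    ∑ θ, b θ * ν.Zh (x θ) = ν.Zh (fun c j => ∑ θ, b θ * x θ c j) := by
  unfold Nd.Zh
  simp only [mul_sum]
  rw [sum_comm]
  exact sum_congr rfl fun c _ => TSuper_E_Sh hb1 x ν c

theorem exp_Pm {b : Θ → ℝ} (hb1 : ∑ θ, b θ = 1) (x : Θ → Λ → Fin k → ℝ)
    (hx : ∀ θ c j, x θ c j = 0 ∨ x θ c j = 1) (ν : Nd Λ k) :
    ∑ θ, b θ * ν.Pm (x θ) = ν.Pm (fun c j => ∑ θ, b θ * x θ c j) +
      2014 * kap k * ∑ c, ∑ j, (∑ θ, b θ * x θ c j) * (1 - ∑ θ, b θ * x θ c j) := by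
  have hA : ∑ θ, b θ * ∑ c ∈ ν.L, (ν.Sh (x θ) c * ν.FF c + ν.Zh (x θ) * ν.BB c) =
      ∑ c ∈ ν.L, (ν.Sh (fun c j => ∑ θ, b θ * x θ c j) c * ν.FF c +
        ν.Zh (fun c j => ∑ θ, b θ * x θ c j) * ν.BB c) := by
    simp only [mul_sum]
    rw [sum_comm]
    refine sum_congr rfl fun c _ => ?_
    rw [← TSuper_E_Sh hb1, ← TSuper_E_Zh hb1, sum_mul, sum_mul, ← sum_add_distrib]
    exact sum_congr rfl fun θ _ => by ring
  have hB : ∑ θ, b θ * ∑ c, ∑ j, (x θ c j - (ν.q c j + eta k / 2 * (1 - ν.q c j))) ^ 2 =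
      ∑ c, ∑ j, ((∑ θ, b θ * x θ c j) - (ν.q c j + eta k / 2 * (1 - ν.q c j))) ^ 2 +
      ∑ c, ∑ j, (∑ θ, b θ * x θ c j) * (1 - ∑ θ, b θ * x θ c j) := by
    rw [← sum_add_distrib]
    simp only [← sum_add_distrib, ← TSuper_E_sq hb1 _ (fun θ => hx θ _ _)]
    simp only [mul_sum]
    rw [sum_comm]
    refine sum_congr rfl fun c _ => ?_
    rw [sum_comm]
  have hC : ∑ θ, b θ * ∑ c, ∑ j, (1 - x θ c j - ν.p c j) ^ 2 =
      ∑ c, ∑ j, (1 - (∑ θ, b θ * x θ c j) - ν.p c j) ^ 2 +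
      ∑ c, ∑ j, (∑ θ, b θ * x θ c j) * (1 - ∑ θ, b θ * x θ c j) := by
    rw [← sum_add_distrib]
    simp only [← sum_add_distrib, ← TSuper_E_sq' hb1 _ (fun θ => hx θ _ _)]
    simp only [mul_sum]
    rw [sum_comm]
    refine sum_congr rfl fun c _ => ?_
    rw [sum_comm]
  unfold Nd.Pm
  generalize 20 * kap k * ∑ c, (if ν.act c = true then 1 / 4 else ν.sg c) = D1
  generalize 5 * kap k * |∑ c ∈ ν.E, ν.sg c - ν.Xh| = D2
  generalize 100 * kap k * ∑ c ∈ univ.erase ν.h, ν.sg c = D3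
  have h1 : ∀ (θ : Θ) (a1 a2 a3 : ℝ), b θ * (a1 + 14 * kap k * a2 + 2000 * kap k * a3 + D1 + D2 + D3)
      = b θ * a1 + 14 * kap k * (b θ * a2) + 2000 * kap k * (b θ * a3) + (D1 + D2 + D3) * b θ :=
    fun θ a1 a2 a3 => by ring
  simp only [h1]
  rw [sum_add_distrib, sum_add_distrib, sum_add_distrib, ← mul_sum, ← mul_sum, ← mul_sum, hA, hB,
    hC, hb1]
  ring

end Crest.Agent.R314
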