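import Crest.Agent.R314.TQ
import Crest.Agent.R314.TSuper

/-! Module B: movement bounds and inheritance of equilibria. -/

set_option autoImplicit false

namespace Crest.Agent.R314

open Finset

variable {Λ X Θ : Type} [Fintype Λ] [DecidableEq Λ] [Fintype Θ] {k : ℕ} {r0 : ℝ}

theorem AL.dist_self : ∀ {n : ℕ} (A : AL Λ n), AL.dist r0 A A = 0
  | 0, _ => rfl
  | n + 1, A => sum_eq_zero fun c _ => by rw [sub_self, abs_zero, mul_zero, AL.dist_self, add_zero]

theorem AL.dist_comm : ∀ {n : ℕ} (A A' : AL Λ n), AL.dist r0 A A' = AL.dist r0 A' A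
  | 0, _, _ => rfl
  | n + 1, A, A' => sum_congr rfl fun c _ => by rw [abs_sub_comm, AL.dist_comm]

theorem AL.dist_triangle (hr : 0 < r0) : ∀ {n : ℕ} (A A' A'' : AL Λ n),
    AL.dist r0 A A'' ≤ AL.dist r0 A A' + AL.dist r0 A' A''
  | 0, _, _, _ => (add_zero 0).ge
  | n + 1, A, A', A'' => (sum_le_sum fun c _ => by
      have h1 := AL.dist_triangle hr (A.2 c) (A'.2 c) (A''.2 c)
      have h2 := mul_le_mul_of_nonneg_left
        (abs_sub_le (A.2 c).val (A'.2 c).val (A''.2 c).val) (rr_pos hr n).le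
      linarith).trans_eq sum_add_distrib

theorem alloc_val : ∀ {n : ℕ} (T : TS Λ k n) (R : ℝ), (alloc T R).val = R
  | 0, _, _ => rfl
  | _ + 1, _, _ => rfl

theorem AL.zero_val : ∀ n : ℕ, (AL.zero Λ n).val = 0
  | 0 => rfl
  | _ + 1 => rfl

theorem TInh.dist_nonneg (hr : 0 < r0) {n : ℕ} (A A' : AL Λ n) : 0 ≤ AL.dist r0 A A' := by
  have := AL.dist_triangle hr A A' A
  rw [AL.dist_self, AL.dist_comm A' A] at this
  linarith

theorem TInh.dist_succ {n : ℕ} (T T' : TS Λ k (n + 1)) (R R' : ℝ) :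
    AL.dist r0 (alloc T R) (alloc T' R') = ∑ c, (rr r0 n * |T.1.Rc R c - T'.1.Rc R' c| +
      AL.dist r0 (if c ∈ T.1.E then alloc (T.2 c) (T.1.Rc R c) else AL.zero Λ n)
        (if c ∈ T'.1.E then alloc (T'.2 c) (T'.1.Rc R' c) else AL.zero Λ n)) := by
  have h : ∀ (T : TS Λ k (n + 1)) (R : ℝ) (c : Λ), ((alloc T R).2 c).val = T.1.Rc R c := by
    intro T R c
    change AL.val (if _ then _ else _) = _
    split_ifs with h
    · exact alloc_val _ _
    · rw [AL.zero_val, Nd.Rc, if_neg h]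
  exact sum_congr rfl fun c _ => by rw [h, h]; rfl

theorem alloc_shift (hr : 0 < r0) : ∀ {n : ℕ} (T : TS Λ k n) (_ : TOK T) (R R' : ℝ),
    AL.dist r0 (alloc T R) (alloc T R') ≤ SS r0 n * |R - R'|
  | 0, _, _, _, _ => by rw [SS_zero, zero_mul]; exact le_rfl
  | n + 1, T, hT, R, R' => by
    refine le_trans ?_ (mul_le_mul_of_nonneg_left (Nd.sum_abs_Rc_sub hT.1 R R') (SS_nonneg hr _))
    rw [TInh.dist_succ, mul_sum]
    refine sum_le_sum fun c _ => ?_
    rw [SS_succ, add_mul, add_comm]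
    refine add_le_add_left ?_ _
    split_ifs
    · exact alloc_shift hr _ (hT.2 c) _ _
    · rw [AL.dist_self]
      exact mul_nonneg (SS_nonneg hr _) (abs_nonneg _)

variable {b : Θ → ℝ}

theorem TEq.child (hr : 0 < r0) {n : ℕ} {T : TS Λ k (n + 1)} (hT : TOK T) {R : ℝ}
    {e : Θ → Fin k → Option (Lab Λ X (n + 1))} (h : TEq r0 b T R e) (c : Λ) :
    TEq r0 b (T.2 c) (T.1.Rc R c) fun θ i => subL c (e θ i) := by
  intro T' hT'
  have h1 := h (T.1, Function.update T.2 c T') ⟨hT.1, fun c' => by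
    rcases eq_or_ne c' c with rfl | hc
    · simpa using hT'
    · simpa [hc] using hT.2 c'⟩
  have h2 : AL.dist r0 (alloc T R) (alloc (n := n + 1) (T.1, Function.update T.2 c T') R) ≤
      AL.dist r0 (alloc (T.2 c) (T.1.Rc R c)) (alloc T' (T.1.Rc R c)) := by
    rw [TInh.dist_succ, sum_eq_single c (fun c' _ hc => by simp [hc, AL.dist_self]) (by simp)]
    simp only [sub_self, abs_zero, mul_zero, zero_add, Function.update_self]
    split_ifs
    · exact le_rfl
    · rw [AL.dist_self]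
      exact TInh.dist_nonneg hr _ _
  have h3 : ∀ θ, psi r0 (n := n + 1) (T.1, Function.update T.2 c T') (e θ) = psi r0 T (e θ) -
      psi r0 (T.2 c) (fun i => subL c (e θ i)) + psi r0 T' fun i => subL c (e θ i) := fun θ => by
    simp only [psi]
    rw [← add_sum_erase _ _ (mem_univ c), ← add_sum_erase _ _ (mem_univ c), Function.update_self,
      sum_congr rfl fun c' hc => by rw [Function.update_of_ne (ne_of_mem_erase hc)]]
    ring
  simp only [h3, mul_add, mul_sub, sum_add_distrib, sum_sub_distrib] at h1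
  linarith

theorem TInh.node (hr : 0 < r0) (hb1 : ∑ θ, b θ = 1) {n : ℕ} {T : TS Λ k (n + 1)} (hT : TOK T)
    {R : ℝ} {e : Θ → Fin k → Option (Lab Λ X (n + 1))} (h : TEq r0 b T R e) {ν : Nd Λ k}
    (hν : ν.OK) (hc : ∀ c, ¬ (c ∈ T.1.E ↔ c ∈ ν.E) → ∀ R', AL.dist r0 (alloc (T.2 c) R')
      (AL.zero Λ n) ≤ SS r0 n * (|R'| + 16 * sig (qOf b fun θ i => subL c (e θ i)))) :
    T.1.Pm (fun c => qOf b fun θ i => subL c (e θ i)) ≤
      ν.Pm (fun c => qOf b fun θ i => subL c (e θ i)) +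
        T.1.cost ν R fun c => qOf b fun θ i => subL c (e θ i) := by
  have h1 := h (ν, T.2) ⟨hν, hT.2⟩
  have h2 := exp_Pm hb1 (fun θ c => hole fun i => subL c (e θ i))
    (fun θ c j => by unfold hole; split_ifs <;> simp)
  have h3 : AL.dist r0 (alloc T R) (alloc (n := n + 1) (ν, T.2) R) ≤
      rr r0 n * T.1.cost ν R fun c => qOf b fun θ i => subL c (e θ i) := by
    rw [TInh.dist_succ, Nd.cost, mul_sum]
    refine sum_le_sum fun c _ => ?_
    have a1 := SS_le hr n
    have a2 := SS_nonneg hr n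
    have a3 := abs_nonneg (T.1.Rc R c - ν.Rc R c)
    have a4 : 0 ≤ sig (qOf b fun θ i => subL c (e θ i)) := sum_nonneg fun _ _ => sq_nonneg _
    have a5 := mul_le_mul_of_nonneg_right a1 a3
    have a6 := mul_le_mul_of_nonneg_right a1 a4
    have a7 := mul_nonneg a2 a3
    have a8 := mul_nonneg a2 a4
    by_cases h4 : c ∈ T.1.E <;> by_cases h5 : c ∈ ν.E
    · simp only [h4, h5, if_true]
      linarith [alloc_shift hr _ (hT.2 c) (T.1.Rc R c) (ν.Rc R c)]
    · have := hc c (fun h => h5 (h.1 h4)) (T.1.Rc R c)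
      have e0 : ν.Rc R c = 0 := if_neg h5
      simp only [e0, sub_zero] at a5 a7
      simp only [h4, h5, if_true, if_false, iff_false, not_true, e0, sub_zero]
      linarith
    · have := hc c (fun h => h4 (h.2 h5)) (ν.Rc R c)
      have e0 : T.1.Rc R c = 0 := if_neg h4
      simp only [e0, zero_sub, abs_neg] at a5 a7
      rw [AL.dist_comm] at this
      simp only [h4, h5, if_true, if_false, iff_true, e0, zero_sub, abs_neg]
      linarith
    · simp only [h4, h5, if_true, if_false, AL.dist_self]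
      linarith
  simp only [psi, mul_add, sum_add_distrib, mul_left_comm _ (rr r0 n), ← mul_sum, h2] at h1
  refine le_of_mul_le_mul_left ?_ (rr_pos hr n)
  rw [mul_add]
  unfold qOf at h3 ⊢
  linarith

theorem TEq.eq0 (hr : 0 < r0) (hb1 : ∑ θ, b θ = 1) {n : ℕ} {T : TS Λ k (n + 1)} (hT : TOK T)
    {R : ℝ} {e : Θ → Fin k → Option (Lab Λ X (n + 1))} (h : TEq r0 b T R e) :
    T.1.Eq0 R fun c => qOf b fun θ i => subL c (e θ i) := fun ν hν h1 h2 =>
  TInh.node hr hb1 hT h hν fun c hc => absurd (by simp only [Nd.E, Nd.L, h1, h2]) hc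

theorem TEq.crude (hr : 0 < r0) (hk : 1 ≤ k) (hb : ∀ θ, 0 ≤ b θ) (hb1 : ∑ θ, b θ = 1) :
    ∀ {n : ℕ} {T : TS Λ k n} (_ : TOK T) {R0 : ℝ} {e : Θ → Fin k → Option (Lab Λ X n)}
      (_ : TEq r0 b T R0 e) (R : ℝ),
      AL.dist r0 (alloc T R) (AL.zero Λ n) ≤ SS r0 n * (|R| + 16 * sig (qOf b e))
  | 0, _, _, _, _, _, _ => by rw [SS_zero, zero_mul]; exact le_rfl
  | n + 1, T, hT, R0, e, h, R => by
    have hw := (h.eq0 hr hb1 hT).win hk hT.1 (fun c j => (qOf_bounds hb hb1 _ j).1)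
      fun c j => (qOf_bounds hb hb1 _ j).2
    have h1 := fun c => hw.nom_le_sig hk hT.1 c
    have h2 := sig_super hb hb1 e
    have h0 : ∀ c, 0 ≤ sig (qOf b fun θ i => subL c (e θ i)) := fun c =>
      sum_nonneg fun _ _ => sq_nonneg _
    have h3 : ∑ c ∈ T.1.E, nom (T.1.q c) ≤ 4 * ∑ c, sig (qOf b fun θ i => subL c (e θ i)) := by
      rw [mul_sum]
      exact (sum_le_sum_of_subset_of_nonneg (subset_univ _) fun c _ _ => (h1 c).1).trans
        (sum_le_sum fun c _ => (h1 c).2)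
    have h4 : ∑ c, |T.1.Rc R c| ≤ |R| + 2 * ∑ c ∈ T.1.E, nom (T.1.q c) := by
      have a1 := Nd.sum_abs_Rc_sub hT.1 R (∑ c ∈ T.1.E, nom (T.1.q c))
      have a2 := abs_sub R (∑ c ∈ T.1.E, nom (T.1.q c))
      have a3 : ∑ c, |T.1.Rc (∑ c ∈ T.1.E, nom (T.1.q c)) c| = ∑ c ∈ T.1.E, nom (T.1.q c) := by
        simp only [Nd.Rc, Nd.HH, sub_self, max_self, mul_zero, sub_zero, apply_ite abs, abs_zero,
          abs_of_nonneg (h1 _).1, sum_ite_mem, univ_inter]
      have a4 := sum_le_sum (s := univ) fun c _ =>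
        abs_add_le (T.1.Rc R c - T.1.Rc (∑ c ∈ T.1.E, nom (T.1.q c)) c)
          (T.1.Rc (∑ c ∈ T.1.E, nom (T.1.q c)) c)
      simp only [sub_add_cancel, sum_add_distrib] at a4
      rw [abs_of_nonneg (sum_nonneg fun c _ => (h1 c).1)] at a2
      linarith
    have h5 : AL.dist r0 (alloc T R) (AL.zero Λ (n + 1)) ≤ ∑ c, (SS r0 (n + 1) * |T.1.Rc R c| +
        16 * SS r0 n * sig (qOf b fun θ i => subL c (e θ i))) := by
      refine sum_le_sum fun c _ => ?_
      change rr r0 n * |AL.val (if _ then _ else _) - AL.val (AL.zero Λ n)| +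
        AL.dist r0 (if _ then _ else _) (AL.zero Λ n) ≤ _
      split_ifs
      · have := TEq.crude hr hk hb hb1 (hT.2 c) (h.child hr hT c) (T.1.Rc R c)
        rw [alloc_val, AL.zero_val, sub_zero, SS_succ]
        linarith
      · rw [sub_self, abs_zero, mul_zero, AL.dist_self, add_zero]
        have := SS_nonneg hr
        have := h0 c
        exact add_nonneg (mul_nonneg (SS_nonneg hr _) (abs_nonneg _))
          (mul_nonneg (mul_nonneg (by norm_num) (SS_nonneg hr _)) (h0 c))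
    rw [sum_add_distrib, ← mul_sum, ← mul_sum] at h5
    have a1 := SS_le hr n
    have a2 := SS_nonneg hr n
    have a3 := SS_nonneg hr (n + 1)
    have a4 := mul_le_mul_of_nonneg_right (show 2 * SS r0 n ≤ SS r0 (n + 1) by
      rw [SS_succ]; linarith) (sum_nonneg (s := univ) fun c _ => h0 c)
    have a5 := mul_le_mul_of_nonneg_left h2 a3
    have a6 := mul_le_mul_of_nonneg_left h3 a3
    have a7 := mul_le_mul_of_nonneg_left h4 a3
    linarith

theorem TEq.eq (hr : 0 < r0) (hk : 1 ≤ k) (hb : ∀ θ, 0 ≤ b θ) (hb1 : ∑ θ, b θ = 1) {n : ℕ}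
    {T : TS Λ k (n + 1)} (hT : TOK T) {R : ℝ} {e : Θ → Fin k → Option (Lab Λ X (n + 1))}
    (h : TEq r0 b T R e) : T.1.Eq R fun c => qOf b fun θ i => subL c (e θ i) :=
  fun _ hν => TInh.node hr hb1 hT h hν fun c _ =>
    TEq.crude hr hk hb hb1 (hT.2 c) (h.child hr hT c)

end Crest.Agent.R314
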