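import Crest.Agent.R314.TScal

/-! Module B: the tree potential is non-negative and Lipschitz. -/

set_option autoImplicit false

namespace Crest.Agent.R314

open Finset

variable {Λ X : Type} [Fintype Λ] [DecidableEq Λ] {k : ℕ}

/-- the coefficient of `Sh x c` in the light terms -/
noncomputable def TLip_coef (ν : Nd Λ k) (c : Λ) : ℝ :=
  (if c ∈ ν.L then ν.FF c else 0) + if c ∈ ν.E then ∑ l ∈ ν.L, ν.BB l else 0

/-- the part of the potential which belongs to one level -/
def TLip_f (K a q u p x : ℝ) : ℝ :=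
  a * (sF q + sD q * (x - q)) + 14 * K * (x - u) ^ 2 + 2000 * K * (1 - x - p) ^ 2

/-- the part of the potential which does not depend on the placement -/
noncomputable def TLip_rest (ν : Nd Λ k) : ℝ :=
  20 * kap k * ∑ c, (if ν.act c = true then 1 / 4 else ν.sg c) +
  5 * kap k * |∑ c ∈ ν.E, ν.sg c - ν.Xh| +
  100 * kap k * ∑ c ∈ univ.erase ν.h, ν.sg c

theorem TLip_kap_pos (hk : 1 ≤ k) : 0 < kap k := div_pos (by norm_num) (ep0_pos hk)

theorem TLip_coef_bounds (hk : 1 ≤ k) {ν : Nd Λ k} (h : ν.OK) (c : Λ) :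
    0 ≤ TLip_coef ν c ∧ TLip_coef ν c ≤ kap k := by
  have h0 := ep0_pos hk
  have h1 := Nd.FF_bounds hk h c
  have h2 := Nd.sum_BB_le hk h
  have h3 : 0 ≤ ∑ l ∈ ν.L, ν.BB l := sum_nonneg fun l _ => (Nd.BB_bounds hk h l).1
  have h4 : 0 < 1 / ep0 k := one_div_pos.2 h0
  have e : ∀ a : ℝ, a / ep0 k = a * (1 / ep0 k) := fun a => div_eq_mul_one_div _ _
  rw [e] at h1 h2
  unfold TLip_coef kap
  rw [e]
  split_ifs <;> constructor <;> linarith [h1.1, h1.2]

theorem TLip_light (ν : Nd Λ k) (x : Λ → Fin k → ℝ) :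
    ∑ c ∈ ν.L, (ν.Sh x c * ν.FF c + ν.Zh x * ν.BB c) = ∑ c, TLip_coef ν c * ν.Sh x c := by
  unfold TLip_coef
  simp only [add_mul, ite_mul, zero_mul, sum_add_distrib, sum_ite_mem, univ_inter]
  rw [← mul_sum, ← mul_sum, mul_comm (ν.Zh x)]
  congr 1
  exact sum_congr rfl fun c _ => mul_comm _ _

theorem TLip_Pm (ν : Nd Λ k) (x : Λ → Fin k → ℝ) :
    ν.Pm x = ∑ c, ∑ j, TLip_f (kap k) (TLip_coef ν c) (ν.q c j)
      (ν.q c j + eta k / 2 * (1 - ν.q c j)) (ν.p c j) (x c j) + TLip_rest ν := by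
  unfold Nd.Pm TLip_rest TLip_f
  rw [TLip_light]
  simp only [sum_add_distrib, ← mul_sum]
  unfold Nd.Sh
  simp only [sum_add_distrib]
  ring

theorem TLip_rest_nonneg (hk : 1 ≤ k) (ν : Nd Λ k) : 0 ≤ TLip_rest ν := by
  have h0 := TLip_kap_pos hk
  have h1 : ∀ c, 0 ≤ ν.sg c := fun c => sum_nonneg fun j _ => sq_nonneg _
  have h2 : 0 ≤ ∑ c, (if ν.act c = true then 1 / 4 else ν.sg c) := sum_nonneg fun c _ => by
    split_ifs
    · norm_num
    · exact h1 c
  have h3 : 0 ≤ ∑ c ∈ univ.erase ν.h, ν.sg c := sum_nonneg fun c _ => h1 c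
  unfold TLip_rest
  positivity

theorem TLip_eta (hk : 1 ≤ k) : 0 ≤ eta k ∧ eta k ≤ 1 := by
  have h0 := ep0_pos hk
  have h1 := ep0_le hk
  unfold eta
  constructor <;> linarith

theorem TLip_f_nonneg {K a q η p x : ℝ} (ha : 0 ≤ a) (haK : a ≤ K) (h0 : 0 ≤ q) (h1 : q ≤ 1)
    (hη : η ≤ 1) (hx : x = 0 ∨ x = 1) : 0 ≤ TLip_f K a q (q + η / 2 * (1 - q)) p x := by
  have hK : 0 ≤ K := ha.trans haK
  have h2 : 0 ≤ 2000 * K * (1 - x - p) ^ 2 := by positivity
  unfold TLip_f sF sD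
  refine add_nonneg ?_ h2
  rcases hx with rfl | rfl
  · refine add_nonneg (mul_nonneg ha ?_) (by positivity)
    have : q * (1 - q) ^ 2 + (1 - q) * (1 - 3 * q) * (0 - q) = 2 * q ^ 2 * (1 - q) := by ring
    rw [this]
    exact mul_nonneg (by positivity) (by linarith)
  · have e : a * (q * (1 - q) ^ 2 + (1 - q) * (1 - 3 * q) * (1 - q)) +
        14 * K * (1 - (q + η / 2 * (1 - q))) ^ 2 =
        (1 - q) ^ 2 * (a * (1 - 2 * q) + 14 * K * (1 - η / 2) ^ 2) := by ring
    rw [e]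
    refine mul_nonneg (sq_nonneg _) ?_
    have h3 : 1 / 4 ≤ (1 - η / 2) ^ 2 := by nlinarith
    have h4 := mul_le_mul_of_nonneg_left h3 hK
    have h5 := mul_le_mul_of_nonneg_left h1 ha
    linarith

theorem TLip_f_lip {K a q u p x x' : ℝ} (ha : 0 ≤ a) (haK : a ≤ K) (h0 : 0 ≤ q) (h1 : q ≤ 1)
    (hu0 : 0 ≤ u) (hu1 : u ≤ 1) (hp0 : 0 ≤ p) (hp1 : p ≤ 1) (hx : x = 0 ∨ x = 1)
    (hx' : x' = 0 ∨ x' = 1) :
    TLip_f K a q u p x ≤ TLip_f K a q u p x' + 2015 * K * |x - x'| := by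
  have hK : 0 ≤ K := ha.trans haK
  have h2 : sD q ≤ 1 := by
    unfold sD
    nlinarith
  have h3 : -1 ≤ sD q := by
    unfold sD
    nlinarith [sq_nonneg (3 * q - 2)]
  have h4 := mul_le_mul_of_nonneg_left h2 ha
  have h5 := mul_le_mul_of_nonneg_left h3 ha
  have h6 := mul_nonneg hK hu0
  have h7 := mul_le_mul_of_nonneg_left hu1 hK
  have h8 := mul_nonneg hK hp0
  have h9 := mul_le_mul_of_nonneg_left hp1 hK
  unfold TLip_f
  rcases hx with rfl | rfl <;> rcases hx' with rfl | rfl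
  · simp
  · rw [zero_sub (1 : ℝ), abs_neg, abs_one]
    linarith
  · rw [sub_zero (1 : ℝ), abs_one]
    linarith
  · simp

theorem Nd.Pm_nonneg (hk : 1 ≤ k) {ν : Nd Λ k} (h : ν.OK) (x : Λ → Fin k → ℝ)
    (hx : ∀ c j, x c j = 0 ∨ x c j = 1) : 0 ≤ ν.Pm x := by
  rw [TLip_Pm]
  exact add_nonneg (sum_nonneg fun c _ => sum_nonneg fun j _ =>
    TLip_f_nonneg (TLip_coef_bounds hk h c).1 (TLip_coef_bounds hk h c).2 (h.q0 c j) (h.q1 c j)
      (TLip_eta hk).2 (hx c j)) (TLip_rest_nonneg hk ν)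

theorem Nd.Pm_lip (hk : 1 ≤ k) {ν : Nd Λ k} (h : ν.OK) (x x' : Λ → Fin k → ℝ)
    (hx : ∀ c j, x c j = 0 ∨ x c j = 1) (hx' : ∀ c j, x' c j = 0 ∨ x' c j = 1) :
    ν.Pm x ≤ ν.Pm x' + 2015 * kap k * ∑ c, ∑ j, |x c j - x' c j| := by
  rw [TLip_Pm, TLip_Pm, add_right_comm, mul_sum, ← sum_add_distrib]
  refine add_le_add (sum_le_sum fun c _ => ?_) le_rfl
  rw [mul_sum, ← sum_add_distrib]
  refine sum_le_sum fun j _ => ?_
  have h0 := h.q0 c j
  have h1 := h.q1 c j
  obtain ⟨h2, h3⟩ := TLip_eta hk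
  refine TLip_f_lip (TLip_coef_bounds hk h c).1 (TLip_coef_bounds hk h c).2 h0 h1 ?_ ?_
    (h.p0 c j) (h.p1 c j) (hx c j) (hx' c j)
  · nlinarith
  · nlinarith

theorem TLip_hole {α : Type} (e : Fin k → Option α) (j : Fin k) : hole e j = 0 ∨ hole e j = 1 := by
  unfold hole
  split_ifs
  · exact Or.inr rfl
  · exact Or.inl rfl

theorem psi_nonneg {r0 : ℝ} (hr : 0 < r0) (hk : 1 ≤ k) : ∀ {n : ℕ} (T : TS Λ k n) (_ : TOK T)
    (e : Fin k → Option (Lab Λ X n)), 0 ≤ psi r0 T e := by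
  intro n
  induction n with
  | zero => exact fun _ _ _ => le_rfl
  | succ n ih =>
    intro T h e
    exact add_nonneg (mul_nonneg (rr_pos hr n).le
      (Nd.Pm_nonneg hk h.1 _ fun c j => TLip_hole _ j)) (sum_nonneg fun c _ => ih _ (h.2 c) _)

/-- indicator of a placed server -/
def TLip_ind {α : Type} (o : Option α) : ℝ := if o.isSome then 1 else 0

theorem TLip_steps {a b : ℕ} (hab : a ≤ b) :
    ∑ j : Fin k, |(if a ≤ j.val then (1 : ℝ) else 0) - if b ≤ j.val then 1 else 0| ≤ b - a := by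
  have h1 : ∀ j : Fin k, |(if a ≤ j.val then (1 : ℝ) else 0) - if b ≤ j.val then 1 else 0| =
      if j.val ∈ Ico a b then 1 else 0 := by
    intro j
    by_cases h1 : a ≤ j.val <;> by_cases h2 : b ≤ j.val
    · simp [h1, h2]
    · simp [h1, h2, not_le.1 h2]
    · omega
    · simp [h1, h2]
  simp only [h1]
  rw [sum_boole, ← Nat.cast_sub hab, ← Nat.card_Ico, Nat.cast_le]
  exact card_le_card_of_injOn Fin.val (fun j hj => (mem_filter.1 hj).2)
    fun _ _ _ _ h => Fin.ext h

theorem TLip_holes {α : Type} (e e' : Fin k → Option α) :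
    ∑ j, |hole e j - hole e' j| ≤ ∑ i, |TLip_ind (e i) - TLip_ind (e' i)| := by
  have h1 : ∀ e : Fin k → Option α, (cntO e : ℝ) = ∑ i, TLip_ind (e i) := fun e => by
    unfold cntO TLip_ind
    rw [sum_boole]
  have h2 : |(cntO e : ℝ) - cntO e'| ≤ ∑ i, |TLip_ind (e i) - TLip_ind (e' i)| := by
    rw [h1, h1, ← sum_sub_distrib]
    exact abs_sum_le_sum_abs _ _
  refine le_trans ?_ h2
  rcases le_total (cntO e) (cntO e') with h | h
  · refine (TLip_steps h).trans ?_
    rw [abs_sub_comm]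
    exact le_abs_self _
  · simp only [abs_sub_comm (hole e _)]
    exact (TLip_steps h).trans (le_abs_self _)

/-- the cost of one server in one child -/
noncomputable def TLip_g (r0 : ℝ) {n : ℕ} (o o' : Option (Lab Λ X n)) : ℝ :=
  rr r0 n * |TLip_ind o - TLip_ind o'| + relO r0 o o'

omit [Fintype Λ] in
theorem TLip_g_nn (r0 : ℝ) {n : ℕ} : TLip_g r0 (none : Option (Lab Λ X n)) none = 0 := by
  change rr r0 n * |TLip_ind none - TLip_ind none| + 0 = 0
  simp

omit [Fintype Λ] in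
theorem TLip_g_sn (r0 : ℝ) {n : ℕ} (u : Lab Λ X n) : TLip_g r0 (some u) none = SS r0 (n + 1) := by
  change rr r0 n * |(1 : ℝ) - 0| + SS r0 n = _
  rw [SS_succ, sub_zero, abs_one]
  ring

omit [Fintype Λ] in
theorem TLip_g_ns (r0 : ℝ) {n : ℕ} (u : Lab Λ X n) : TLip_g r0 none (some u) = SS r0 (n + 1) := by
  change rr r0 n * |(0 : ℝ) - 1| + SS r0 n = _
  rw [SS_succ, zero_sub, abs_neg, abs_one]
  ring

omit [Fintype Λ] in
theorem TLip_g_ss (r0 : ℝ) {n : ℕ} (u v : Lab Λ X n) :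
    TLip_g r0 (some u) (some v) = 2 * rel r0 u v := by
  change rr r0 n * |(1 : ℝ) - 1| + 2 * rel r0 u v = _
  simp

theorem TLip_server (r0 : ℝ) {n : ℕ} (o o' : Option (Lab Λ X (n + 1))) :
    ∑ c, TLip_g r0 (subL c o) (subL c o') = relO r0 o o' := by
  have hs : ∀ (c : Λ) (u : Lab Λ X (n + 1)),
      subL c (some u) = if u.1.1 = c then some u.2 else none := fun _ _ => rfl
  have hn : ∀ c : Λ, subL c (none : Option (Lab Λ X (n + 1))) = none := fun _ => rfl
  cases o with
  | none =>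
    cases o' with
    | none =>
      simp only [hn, TLip_g_nn, sum_const_zero]
      rfl
    | some v =>
      simp only [hn, hs, apply_ite (TLip_g r0 none), TLip_g_nn, TLip_g_ns, sum_ite_eq, mem_univ,
        if_true]
      rfl
  | some u =>
    cases o' with
    | none =>
      have : ∀ c : Λ, TLip_g r0 (subL c (some u)) (subL c none) =
          if u.1.1 = c then SS r0 (n + 1) else 0 := fun c => by
        rw [hs, hn]
        split_ifs
        · exact TLip_g_sn _ _
        · exact TLip_g_nn _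
      simp only [this, sum_ite_eq, mem_univ, if_true]
      rfl
    | some v =>
      have e : relO r0 (some u) (some v) =
          2 * if u.1.1 = v.1.1 then rel r0 u.2 v.2 else SS r0 (n + 1) := rfl
      rw [e]
      by_cases huv : u.1.1 = v.1.1
      · have : ∀ c : Λ, TLip_g r0 (subL c (some u)) (subL c (some v)) =
            if u.1.1 = c then 2 * rel r0 u.2 v.2 else 0 := fun c => by
          rw [hs, hs, ← huv]
          split_ifs
          · exact TLip_g_ss _ _ _
          · exact TLip_g_nn _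
        simp only [this, sum_ite_eq, mem_univ, if_true, if_pos huv]
      · have : ∀ c : Λ, TLip_g r0 (subL c (some u)) (subL c (some v)) =
            (if u.1.1 = c then SS r0 (n + 1) else 0) + if v.1.1 = c then SS r0 (n + 1) else 0 :=
          fun c => by
            rw [hs, hs]
            split_ifs with h1 h2
            · exact absurd (h1.trans h2.symm) huv
            · rw [TLip_g_sn, add_zero]
            · rw [TLip_g_ns, zero_add]
            · rw [TLip_g_nn, add_zero]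
        simp only [this, sum_add_distrib, sum_ite_eq, mem_univ, if_true, if_neg huv]
        ring

theorem psi_lip {r0 : ℝ} (hr : 0 < r0) (hk : 1 ≤ k) : ∀ {n : ℕ} (T : TS Λ k n) (_ : TOK T)
    (e e' : Fin k → Option (Lab Λ X n)),
    psi r0 T e ≤ psi r0 T e' + 2015 * kap k * ∑ i, relO r0 (e i) (e' i) := by
  have hK : 0 ≤ 2015 * kap k := mul_nonneg (by norm_num) (TLip_kap_pos hk).le
  intro n
  induction n with
  | zero =>
    intro T _ e e'
    refine le_add_of_nonneg_right (mul_nonneg hK (sum_nonneg fun i _ => ?_))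
    cases e i <;> cases e' i
    · exact le_rfl
    · exact SS_nonneg hr 0
    · exact SS_nonneg hr 0
    · exact mul_nonneg zero_le_two (rel_nonneg hr _ _)
  | succ n ih =>
    intro T h e e'
    have h1 := mul_le_mul_of_nonneg_left (Nd.Pm_lip hk h.1 (fun c => hole fun i => subL c (e i))
      (fun c => hole fun i => subL c (e' i)) (fun c j => TLip_hole _ j) fun c j => TLip_hole _ j)
      (rr_pos hr n).le
    have h2 := sum_le_sum fun c (_ : c ∈ univ) =>
      ih (T.2 c) (h.2 c) (fun i => subL c (e i)) fun i => subL c (e' i)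
    have h3 := mul_le_mul_of_nonneg_left (mul_le_mul_of_nonneg_left
      (sum_le_sum fun c (_ : c ∈ univ) =>
        TLip_holes (fun i => subL c (e i)) fun i => subL c (e' i)) (rr_pos hr n).le) hK
    have h4 : ∑ i, relO r0 (e i) (e' i) =
        rr r0 n * ∑ c, ∑ i, |TLip_ind (subL c (e i)) - TLip_ind (subL c (e' i))| +
          ∑ c, ∑ i, relO r0 (subL c (e i)) (subL c (e' i)) := by
      simp only [← TLip_server r0 (n := n)]
      rw [sum_comm]
      simp only [TLip_g, sum_add_distrib, mul_sum]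
    rw [sum_add_distrib, ← mul_sum] at h2
    have e1 : ∀ e : Fin k → Option (Lab Λ X (n + 1)), psi r0 T e =
        rr r0 n * T.1.Pm (fun c => hole fun i => subL c (e i)) +
          ∑ c, psi r0 (T.2 c) fun i => subL c (e i) := fun _ => rfl
    rw [e1, e1, h4]
    linarith

end Crest.Agent.R314
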