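import Crest.Agent.R314.TScal

/-! Module B: existence of a minimiser (compactness). -/

set_option autoImplicit false
set_option linter.unusedSectionVars false

namespace Crest.Agent.R314

open Finset

variable {Λ X Θ : Type} [Fintype Λ] [DecidableEq Λ] [Nonempty Λ] [Fintype Θ] {k : ℕ}

namespace TMin

open Filter Topology

/-- the continuous data of a node -/
abbrev CD (Λ : Type) (k : ℕ) : Type := ℝ × (Λ → Fin k → ℝ) × (Λ → Fin k → ℝ) × (Λ → ℝ)

/-- the node with given discrete and continuous data -/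
def mk (h : Λ) (a : Λ → Bool) (z : CD Λ k) : Nd Λ k := ⟨h, a, z.1, z.2.1, z.2.2.1, z.2.2.2⟩

/-- the continuous data of a node -/
def cd (ν : Nd Λ k) : CD Λ k := (ν.Xh, ν.q, ν.p, ν.rho)

omit [Fintype Λ] [DecidableEq Λ] [Nonempty Λ] in
theorem mk_cd (ν : Nd Λ k) : mk ν.h ν.act (cd ν) = ν := rfl

section cont

variable (h : Λ) (a : Λ → Bool)

omit [DecidableEq Λ] [Nonempty Λ] in
theorem c_sg (c : Λ) : Continuous fun z : CD Λ k => (mk h a z).sg c := by
  unfold Nd.sg mk; fun_prop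

omit [DecidableEq Λ] [Nonempty Λ] in
theorem c_xx (c : Λ) : Continuous fun z : CD Λ k => (mk h a z).xx c := by
  unfold Nd.xx
  have h8 : ∀ t : ℝ, 0 < max t (1 / 8) := fun t => lt_max_of_lt_right (by norm_num)
  refine continuous_const.max (Continuous.log (Continuous.div ?_ ?_ fun z => (h8 _).ne')
    fun z => (div_pos (h8 _) (h8 _)).ne')
  · exact continuous_fst.max continuous_const
  · exact (c_sg h a c).max continuous_const

omit [DecidableEq Λ] [Nonempty Λ] in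
theorem c_ep (c : Λ) : Continuous fun z : CD Λ k => (mk h a z).ep c :=
  continuous_const.mul (continuous_const.add (c_xx h a c))

omit [DecidableEq Λ] [Nonempty Λ] in
theorem c_dl (c : Λ) : Continuous fun z : CD Λ k => (mk h a z).dl c :=
  continuous_const.mul (Real.continuous_exp.comp (c_xx h a c).neg)

omit [Nonempty Λ] in
theorem ep_pos (hk : 1 ≤ k) (ν : Nd Λ k) (c : Λ) : 0 < ν.ep c :=
  mul_pos (ep0_pos hk) (by linarith [ν.xx_nonneg c])

omit [Nonempty Λ] in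
theorem c_dp (hk : 1 ≤ k) (c : Λ) : Continuous fun z : CD Λ k => (mk h a z).dp c :=
  (continuous_const.mul (c_dl h a c)).div (c_ep h a c) fun _ => (ep_pos hk _ c).ne'

omit [Nonempty Λ] in
theorem c_aa (hk : 1 ≤ k) (c : Λ) : Continuous fun z : CD Λ k => (mk h a z).aa c :=
  continuous_const.div (c_ep h a c) fun _ => (ep_pos hk _ c).ne'

omit [DecidableEq Λ] [Nonempty Λ] in
theorem c_rho (c : Λ) : Continuous fun z : CD Λ k => (mk h a z).rho c := by
  unfold mk; fun_prop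

omit [Nonempty Λ] in
theorem c_FF (hk : 1 ≤ k) (c : Λ) {z : CD Λ k} (hz : 0 ≤ (mk h a z).rho c) :
    ContinuousAt (fun z : CD Λ k => (mk h a z).FF c) z := by
  have hd := (mk h a z).dp_pos hk c
  have h1 : 0 < (mk h a z).rho c + (mk h a z).dp c := by linarith
  have h2 : 0 < 1 + (mk h a z).dp c := by linarith
  exact (c_aa h a hk c).continuousAt.mul (ContinuousAt.log
    ((continuous_const.add (c_dp h a hk c)).continuousAt.div
      ((c_rho h a c).add (c_dp h a hk c)).continuousAt h1.ne') (div_pos h2 h1).ne')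

omit [Nonempty Λ] in
theorem c_BB (hk : 1 ≤ k) (c : Λ) {z : CD Λ k} (hz : 0 ≤ (mk h a z).rho c) :
    ContinuousAt (fun z : CD Λ k => (mk h a z).BB c) z := by
  have hd := (mk h a z).dp_pos hk c
  have he := ep_pos hk (mk h a z) c
  have h1 : 0 < 1 + (mk h a z).rho c / (mk h a z).dp c := by positivity
  have h2 : 0 < 1 + (mk h a z).ep c := by linarith
  exact (continuous_const.mul (c_rho h a c)).continuousAt.add
    (((c_aa h a hk c).continuousAt.div (continuous_const.add (c_ep h a c)).continuousAt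
      h2.ne').mul ((c_rho h a c).continuousAt.sub ((c_dp h a hk c).continuousAt.mul
        (ContinuousAt.log (continuousAt_const.add
          ((c_rho h a c).continuousAt.div (c_dp h a hk c).continuousAt hd.ne')) h1.ne'))))

omit [DecidableEq Λ] [Nonempty Λ] in
theorem c_Sh (x : Λ → Fin k → ℝ) (c : Λ) : Continuous fun z : CD Λ k => (mk h a z).Sh x c := by
  unfold Nd.Sh mk sF sD; fun_prop

/-- the active light children -/
def LL : Finset Λ := univ.filter fun c => a c = true ∧ c ≠ h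

omit [Nonempty Λ] in
theorem L_mk (z : CD Λ k) : (mk h a z).L = LL h a := rfl

omit [Nonempty Λ] in
theorem E_mk (z : CD Λ k) : (mk h a z).E = insert h (LL h a) := rfl

omit [Nonempty Λ] in
theorem c_Zh (x : Λ → Fin k → ℝ) : Continuous fun z : CD Λ k => (mk h a z).Zh x := by
  simp only [Nd.Zh, E_mk]
  exact continuous_finsetSum _ fun c _ => c_Sh h a x c

omit [Nonempty Λ] in
theorem c_Pm (hk : 1 ≤ k) (x : Λ → Fin k → ℝ) {z : CD Λ k} (hz : ∀ c, 0 ≤ (mk h a z).rho c) :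
    ContinuousAt (fun z : CD Λ k => (mk h a z).Pm x) z := by
  simp only [Nd.Pm, E_mk, L_mk]
  refine ((((ContinuousAt.add ?_ ?_).add ?_).add ?_).add ?_).add ?_
  · exact tendsto_finsetSum _ fun c _ =>
      ((c_Sh h a x c).continuousAt.mul (c_FF h a hk c (hz c))).add
        ((c_Zh h a x).continuousAt.mul (c_BB h a hk c (hz c)))
  · refine Continuous.continuousAt ?_
    unfold mk; fun_prop
  · refine Continuous.continuousAt ?_
    unfold mk; fun_prop
  · refine Continuous.continuousAt (continuous_const.mul (continuous_finsetSum _ fun c _ => ?_))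
    have : ∀ z : CD Λ k, (mk h a z).act c = a c := fun _ => rfl
    simp only [this]
    split_ifs
    · exact continuous_const
    · exact c_sg h a c
  · exact Continuous.continuousAt (continuous_const.mul
      ((continuous_finsetSum _ fun c _ => c_sg h a c).sub continuous_fst).abs)
  · exact Continuous.continuousAt (continuous_const.mul
      (continuous_finsetSum (univ.erase h) fun c _ => c_sg h a c))

omit [Nonempty Λ] in
theorem c_Rc (c : Λ) : Continuous fun w : CD Λ k × ℝ => (mk h a w.1).Rc w.2 c := by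
  have hn : ∀ c, Continuous fun w : CD Λ k × ℝ => nom ((mk h a w.1).q c) := fun c => by
    unfold nom g0 mk; fun_prop
  have hr : ∀ c, Continuous fun w : CD Λ k × ℝ => (mk h a w.1).rho c := fun c =>
    (c_rho h a c).comp continuous_fst
  have hh : ∀ z : CD Λ k, (mk h a z).h = h := fun _ => rfl
  simp only [Nd.Rc, Nd.rE, Nd.HH, E_mk, L_mk, hh]
  by_cases hc : c ∈ insert h (LL h a)
  · simp only [if_pos hc]
    refine (hn c).sub (Continuous.mul ?_ (continuous_const.max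
      ((continuous_finsetSum _ fun c _ => hn c).sub continuous_snd)))
    split_ifs
    · exact continuous_const.sub (continuous_finsetSum _ fun c _ => hr c)
    · exact hr c
  · simp only [if_neg hc]
    exact continuous_const

end cont

variable {ι : Type}

/-- convergence of node states -/
def NConv (F : Filter ι) (ν : ι → Nd Λ k) (ν0 : Nd Λ k) : Prop :=
  (∀ᶠ i in F, ν i = mk ν0.h ν0.act (cd (ν i))) ∧ Tendsto (fun i => cd (ν i)) F (𝓝 (cd ν0))

/-- convergence of tree states -/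
def Conv (F : Filter ι) : {n : ℕ} → (ι → TS Λ k n) → TS Λ k n → Prop
  | 0, _, _ => True
  | _ + 1, T, T0 => NConv F (fun i => (T i).1) T0.1 ∧ ∀ c, Conv F (fun i => (T i).2 c) (T0.2 c)

omit [Nonempty Λ] in
theorem exists_nconv (F : Ultrafilter ι) (ν : ι → Nd Λ k) (hν : ∀ i, (ν i).OK) :
    ∃ ν0 : Nd Λ k, ν0.OK ∧ NConv F ν ν0 := by
  obtain ⟨⟨h, a⟩, hd⟩ : ∃ d : Λ × (Λ → Bool), ∀ᶠ i in F, ((ν i).h, (ν i).act) = d :=
    Ultrafilter.eventually_exists_iff.1 (Eventually.of_forall fun i => ⟨_, rfl⟩)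
  have hK : IsCompact (Set.Icc ((0, 0, 0, 0) : CD Λ k) (8 * k, 1, 1, 1)) := isCompact_Icc
  have hm : ∀ i, cd (ν i) ∈ Set.Icc ((0, 0, 0, 0) : CD Λ k) (8 * k, 1, 1, 1) := fun i =>
    ⟨⟨(hν i).X0, fun c j => (hν i).q0 c j, fun c j => (hν i).p0 c j, fun c => (hν i).r0 c⟩,
      ⟨(hν i).X1, fun c j => (hν i).q1 c j, fun c j => (hν i).p1 c j, fun c => (hν i).r1 c⟩⟩
  obtain ⟨z, hz, hl⟩ := hK.ultrafilter_le_nhds (F.map fun i => cd (ν i))
    (le_principal_iff.2 (mem_map.2 (Eventually.of_forall hm)))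
  have hl' : Tendsto (fun i => cd (ν i)) F (𝓝 z) := hl
  have he : ∀ᶠ i in F, ν i = mk h a (cd (ν i)) := hd.mono fun i hi => by
    obtain ⟨rfl, rfl⟩ := Prod.mk.inj hi
    rfl
  refine ⟨mk h a z, ⟨hz.1.1, hz.2.1, fun c j => hz.1.2.1 c j, fun c j => hz.2.2.1 c j,
    fun c j => hz.1.2.2.1 c j, fun c j => hz.2.2.2.1 c j, fun c => hz.1.2.2.2 c,
    fun c => hz.2.2.2.2 c, ?_⟩, he, hl'⟩
  have ht : Tendsto (fun i => ∑ c ∈ LL h a, (mk h a (cd (ν i))).rho c) F
      (𝓝 (∑ c ∈ LL h a, (mk h a z).rho c)) :=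
    tendsto_finsetSum _ fun c _ => ((c_rho h a c).tendsto z).comp hl'
  refine le_of_tendsto ht (he.mono fun i hi => ?_)
  have := (hν i).rs
  rw [hi] at this
  exact this

omit [Nonempty Λ] in
theorem exists_conv (F : Ultrafilter ι) : ∀ {n : ℕ} (T : ι → TS Λ k n), (∀ i, TOK (T i)) →
    ∃ T0 : TS Λ k n, TOK T0 ∧ Conv F T T0
  | 0, _, _ => ⟨PUnit.unit, trivial, trivial⟩
  | n + 1, T, hT => by
    obtain ⟨ν0, h0, hc⟩ := exists_nconv F (fun i => (T i).1) fun i => (hT i).1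
    choose S hS hS' using fun c => exists_conv F (fun i => (T i).2 c) fun i => (hT i).2 c
    exact ⟨(ν0, S), ⟨h0, hS⟩, hc, hS'⟩

omit [Nonempty Λ] in
theorem NConv.Pm (hk : 1 ≤ k) {F : Filter ι} {ν : ι → Nd Λ k} {ν0 : Nd Λ k} (h0 : ν0.OK)
    (h : NConv F ν ν0) (x : Λ → Fin k → ℝ) : Tendsto (fun i => (ν i).Pm x) F (𝓝 (ν0.Pm x)) := by
  have := (c_Pm ν0.h ν0.act hk x (z := cd ν0) h0.r0).tendsto.comp h.2
  refine this.congr' (h.1.mono fun i hi => ?_)
  exact (congrArg (fun μ : Nd Λ k => μ.Pm x) hi).symm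

omit [Nonempty Λ] in
theorem NConv.Rc {F : Filter ι} {ν : ι → Nd Λ k} {ν0 : Nd Λ k} (h : NConv F ν ν0) {R : ι → ℝ}
    {R0 : ℝ} (hR : Tendsto R F (𝓝 R0)) (c : Λ) :
    Tendsto (fun i => (ν i).Rc (R i) c) F (𝓝 (ν0.Rc R0 c)) := by
  have := ((c_Rc ν0.h ν0.act c).tendsto (cd ν0, R0)).comp (h.2.prodMk_nhds hR)
  refine this.congr' (h.1.mono fun i hi => ?_)
  exact (congrArg (fun μ : Nd Λ k => μ.Rc (R i) c) hi).symm

omit [Nonempty Λ] in
theorem NConv.E {F : Filter ι} {ν : ι → Nd Λ k} {ν0 : Nd Λ k} (h : NConv F ν ν0) :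
    ∀ᶠ i in F, (ν i).E = ν0.E :=
  h.1.mono fun _ hi => (congrArg Nd.E hi).trans rfl

omit [Nonempty Λ] in
theorem tendsto_psi (hk : 1 ≤ k) (r0 : ℝ) {F : Filter ι} : ∀ {n : ℕ} {T : ι → TS Λ k n}
    {T0 : TS Λ k n}, TOK T0 → Conv F T T0 → ∀ e : Fin k → Option (Lab Λ X n),
    Tendsto (fun i => psi r0 (T i) e) F (𝓝 (psi r0 T0 e))
  | 0, _, _, _, _, _ => tendsto_const_nhds
  | _ + 1, _, _, h0, h, _ =>
    ((h.1.Pm hk h0.1 _).const_mul _).add
      (tendsto_finsetSum _ fun c _ => tendsto_psi hk r0 (h0.2 c) (h.2 c) _)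

omit [Nonempty Λ] in
theorem val_alloc : ∀ {n : ℕ} (T : TS Λ k n) (R : ℝ), (alloc T R).val = R
  | 0, _, _ => rfl
  | _ + 1, _, _ => rfl

omit [Nonempty Λ] in
theorem tendsto_dist (r0 : ℝ) {F : Filter ι} : ∀ {n : ℕ} {T : ι → TS Λ k n}
    {T0 : TS Λ k n}, Conv F T T0 → ∀ {R : ι → ℝ} {R0 : ℝ}, Tendsto R F (𝓝 R0) → ∀ A0 : AL Λ n,
    Tendsto (fun i => AL.dist r0 A0 (alloc (T i) (R i))) F (𝓝 (AL.dist r0 A0 (alloc T0 R0)))
  | 0, _, _, _, _, _, _, _ => tendsto_const_nhds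
  | n + 1, T, T0, h, R, R0, hR, A0 => by
    refine tendsto_finsetSum _ fun c _ => ?_
    have e1 : ∀ (S : TS Λ k (n + 1)) (r : ℝ), (alloc S r).2 c =
        if c ∈ S.1.E then alloc (S.2 c) (S.1.Rc r c) else AL.zero Λ n := fun _ _ => rfl
    by_cases hc : c ∈ T0.1.E
    · have hr := h.1.Rc hR c
      have := ((((tendsto_const_nhds (x := AL.val (A0.2 c))).sub hr).abs).const_mul
        (rr r0 n)).add (tendsto_dist r0 (h.2 c) hr (A0.2 c))
      rw [e1 T0, if_pos hc, val_alloc]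
      refine this.congr' (h.1.E.mono fun i hi => ?_)
      have hi' : c ∈ (T i).1.E := hi ▸ hc
      simp only [e1 (T i), if_pos hi', val_alloc]
    · rw [e1 T0, if_neg hc]
      refine tendsto_const_nhds.congr' (h.1.E.mono fun i hi => ?_)
      have hi' : c ∉ (T i).1.E := hi ▸ hc
      simp only [e1 (T i), if_neg hi']

/-- a function with limits along all the ultrafilters among its values has a minimum -/
theorem exists_min [Nonempty ι] (Φ : ι → ℝ)
    (h : ∀ F : Ultrafilter ι, ∃ i0, Tendsto Φ F (𝓝 (Φ i0))) : ∃ i0, ∀ i, Φ i0 ≤ Φ i := by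
  have hne : (⨅ i, 𝓟 {j | Φ j ≤ Φ i}).NeBot := by
    refine iInf_neBot_of_directed (fun i j => ?_) fun i => principal_neBot_iff.2 ⟨i, le_refl (Φ i)⟩
    rcases le_total (Φ i) (Φ j) with hij | hij
    · exact ⟨i, le_rfl, principal_mono.2 fun l (hl : Φ l ≤ Φ i) => hl.trans hij⟩
    · exact ⟨j, principal_mono.2 fun l (hl : Φ l ≤ Φ j) => hl.trans hij, le_rfl⟩
  obtain ⟨i0, h0⟩ := h (Ultrafilter.of (⨅ i, 𝓟 {j | Φ j ≤ Φ i}))
  refine ⟨i0, fun i => le_of_tendsto h0 ?_⟩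
  exact le_principal_iff.1 ((Ultrafilter.of_le _).trans (iInf_le _ i))

end TMin

theorem TOK_dflt : ∀ n : ℕ, TOK (TS.dflt Λ k n) := by
  intro n
  induction n with
  | zero => trivial
  | succ n ih =>
    refine ⟨⟨le_rfl, ?_, fun _ _ => zero_le_one, fun _ _ => le_rfl, fun _ _ => le_rfl,
      fun _ _ => zero_le_one, fun _ => le_rfl, fun _ => zero_le_one, ?_⟩, fun _ => ih⟩
    · change (0 : ℝ) ≤ 8 * k
      positivity
    · change ∑ _c ∈ (Nd.dflt Λ k).L, (0 : ℝ) ≤ 1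
      simp

theorem exists_tmin (hk : 1 ≤ k) (r0 : ℝ) {n : ℕ} (b : Θ → ℝ)
    (e : Θ → Fin k → Option (Lab Λ X n)) (R : ℝ) (A0 : AL Λ n) :
    ∃ T : TS Λ k n, TOK T ∧ ∀ T' : TS Λ k n, TOK T' →
      ∑ θ, b θ * psi r0 T (e θ) + AL.dist r0 A0 (alloc T R) ≤
        ∑ θ, b θ * psi r0 T' (e θ) + AL.dist r0 A0 (alloc T' R) := by
  have : Nonempty {T : TS Λ k n // TOK T} := ⟨⟨_, TOK_dflt n⟩⟩
  obtain ⟨T, hT⟩ := TMin.exists_min (ι := {T : TS Λ k n // TOK T})
    (fun T => ∑ θ, b θ * psi r0 T.1 (e θ) + AL.dist r0 A0 (alloc T.1 R)) fun F => by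
      obtain ⟨T0, h0, hc⟩ := TMin.exists_conv F (fun T => T.1) fun T => T.2
      exact ⟨⟨T0, h0⟩, (tendsto_finsetSum _ fun θ _ =>
        (TMin.tendsto_psi hk r0 h0 hc (e θ)).const_mul (b θ)).add
          (TMin.tendsto_dist r0 hc tendsto_const_nhds A0)⟩
  exact ⟨T.1, T.2, fun T' h' => hT ⟨T', h'⟩⟩

end Crest.Agent.R314
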