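import Crest.Agent.R314.TAct

/-! Module B: the invariant passes from a node in equilibrium to its effective children. -/

set_option autoImplicit false

namespace Crest.Agent.R314

open Finset

variable {Λ : Type} [Fintype Λ] [DecidableEq Λ] {k : ℕ} {ν : Nd Λ k} {q : Λ → Fin k → ℝ}

theorem TNode_Ab_mul (hk : 1 ≤ k) {s σ t : ℝ} (h1 : 1 / 32 ≤ s) (h2 : s ≤ σ)
    (ht : t ≤ 28 * ep0 k * Real.log (σ / s)) : Ab k σ * Real.exp t ≤ Ab k s := by
  have hk' : (0 : ℝ) < k := by exact_mod_cast hk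
  have hs : 0 < s := by linarith
  have hσ : 0 < σ := by linarith
  rw [Ab, Ab, max_eq_left h1, max_eq_left (h1.trans h2), mul_assoc, ← Real.exp_add]
  refine mul_le_mul_of_nonneg_left (Real.exp_le_exp.2 ?_) zero_le_two
  rw [Real.log_div hσ.ne' hs.ne'] at ht
  rw [Real.log_div hk'.ne' hσ.ne', Real.log_div hk'.ne' hs.ne']
  linarith

theorem TNode_Ab_anti (hk : 1 ≤ k) {s σ : ℝ} (h2 : s ≤ σ) : Ab k σ ≤ Ab k s := by
  have hk' : (0 : ℝ) < k := by exact_mod_cast hk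
  have hs : 0 < max s (1 / 32) := lt_max_of_lt_right (by norm_num)
  have hσ : 0 < max σ (1 / 32) := lt_max_of_lt_right (by norm_num)
  have he := ep0_pos hk
  refine mul_le_mul_of_nonneg_left (Real.exp_le_exp.2 (mul_le_mul_of_nonneg_left
    (Real.log_le_log (by positivity) ?_) (by positivity))) zero_le_two
  exact div_le_div_of_nonneg_left hk'.le hs (max_le_max h2 le_rfl)

theorem TNode_log6 : Real.log 6 ≤ 185 / 100 := by
  have h1 : Real.log 6 = 3 * Real.log 2 + Real.log (3 / 4) := by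
    rw [show (6 : ℝ) = 2 ^ 3 * (3 / 4) by norm_num, Real.log_mul (by norm_num) (by norm_num),
      Real.log_pow]
    norm_num
  have h2 := Real.log_le_sub_one_of_pos (show (0 : ℝ) < 3 / 4 by norm_num)
  have h3 := Real.log_two_lt_d9
  linarith

theorem TNode_sig_nonneg (x : Fin k → ℝ) : 0 ≤ sig x := sum_nonneg fun _ _ => sq_nonneg _

theorem TNode_h_notMem (ν : Nd Λ k) : ν.h ∉ ν.L := by simp [Nd.L]

theorem TNode_sum_E (ν : Nd Λ k) (f : Λ → ℝ) : ∑ c ∈ ν.E, f c = f ν.h + ∑ c ∈ ν.L, f c :=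
  sum_insert (TNode_h_notMem ν)

theorem TNode_q0 (h : ν.OK) (hw : ν.Win q) (c : Λ) (j : Fin k) : 0 ≤ q c j :=
  (h.q0 c j).trans (hw c j).1

theorem TNode_q1 (hk : 1 ≤ k) (h : ν.OK) (hw : ν.Win q) (c : Λ) (j : Fin k) : q c j ≤ 1 := by
  have h1 := (hw c j).2
  have h2 := h.q1 c j
  have h3 := ep0_le hk
  have h4 : eta k * (1 - ν.q c j) ≤ 1 * (1 - ν.q c j) :=
    mul_le_mul_of_nonneg_right (by rw [eta]; linarith) (by linarith)
  linarith

theorem TNode_HH (hk : 1 ≤ k) (h : ν.OK) (hw : ν.Win q) {A R : ℝ} (hA0 : 0 ≤ A) (hA : A ≤ 3)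
    (hR : ∑ c, GA A (q c) ≤ R) :
    ν.HH R ≤ ∑ c ∈ ν.E, (nom (ν.q c) - nom (q c)) + A * ∑ c ∈ ν.E, Sm (q c) := by
  refine max_le (add_nonneg (sum_nonneg fun c _ => sub_nonneg.2 (hw.nom_bounds hk h c).1)
    (mul_nonneg hA0 (sum_nonneg fun c _ => Sm_nonneg (TNode_q0 h hw c)))) ?_
  have h1 : ∑ c ∈ ν.E, GA A (q c) ≤ ∑ c, GA A (q c) :=
    sum_le_sum_of_subset_of_nonneg (subset_univ _) fun c _ _ =>
      GA_nonneg hA (TNode_q0 h hw c) (TNode_q1 hk h hw c)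
  simp only [GA, sum_sub_distrib, ← mul_sum] at h1 hR ⊢
  linarith

theorem TNode_Zh (hk : 1 ≤ k) (h : ν.OK) (hw : ν.Win q) :
    (1 - 5 * eta k) * ∑ c ∈ ν.E, Sm (q c) ≤ ν.Zh q ∧
      ν.Zh q ≤ (1 + 5 * eta k) * ∑ c ∈ ν.E, Sm (q c) := by
  rw [mul_sum, mul_sum]
  exact ⟨sum_le_sum fun c _ => (hw.Sh_bounds hk h c).1,
    sum_le_sum fun c _ => (hw.Sh_bounds hk h c).2⟩

/-- The slack of a light child. -/
theorem TNode_light_Ab (hk : 1 ≤ k) (h : ν.OK) (hw : ν.Win q) {R σ : ℝ} (he : ν.Eq R q)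
    (hH : ν.HH R ≤ 31 / 10 * ν.Zh q) (hσ : ∑ c, sig (q c) ≤ σ) (hσk : σ ≤ k) {c : Λ}
    (hc : c ∈ ν.L) : Ab k σ * Real.exp (15 * eta k + ν.ep c) ≤ Ab k (sig (q c)) := by
  have a1 := he.act_off hk h hw hH hc
  have a2 := he.heavy hk h hw hH (hσ.trans hσk) hc
  have a3 := he.eq0.sg_bounds hk h hw hH c
  have a4 := he.eq0.sg_bounds hk h hw hH ν.h
  have a5 := (abs_le.1 (he.eq0.Xh_bounds hk h hw hH (hσ.trans hσk))).1
  have a6 : ∑ c ∈ ν.E, ν.sg c ≤ 2 * ∑ c ∈ ν.E, sig (q c) := by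
    rw [mul_sum]
    exact sum_le_sum fun c _ => (he.eq0.sg_bounds hk h hw hH c).1
  have a7 : ∑ c ∈ ν.E, sig (q c) ≤ σ :=
    (sum_le_sum_of_subset_of_nonneg (subset_univ _) fun c _ _ => TNode_sig_nonneg _).trans hσ
  have a8 : sig (q c) ≤ ∑ c ∈ ν.L, sig (q c) :=
    single_le_sum (f := fun c => sig (q c)) (fun c _ => TNode_sig_nonneg _) hc
  have a9 := TNode_sum_E ν fun c => sig (q c)
  have hs : 0 < sig (q c) := by linarith
  have hσ0 : 0 < σ := by linarith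
  have b1 : 1 / 9 ≤ Real.log (σ / sig (q c)) := by
    refine le_trans ?_ (Real.one_sub_inv_le_log_of_pos (by positivity))
    have : (σ / sig (q c))⁻¹ ≤ 8 / 9 := by
      rw [inv_div, div_le_iff₀ hσ0]
      linarith
    linarith
  have b2 : ν.xx c ≤ Real.log 6 + Real.log (σ / sig (q c)) := by
    refine max_le (add_nonneg (Real.log_nonneg (by norm_num)) (by linarith)) ?_
    rw [← Real.log_mul (by norm_num) (by positivity)]
    have hm : 0 < max (ν.sg c) (1 / 8) := lt_max_of_lt_right (by norm_num)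
    refine Real.log_le_log (div_pos (lt_max_of_lt_right (by norm_num)) hm) ?_
    rw [← mul_div_assoc, div_le_div_iff₀ hm hs]
    have c1 : max ν.Xh (1 / 8) ≤ 3 * σ := max_le (by linarith) (by linarith)
    have c2 : sig (q c) ≤ 2 * max (ν.sg c) (1 / 8) := by linarith [le_max_left (ν.sg c) (1 / 8)]
    calc _ ≤ 3 * σ * (2 * max (ν.sg c) (1 / 8)) := mul_le_mul c1 c2 hs.le (by positivity)
      _ = _ := by ring
  refine TNode_Ab_mul hk (by linarith) (by linarith) ?_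
  have b3 : 15 / 100 + (1 + ν.xx c) ≤ 28 * Real.log (σ / sig (q c)) := by linarith [TNode_log6]
  have := mul_le_mul_of_nonneg_left b3 (ep0_pos hk).le
  rw [eta, Nd.ep]
  linarith

/-- The slack of the heavy child. -/
theorem TNode_heavy_Ab (hk : 1 ≤ k) (h : ν.OK) (hw : ν.Win q) {R σ : ℝ} (he : ν.Eq R q)
    (hH : ν.HH R ≤ 31 / 10 * ν.Zh q) (hσ : ∑ c, sig (q c) ≤ σ) (hσk : σ ≤ k) :
    Ab k σ * (1 + ∑ c ∈ ν.L, ν.dl c) ≤ Ab k (sig (q ν.h)) := by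
  have a7 : ∑ c ∈ ν.E, sig (q c) ≤ σ :=
    (sum_le_sum_of_subset_of_nonneg (subset_univ _) fun c _ _ => TNode_sig_nonneg _).trans hσ
  have a8 : 0 ≤ ∑ c ∈ ν.L, sig (q c) := sum_nonneg fun c _ => TNode_sig_nonneg _
  have a9 := TNode_sum_E ν fun c => sig (q c)
  rcases ν.L.eq_empty_or_nonempty with hL | ⟨c, hc⟩
  · rw [hL, sum_empty, add_zero, mul_one]
    exact TNode_Ab_anti hk (by linarith)
  have a1 := he.act_off hk h hw hH hc
  have a2 := he.heavy hk h hw hH (hσ.trans hσk) hc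
  have a4 := he.eq0.sg_bounds hk h hw hH ν.h
  have a5 := (abs_le.1 (he.eq0.Xh_bounds hk h hw hH (hσ.trans hσk))).2
  have a6 : ∑ c ∈ ν.E, sig (q c) ≤ 2 * ∑ c ∈ ν.E, ν.sg c := by
    rw [mul_sum]
    exact sum_le_sum fun c _ => (he.eq0.sg_bounds hk h hw hH c).2
  have hs : 0 < sig (q ν.h) := by linarith
  have hσ0 : 0 < σ := by linarith
  have hE : 0 < ∑ c ∈ ν.E, sig (q c) := by linarith
  have he0 := ep0_pos hk
  have b1 : (∑ c ∈ ν.L, sig (q c)) / ∑ c ∈ ν.E, sig (q c) ≤ Real.log (σ / sig (q ν.h)) := by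
    refine le_trans ?_ (Real.one_sub_inv_le_log_of_pos (by positivity))
    have : (σ / sig (q ν.h))⁻¹ ≤ sig (q ν.h) / ∑ c ∈ ν.E, sig (q c) := by
      rw [inv_div]
      exact div_le_div_of_nonneg_left hs.le hE a7
    have e : (∑ c ∈ ν.L, sig (q c)) / ∑ c ∈ ν.E, sig (q c) =
        1 - sig (q ν.h) / ∑ c ∈ ν.E, sig (q c) := by
      field_simp
      linarith
    linarith
  have b2 : ∑ c ∈ ν.L, ν.dl c ≤ ep0 k / 4 * ((∑ c ∈ ν.L, sig (q c)) / ∑ c ∈ ν.E, sig (q c)) := by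
    rw [sum_div, mul_sum]
    refine sum_le_sum fun l hl => (Nd.dl_le hk ν l).trans ?_
    have c1 : max (ν.sg l) (1 / 8) ≤ 2 * sig (q l) := by
      rw [max_eq_left (he.act_off hk h hw hH hl)]
      exact (he.eq0.sg_bounds hk h hw hH l).1
    have c2 : (∑ c ∈ ν.E, sig (q c)) / 4 ≤ max ν.Xh (1 / 8) := le_max_of_le_left (by linarith)
    calc _ ≤ ep0 k / 32 * (2 * sig (q l) / ((∑ c ∈ ν.E, sig (q c)) / 4)) :=
          mul_le_mul_of_nonneg_left (div_le_div₀ (by linarith [TNode_sig_nonneg (q l)]) c1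
            (by positivity) c2) (by positivity)
      _ = _ := by
          field_simp
          ring
  refine le_trans (mul_le_mul_of_nonneg_left ?_ (by linarith [(Ab_bounds hk hσk).1]))
    (TNode_Ab_mul hk (t := ∑ c ∈ ν.L, ν.dl c) (by linarith) (by linarith) ?_)
  · rw [add_comm]
    exact Real.add_one_le_exp _
  · have b3 := mul_le_mul_of_nonneg_left b1 he0.le
    have b4 := mul_nonneg he0.le (div_nonneg a8 hE.le)
    linarith

theorem TNode_light (hk : 1 ≤ k) (h : ν.OK) (hw : ν.Win q) {R σ : ℝ} (he : ν.Eq R q)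
    (hσ : ∑ c, sig (q c) ≤ σ) (hσk : σ ≤ k) (hR : ∑ c, GA (Ab k σ) (q c) ≤ R) {c : Λ}
    (hc : c ∈ ν.L) : ν.rho c * ν.HH R ≤ Ab k (sig (q c)) * Sm (q c) := by
  obtain ⟨hA2, hA3⟩ := Ab_bounds hk hσk
  have hH := hw.HH_le hk h hA3 hR
  have a1 := TNode_HH hk h hw (by linarith) hA3 hR
  have a2 : ∑ c ∈ ν.E, (nom (ν.q c) - nom (q c)) ≤ 7 * eta k * ∑ c ∈ ν.E, Sm (q c) := by
    rw [mul_sum]
    exact sum_le_sum fun c _ => by linarith [(hw.nom_bounds hk h c).2]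
  have a3 := he.eq0.rho_le hk h hw hH hc
  have a4 := mul_le_mul_of_nonneg_left (TNode_Zh hk h hw).1 (h.r0 c)
  have hp := (Nd.ep_bounds hk h c).1
  have he0 := ep0_pos hk
  have he1 := ep0_le hk
  have hη0 : 0 < eta k := by rw [eta]; linarith
  have hη1 : eta k ≤ 1 / 100000 := by rw [eta]; linarith
  have a5 := mul_le_mul_of_nonneg_left (hw.Sh_bounds hk h c).2 (show 0 ≤ 1 + ν.ep c by linarith)
  have a6 := TNode_light_Ab hk h hw he hH hσ hσk hc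
  have hS := Sm_nonneg (TNode_q0 h hw c)
  have hZ : 0 ≤ ν.rho c * ∑ c ∈ ν.E, Sm (q c) :=
    mul_nonneg (h.r0 c) (sum_nonneg fun c _ => Sm_nonneg (TNode_q0 h hw c))
  have a7 : (1 + 15 * eta k) * (1 + ν.ep c) ≤ Real.exp (15 * eta k + ν.ep c) := by
    rw [Real.exp_add, add_comm 1, add_comm 1]
    exact mul_le_mul (Real.add_one_le_exp _) (Real.add_one_le_exp _) (by linarith)
      (Real.exp_pos _).le
  have a8 : ν.rho c * ν.HH R ≤ (Ab k σ + 7 * eta k) * (ν.rho c * ∑ c ∈ ν.E, Sm (q c)) := by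
    have := mul_le_mul_of_nonneg_left (a1.trans (add_le_add a2 le_rfl)) (h.r0 c)
    linarith
  generalize ν.rho c * ν.HH R = y at a8 ⊢
  have a9 : (1 - 5 * eta k) * (ν.rho c * ∑ c ∈ ν.E, Sm (q c)) ≤
      (1 + 5 * eta k) * ((1 + ν.ep c) * Sm (q c)) := by linarith
  generalize ν.rho c * ∑ c ∈ ν.E, Sm (q c) = z at a8 a9 hZ
  have b1 : Ab k σ * (1 + 15 * eta k) * ((1 + ν.ep c) * Sm (q c)) ≤ Ab k (sig (q c)) * Sm (q c) := by
    have := mul_le_mul_of_nonneg_right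
      ((mul_le_mul_of_nonneg_left a7 (show 0 ≤ Ab k σ by linarith)).trans a6) hS
    linarith
  have hw0 : 0 ≤ (1 + ν.ep c) * Sm (q c) := mul_nonneg (by linarith) hS
  generalize (1 + ν.ep c) * Sm (q c) = w at a9 b1 hw0
  refine a8.trans (le_trans ?_ b1)
  refine le_of_mul_le_mul_left ?_ (show 0 < 1 - 5 * eta k by linarith)
  have b2 := mul_le_mul_of_nonneg_left a9 (show 0 ≤ Ab k σ + 7 * eta k by linarith)
  have b3 : (Ab k σ + 7 * eta k) * (1 + 5 * eta k) ≤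
      (1 - 5 * eta k) * (Ab k σ * (1 + 15 * eta k)) := by
    have c1 : 0 ≤ (Ab k σ - 2) * (eta k * (5 - 75 * eta k)) :=
      mul_nonneg (by linarith) (mul_nonneg hη0.le (by linarith))
    have c2 : 0 ≤ eta k * (3 - 185 * eta k) := mul_nonneg hη0.le (by linarith)
    linarith
  have b4 := mul_le_mul_of_nonneg_right b3 hw0
  linarith

theorem TNode_heavy (hk : 1 ≤ k) (h : ν.OK) (hw : ν.Win q) {R σ : ℝ} (he : ν.Eq R q)
    (hσ : ∑ c, sig (q c) ≤ σ) (hσk : σ ≤ k) (hR : ∑ c, GA (Ab k σ) (q c) ≤ R) :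
    ν.rE ν.h * ν.HH R ≤ nom (ν.q ν.h) - nom (q ν.h) + Ab k (sig (q ν.h)) * Sm (q ν.h) := by
  obtain ⟨hA2, hA3⟩ := Ab_bounds hk hσk
  have hH := hw.HH_le hk h hA3 hR
  have a6 := TNode_heavy_Ab hk h hw he hH hσ hσk
  have hS := Sm_nonneg (TNode_q0 h hw ν.h)
  have he' := sub_nonneg.2 (hw.nom_bounds hk h ν.h).1
  have hd0 : 0 ≤ ∑ c ∈ ν.L, ν.dl c := sum_nonneg fun c _ => (Nd.dl_pos hk ν c).le
  have hd1 := he.sum_dl_le hk h hw hH (hσ.trans hσk)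
  have b0 := mul_le_mul_of_nonneg_right a6 hS
  rcases (Nd.rE_nonneg h ν.h).eq_or_lt with h0 | h0
  · rw [← h0, zero_mul]
    have : 0 ≤ Ab k σ * (1 + ∑ c ∈ ν.L, ν.dl c) * Sm (q ν.h) :=
      mul_nonneg (mul_nonneg (by linarith) (by linarith)) hS
    linarith
  have a1 := TNode_HH hk h hw (by linarith) hA3 hR
  have a2 : ∑ c ∈ ν.L, (nom (ν.q c) - nom (q c)) ≤ 7 * eta k * ∑ c ∈ ν.L, Sm (q c) := by
    rw [mul_sum]
    exact sum_le_sum fun c _ => by linarith [(hw.nom_bounds hk h c).2]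
  have he0 := ep0_pos hk
  have he1 := ep0_le hk
  have hη : eta k = ep0 k / 100 := rfl
  have hr : ν.rE ν.h = 1 - ∑ l ∈ ν.L, ν.rho l := if_pos rfl
  have hρ : 0 ≤ ∑ l ∈ ν.L, ν.rho l := sum_nonneg fun l _ => h.r0 l
  have hL : 0 ≤ ∑ c ∈ ν.L, Sm (q c) := sum_nonneg fun c _ => Sm_nonneg (TNode_q0 h hw c)
  have a3 : (1 + ep0 k / 2) * (1 - 5 * eta k) * ∑ c ∈ ν.L, Sm (q c) ≤
      (∑ l ∈ ν.L, ν.rho l + ∑ c ∈ ν.L, ν.dl c) * ν.Zh q := by
    rw [← sum_add_distrib, sum_mul, mul_sum]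
    refine sum_le_sum fun c hc => le_trans ?_ (he.eq0.rho_ge hk h hw hH h0 hc)
    rw [mul_assoc]
    exact mul_le_mul (by linarith [(Nd.ep_bounds hk h c).1]) (hw.Sh_bounds hk h c).1
      (mul_nonneg (by linarith) (Sm_nonneg (TNode_q0 h hw c)))
      (by linarith [(Nd.ep_bounds hk h c).1])
  have a4 := mul_le_mul_of_nonneg_left (TNode_Zh hk h hw).2 (add_nonneg hρ hd0)
  rw [TNode_sum_E, TNode_sum_E] at a1
  rw [TNode_sum_E] at a4
  have a5 : (1 + 5 * ep0 k / 16) * ∑ c ∈ ν.L, Sm (q c) ≤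
      (∑ l ∈ ν.L, ν.rho l + ∑ c ∈ ν.L, ν.dl c) * (Sm (q ν.h) + ∑ c ∈ ν.L, Sm (q c)) := by
    refine le_of_mul_le_mul_left ?_ (show 0 < 1 + 5 * eta k by linarith)
    have c1 : (1 + 5 * eta k) * (1 + 5 * ep0 k / 16) ≤ (1 + ep0 k / 2) * (1 - 5 * eta k) := by
      rw [hη]
      nlinarith
    have c2 := mul_le_mul_of_nonneg_right c1 hL
    linarith
  have a7 := mul_le_mul_of_nonneg_left (a1.trans (add_le_add (add_le_add le_rfl a2) le_rfl)) h0.le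
  rw [hr] at a7 ⊢
  generalize ∑ l ∈ ν.L, ν.rho l = ρ at *
  generalize ∑ c ∈ ν.L, ν.dl c = d at *
  generalize ∑ c ∈ ν.L, Sm (q c) = SL at *
  have c1 := mul_nonneg hρ he'
  have c2 := mul_nonneg hρ (mul_nonneg he0.le hL)
  have c3 := mul_le_mul_of_nonneg_right hd1 hL
  have c4 : (1 - ρ) * (Sm (q ν.h) + SL) ≤ (1 + d) * Sm (q ν.h) - ep0 k / 4 * SL := by linarith
  have c5 := mul_le_mul_of_nonneg_left c4 (show 0 ≤ Ab k σ by linarith)
  have c6 := mul_le_mul_of_nonneg_right hA2 (mul_nonneg he0.le hL)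
  have c7 := mul_nonneg he0.le hL
  rw [hη] at a7
  linarith

theorem Nd.Eq.node (hk : 1 ≤ k) (h : ν.OK) (hw : ν.Win q) {R σ : ℝ} (he : ν.Eq R q)
    (hσ : ∑ c, sig (q c) ≤ σ) (hσk : σ ≤ k) (hR : ∑ c, GA (Ab k σ) (q c) ≤ R) :
    (∀ c ∈ ν.E, GA (Ab k (sig (q c))) (q c) ≤ ν.Rc R c ∧ ν.Rc R c ≤ 4 * ∑ j, (1 - q c j)) ∧
      ∀ c, 1 ≤ sig (q c) → c ∈ ν.E := by
  have hH := hw.HH_le hk h (Ab_bounds hk hσk).2 hR
  refine ⟨fun c hc => ?_, fun c hc => he.act_on hk h hw hH ?_⟩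
  · rw [Nd.Rc, if_pos hc, GA]
    constructor
    · rcases mem_insert.1 hc with rfl | hl
      · linarith [TNode_heavy hk h hw he hσ hσk hR]
      · have hne : c ≠ ν.h := fun e => TNode_h_notMem ν (e ▸ hl)
        rw [Nd.rE, if_neg hne]
        linarith [TNode_light hk h hw he hσ hσk hR hl, (hw.nom_bounds hk h c).1]
    · have h1 : 0 ≤ ν.rE c * ν.HH R := mul_nonneg (Nd.rE_nonneg h c) (le_max_left _ _)
      have h2 := hw.nom_le_mass hk h c
      have h3 : 0 ≤ ∑ j, (1 - q c j) := sum_nonneg fun j _ => sub_nonneg.2 (TNode_q1 hk h hw c j)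
      linarith
  · linarith [(he.eq0.sg_bounds hk h hw hH c).2]

end Crest.Agent.R314
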