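import Crest.Agent.R314.TScal

/-! Module B: the test for the tracked hole probabilities. -/

set_option autoImplicit false

namespace Crest.Agent.R314

open Finset

variable {Λ : Type} [Fintype Λ] [DecidableEq Λ] {k : ℕ} {ν : Nd Λ k} {q : Λ → Fin k → ℝ}

theorem TQ_sum {α : Type} [Fintype α] [DecidableEq α] {f g : α → ℝ} (a : α)
    (h : ∀ b, b ≠ a → f b = g b) : ∑ b, f b = ∑ b, g b + (f a - g a) := by
  rw [← sub_eq_iff_eq_add', ← sum_sub_distrib,
    sum_eq_single_of_mem a (mem_univ a) fun b _ hb => by rw [h b hb, sub_self]]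

theorem TQ_sum_le {α : Type} [DecidableEq α] (s : Finset α) (a : α) {f : α → ℝ} {d : ℝ}
    (hd : 0 ≤ d) (h : ∀ b, b ≠ a → f b = 0) (ha : f a ≤ d) : ∑ b ∈ s, f b ≤ d := by
  by_cases hs : a ∈ s
  · rw [sum_eq_single_of_mem a hs fun b _ hb => h b hb]
    exact ha
  · rw [sum_eq_zero fun b hb => h b fun e => hs (e ▸ hb)]
    exact hd

/-- The test with one tracked hole probability moved to `y`. -/
theorem TQ_test (hk : 1 ≤ k) (h : ν.OK) {R : ℝ} (he : ν.Eq0 R q) (c : Λ) (j : Fin k) {y : ℝ}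
    (hy0 : 0 ≤ y) (hy1 : y ≤ 1) :
    14 * kap k * ((q c j - (ν.q c j + eta k / 2 * (1 - ν.q c j))) ^ 2 -
        (q c j - (y + eta k / 2 * (1 - y))) ^ 2) ≤
      kap k * |sF y + sD y * (q c j - y) - (sF (ν.q c j) + sD (ν.q c j) * (q c j - ν.q c j))| +
        101 / 50 * |g0 y - g0 (ν.q c j)| := by
  set ν' : Nd Λ k := { ν with q := Function.update ν.q c (Function.update (ν.q c) j y) } with hν
  have e1 : ∀ c', c' ≠ c → ν'.q c' = ν.q c' := fun c' hc => Function.update_of_ne hc _ _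
  have e0 : ν'.q c = Function.update (ν.q c) j y := Function.update_self _ _ _
  have e2 : ∀ j', j' ≠ j → ν'.q c j' = ν.q c j' := fun j' hj => by
    rw [e0, Function.update_of_ne hj]
  have e3 : ν'.q c j = y := by rw [e0, Function.update_self]
  have e4 : ∀ c' j', 0 ≤ ν'.q c' j' ∧ ν'.q c' j' ≤ 1 := fun c' j' => by
    by_cases hc : c' = c
    · subst hc
      by_cases hj : j' = j
      · subst hj
        rw [e3]
        exact ⟨hy0, hy1⟩
      · rw [e2 j' hj]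
        exact ⟨h.q0 _ _, h.q1 _ _⟩
    · rw [e1 c' hc]
      exact ⟨h.q0 _ _, h.q1 _ _⟩
  have key := he ν' ⟨h.X0, h.X1, fun c j => (e4 c j).1, fun c j => (e4 c j).2, h.p0, h.p1, h.r0,
    h.r1, h.rs⟩ rfl rfl
  set d := sF y + sD y * (q c j - y) - (sF (ν.q c j) + sD (ν.q c j) * (q c j - ν.q c j)) with hd
  set g := g0 y - g0 (ν.q c j) with hg
  have s1 : ∀ c', c' ≠ c → ν'.Sh q c' - ν.Sh q c' = 0 := fun c' hc => by
    rw [Nd.Sh, Nd.Sh, e1 c' hc, sub_self]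
  have s2 : ν'.Sh q c - ν.Sh q c = d := by
    rw [Nd.Sh, Nd.Sh, TQ_sum j fun j' hj => by rw [e2 j' hj], e3, add_sub_cancel_left]
  have s3 : ν'.Zh q - ν.Zh q ≤ |d| := by
    change ∑ c ∈ ν.E, ν'.Sh q c - ∑ c ∈ ν.E, ν.Sh q c ≤ _
    rw [← sum_sub_distrib]
    exact TQ_sum_le _ c (abs_nonneg _) s1 (s2.le.trans (le_abs_self _))
  have hp := ep0_pos hk
  have s4 : ∑ c ∈ ν.L, (ν'.Sh q c * ν.FF c + ν'.Zh q * ν.BB c) -
      ∑ c ∈ ν.L, (ν.Sh q c * ν.FF c + ν.Zh q * ν.BB c) ≤ kap k * |d| := by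
    have a1 : ∑ c ∈ ν.L, (ν'.Sh q c - ν.Sh q c) * ν.FF c ≤ |d| * (504 / ep0 k) :=
      TQ_sum_le _ c (by positivity) (fun c' hc => by rw [s1 c' hc, zero_mul])
        (mul_le_mul (s2.le.trans (le_abs_self _)) (Nd.FF_bounds hk h c).2 (Nd.FF_bounds hk h c).1
          (abs_nonneg _))
    have a2 : (ν'.Zh q - ν.Zh q) * ∑ c ∈ ν.L, ν.BB c ≤ |d| * (169 / ep0 k) :=
      mul_le_mul s3 (Nd.sum_BB_le hk h) (sum_nonneg fun c _ => (Nd.BB_bounds hk h c).1)
        (abs_nonneg _)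
    have a3 : |d| * (504 / ep0 k) + |d| * (169 / ep0 k) ≤ kap k * |d| := by
      rw [← mul_add, ← add_div, mul_comm, kap]
      exact mul_le_mul_of_nonneg_right (div_le_div_of_nonneg_right (by norm_num) hp.le)
        (abs_nonneg _)
    refine le_trans (le_of_eq ?_) ((add_le_add a1 a2).trans a3)
    rw [mul_sum, ← sum_add_distrib, ← sum_sub_distrib]
    exact sum_congr rfl fun c _ => by ring
  have s5 : ∑ c, ∑ j, (q c j - (ν'.q c j + eta k / 2 * (1 - ν'.q c j))) ^ 2 =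
      ∑ c, ∑ j, (q c j - (ν.q c j + eta k / 2 * (1 - ν.q c j))) ^ 2 +
        ((q c j - (y + eta k / 2 * (1 - y))) ^ 2 -
          (q c j - (ν.q c j + eta k / 2 * (1 - ν.q c j))) ^ 2) := by
    rw [TQ_sum c fun c' hc => by rw [e1 c' hc], TQ_sum j fun j' hj => by rw [e2 j' hj], e3,
      add_sub_cancel_left]
  have n1 : ∀ c', c' ≠ c → nom (ν.q c') - nom (ν'.q c') = 0 := fun c' hc => by
    rw [e1 c' hc, sub_self]
  have n2 : |nom (ν.q c) - nom (ν'.q c)| = |g| := by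
    rw [abs_sub_comm, nom, nom, TQ_sum j fun j' hj => by rw [e2 j' hj], e3, add_sub_cancel_left]
  have n3 : ∑ c ∈ ν.E, |nom (ν.q c) - nom (ν'.q c)| ≤ |g| :=
    TQ_sum_le _ c (abs_nonneg _) (fun c' hc => by rw [n1 c' hc, abs_zero]) n2.le
  have n4 : |ν.HH R - ν'.HH R| ≤ |g| := by
    change |max 0 (∑ c ∈ ν.E, nom (ν.q c) - R) - max 0 (∑ c ∈ ν.E, nom (ν'.q c) - R)| ≤ _
    rw [max_comm, max_comm 0]
    refine (abs_max_sub_max_le_abs _ _ _).trans ?_
    rw [sub_sub_sub_cancel_right, ← sum_sub_distrib]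
    exact (abs_sum_le_sum_abs _ _).trans n3
  have n5 : ν.cost ν' R q ≤ 101 / 50 * |g| := by
    have a1 : ∀ c, 101 / 100 * |ν.Rc R c - ν'.Rc R c| +
        (if (c ∈ ν.E ↔ c ∈ ν'.E) then 0 else sig (q c)) ≤
        if c ∈ ν.E then 101 / 100 * (|nom (ν.q c) - nom (ν'.q c)| + ν.rE c * |g|) else 0 := by
      intro c
      rw [if_pos (show c ∈ ν.E ↔ c ∈ ν'.E from Iff.rfl), add_zero]
      change 101 / 100 * |(if c ∈ ν.E then nom (ν.q c) - ν.rE c * ν.HH R else 0) -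
        if c ∈ ν.E then nom (ν'.q c) - ν.rE c * ν'.HH R else 0| ≤ _
      split_ifs
      · refine mul_le_mul_of_nonneg_left ?_ (by norm_num)
        rw [sub_sub_sub_comm, ← mul_sub]
        refine (abs_sub _ _).trans (add_le_add le_rfl ?_)
        rw [abs_mul, abs_of_nonneg (Nd.rE_nonneg h c)]
        exact mul_le_mul_of_nonneg_left n4 (Nd.rE_nonneg h c)
      · simp
    refine (sum_le_sum fun c _ => a1 c).trans ?_
    rw [sum_ite_mem, univ_inter, ← mul_sum, sum_add_distrib, ← sum_mul, Nd.sum_rE]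
    linarith
  have k1 : ν'.Pm q - ν.Pm q =
      (∑ c ∈ ν.L, (ν'.Sh q c * ν.FF c + ν'.Zh q * ν.BB c) -
        ∑ c ∈ ν.L, (ν.Sh q c * ν.FF c + ν.Zh q * ν.BB c)) +
      14 * kap k * (∑ c, ∑ j, (q c j - (ν'.q c j + eta k / 2 * (1 - ν'.q c j))) ^ 2 -
        ∑ c, ∑ j, (q c j - (ν.q c j + eta k / 2 * (1 - ν.q c j))) ^ 2) := by
    change (∑ c ∈ ν.L, (ν'.Sh q c * ν.FF c + ν'.Zh q * ν.BB c) +
      14 * kap k * ∑ c, ∑ j, (q c j - (ν'.q c j + eta k / 2 * (1 - ν'.q c j))) ^ 2 +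
      2000 * kap k * ∑ c, ∑ j, (1 - q c j - ν.p c j) ^ 2 +
      20 * kap k * ∑ c, (if ν.act c = true then 1 / 4 else ν.sg c) +
      5 * kap k * |∑ c ∈ ν.E, ν.sg c - ν.Xh| +
      100 * kap k * ∑ c ∈ univ.erase ν.h, ν.sg c) - _ = _
    rw [Nd.Pm]
    ring
  rw [s5] at k1
  linarith

theorem TQ_scal {η x z y a b : ℝ} (hη : 0 ≤ η) (hη' : η ≤ 1 / 100) (x0 : 0 ≤ x) (x1 : x ≤ 1)
    (z0 : 0 ≤ z) (z1 : z ≤ 1) (y0 : 0 ≤ y) (y1 : y ≤ 1) (hb : 0 < b) (hb' : |y - z| = b)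
    (hab : (x - (z + η / 2 * (1 - z))) * (y - z) = a * b) (h1 : 10 * b ≤ a) (h2 : |x - z| ≤ 2 * a)
    (h3 : η * (1 - z) ≤ 2 * a) :
    7 * |sF y + sD y * (x - y) - (sF z + sD z * (x - z))| + η * (101 / 50 * |g0 y - g0 z|) <
      98 * ((x - (z + η / 2 * (1 - z))) ^ 2 - (x - (y + η / 2 * (1 - y))) ^ 2) := by
  have hb2 : (y - z) ^ 2 = b ^ 2 := by rw [← hb', sq_abs]
  have hb1 : b ≤ 1 := by
    rw [← hb', abs_le]
    constructor <;> linarith
  have e1 : sF y + sD y * (x - y) - (sF z + sD z * (x - z)) =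
      (y - z) * ((6 * z - 4) * (x - z) + (3 * x - 6 * z + 2) * (y - z) - 2 * (y - z) ^ 2) := by
    unfold sF sD
    ring
  have e2 : g0 y - g0 z = (y - z) * -(3 * (y + z) - 2 * (y ^ 2 + y * z + z ^ 2)) := by
    unfold g0
    ring
  have e3 : (x - (z + η / 2 * (1 - z))) ^ 2 - (x - (y + η / 2 * (1 - y))) ^ 2 =
      2 * (1 - η / 2) * (a * b) - (1 - η / 2) ^ 2 * b ^ 2 := by
    rw [← hab, ← hb2]
    ring
  have a1 : |(6 * z - 4) * (x - z)| ≤ 4 * (2 * a) := by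
    rw [abs_mul]
    exact mul_le_mul (abs_le.2 ⟨by linarith, by linarith⟩) h2 (abs_nonneg _) (by norm_num)
  have a2 : |(3 * x - 6 * z + 2) * (y - z)| ≤ 5 * b := by
    rw [abs_mul, hb']
    exact mul_le_mul_of_nonneg_right (abs_le.2 ⟨by linarith, by linarith⟩) hb.le
  have a3 : |(6 * z - 4) * (x - z) + (3 * x - 6 * z + 2) * (y - z) - 2 * (y - z) ^ 2| ≤ 9 * a := by
    have : b ^ 2 ≤ b := pow_le_of_le_one hb.le hb1 two_ne_zero
    rw [hb2, abs_le]
    constructor <;> linarith only [(abs_le.1 a1).1, (abs_le.1 a1).2, (abs_le.1 a2).1,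
      (abs_le.1 a2).2, sq_nonneg b, this, h1]
  have a4 : |3 * (y + z) - 2 * (y ^ 2 + y * z + z ^ 2)| ≤ 6 * (1 - z) + 3 * b := by
    have c1 : z - y ≤ b := by rw [← hb', abs_sub_comm]; exact le_abs_self _
    have c2 : 0 ≤ 3 * (y + z) - 2 * (y ^ 2 + y * z + z ^ 2) := by
      linarith only [mul_nonneg y0 (sub_nonneg.2 y1), mul_nonneg z0 (sub_nonneg.2 z1),
        mul_nonneg y0 (sub_nonneg.2 z1), mul_nonneg z0 (sub_nonneg.2 y1)]
    rw [abs_of_nonneg c2]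
    linarith only [sq_nonneg (1 - y), sq_nonneg (1 - z), c1,
      mul_nonneg (sub_nonneg.2 y1) (sub_nonneg.2 z1)]
  have a5 : η * |3 * (y + z) - 2 * (y ^ 2 + y * z + z ^ 2)| ≤ 13 * a := by
    refine (mul_le_mul_of_nonneg_left a4 hη).trans ?_
    linarith only [mul_le_mul_of_nonneg_right hη' hb.le, h1, h3, hb]
  have a6 := mul_le_mul_of_nonneg_left a3 hb.le
  have a7 := mul_le_mul_of_nonneg_left a5 hb.le
  have a8 : 0 < a * b := mul_pos (by linarith) hb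
  have a9 : (1 - η / 2) ^ 2 * b ^ 2 ≤ a * b / 10 := by
    have c1 : (1 - η / 2) ^ 2 ≤ 1 := pow_le_one₀ (by linarith) (by linarith)
    linarith only [mul_le_mul_of_nonneg_right c1 (sq_nonneg b), mul_le_mul_of_nonneg_right h1 hb.le]
  have a10 := mul_le_mul_of_nonneg_right hη' a8.le
  rw [e1, e2, e3, abs_mul, abs_mul, abs_neg, hb']
  linarith only [a6, a7, a8, a9, a10]

theorem Nd.Eq0.win (hk : 1 ≤ k) (h : ν.OK) (h0 : ∀ c j, 0 ≤ q c j) (h1 : ∀ c j, q c j ≤ 1)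
    {R : ℝ} (he : ν.Eq0 R q) : ν.Win q := by
  intro c j
  have hp := ep0_pos hk
  have hη : 0 < eta k := div_pos hp (by norm_num)
  have hη' : eta k ≤ 1 / 100 := by
    have := ep0_le hk
    unfold eta
    linarith
  have hK : eta k * kap k = 7 := by
    unfold eta kap
    field_simp
    norm_num
  have key : ∀ y a b : ℝ, 0 ≤ y → y ≤ 1 → 0 < b → |y - ν.q c j| = b →
      (q c j - (ν.q c j + eta k / 2 * (1 - ν.q c j))) * (y - ν.q c j) = a * b → 10 * b ≤ a →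
      |q c j - ν.q c j| ≤ 2 * a → eta k * (1 - ν.q c j) ≤ 2 * a → False := by
    intro y a b y0 y1 hb hb' hab k1 k2 k3
    have k4 := TQ_scal hη.le hη' (h0 c j) (h1 c j) (h.q0 c j) (h.q1 c j) y0 y1 hb hb' hab k1 k2 k3
    have k5 := mul_le_mul_of_nonneg_left (TQ_test hk h he c j y0 y1) hη.le
    rw [mul_add, ← mul_assoc, ← mul_assoc (eta k) (kap k), mul_left_comm (eta k), hK] at k5
    linarith
  have x0 := h0 c j
  have x1 := h1 c j
  have z0 := h.q0 c j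
  have z1 := h.q1 c j
  have hz := mul_nonneg hη.le (sub_nonneg.2 z1)
  generalize q c j = x at *
  generalize ν.q c j = z at *
  constructor
  · by_contra hx
    rw [not_le] at hx
    refine key (z - (z - x) / 10) (z + eta k / 2 * (1 - z) - x) ((z - x) / 10) (by linarith)
      (by linarith) (by linarith) ?_ (by ring) (by linarith) ?_ (by linarith)
    · rw [sub_sub_cancel_left, abs_neg, abs_of_pos (by linarith)]
    · rw [abs_of_neg (by linarith)]
      linarith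
  · by_contra hx
    rw [not_le] at hx
    refine key (z + (x - (z + eta k / 2 * (1 - z))) / 10) (x - (z + eta k / 2 * (1 - z)))
      ((x - (z + eta k / 2 * (1 - z))) / 10) (by linarith) (by linarith) (by linarith) ?_ (by ring)
      (by linarith) ?_ (by linarith)
    · rw [add_sub_cancel_left, abs_of_pos (by linarith)]
    · rw [abs_of_pos (by linarith)]
      linarith

end Crest.Agent.R314
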