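import Crest.Agent.R314.TScal

/-! Module B: the tests for the shares. -/

set_option autoImplicit false

namespace Crest.Agent.R314

open Finset

variable {Λ : Type} [Fintype Λ] [DecidableEq Λ] {k : ℕ} {ν : Nd Λ k} {q : Λ → Fin k → ℝ}

/-- the part of the potential which depends on one share -/
noncomputable def TRho_f (S Z a d e r : ℝ) : ℝ :=
  S * (a * Real.log ((1 + d) / (r + d))) + Z * (14 * r + a / (1 + e) * (r - d * Real.log (1 + r / d)))

theorem TRho_deriv (S Z a e : ℝ) {d r : ℝ} (hd : 0 < d) (hr : 0 ≤ r) :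
    HasDerivAt (TRho_f S Z a d e) (-(S * a / (r + d)) + Z * (14 + a / (1 + e) * (r / (r + d)))) r := by
  have h0 : r + d ≠ 0 := by positivity
  have h1 : HasDerivAt (fun x : ℝ => Real.log ((1 + d) / (x + d))) (-(1 / (r + d))) r := by
    refine ((((hasDerivAt_id r).add_const d).inv h0).const_mul (1 + d)).log
      (mul_ne_zero (by positivity) (inv_ne_zero h0)) |>.congr_deriv ?_
    simp only [id, Pi.inv_apply]
    field_simp
  have h2 : HasDerivAt (fun x : ℝ => Real.log (1 + x / d)) (1 / (r + d)) r := by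
    refine (((hasDerivAt_id r).div_const d).const_add 1).log (by positivity) |>.congr_deriv ?_
    simp only [id]
    field_simp
    ring
  refine (((h1.const_mul a).const_mul S).add (((((hasDerivAt_id r).const_mul 14)).add
    (((hasDerivAt_id r).sub (h2.const_mul d)).const_mul (a / (1 + e)))).const_mul Z)).congr_deriv ?_
  have h3 : r / (r + d) = 1 - d * (1 / (r + d)) := by
    field_simp
    ring
  rw [h3]
  ring

theorem TRho_right {f : ℝ → ℝ} {f' x t K : ℝ} (h : HasDerivAt f f' x) (ht : 0 < t)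
    (hm : ∀ s, 0 < s → s ≤ t → f x ≤ f (x + s) + K * s) : 0 ≤ f' + K := by
  have h1 : -K ≤ f' := by
    refine ge_of_tendsto h.tendsto_slope_zero_right ?_
    filter_upwards [Ioc_mem_nhdsGT ht] with s hs
    rw [smul_eq_mul, inv_mul_eq_div, le_div_iff₀ hs.1]
    linarith [hm s hs.1 hs.2]
  linarith

theorem TRho_left {f : ℝ → ℝ} {f' x t K : ℝ} (h : HasDerivAt f f' x) (ht : 0 < t)
    (hm : ∀ s, 0 < s → s ≤ t → f x ≤ f (x - s) + K * s) : f' ≤ K := by
  refine le_of_tendsto h.tendsto_slope_zero_left ?_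
  filter_upwards [Ico_mem_nhdsLT (neg_lt_zero.2 ht)] with s hs
  have h1 := hm (-s) (neg_pos.2 hs.2) (by linarith [hs.1])
  rw [sub_neg_eq_add] at h1
  rw [smul_eq_mul, inv_mul_eq_div, div_le_iff_of_neg hs.2]
  linarith

theorem TRho_test (h : ν.OK) {R : ℝ} (he : ν.Eq0 R q) (hH : ν.HH R ≤ 31 / 10 * ν.Zh q) {c : Λ}
    (hc : c ∈ ν.L) {r : ℝ} (hr0 : 0 ≤ r) (hr : r - ν.rho c ≤ ν.rE ν.h) :
    TRho_f (ν.Sh q c) (ν.Zh q) (ν.aa c) (ν.dp c) (ν.ep c) (ν.rho c) ≤
      TRho_f (ν.Sh q c) (ν.Zh q) (ν.aa c) (ν.dp c) (ν.ep c) r + 7 * ν.Zh q * |r - ν.rho c| := by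
  have hch : c ≠ ν.h := (mem_filter.1 hc).2.2
  have hE : ν.rE ν.h = 1 - ∑ l ∈ ν.L, ν.rho l := if_pos rfl
  have hsum : ∑ l ∈ ν.L, Function.update ν.rho c r l = ∑ l ∈ ν.L, ν.rho l + (r - ν.rho c) := by
    rw [sum_update_of_mem hc, ← add_sum_erase _ _ hc, sdiff_singleton_eq_erase]
    ring
  have h1 : ν.rho c ≤ ∑ l ∈ ν.L, ν.rho l := single_le_sum (fun l _ => h.r0 l) hc
  have hOK : Nd.OK { ν with rho := Function.update ν.rho c r } :=
    ⟨h.X0, h.X1, h.q0, h.q1, h.p0, h.p1, fun l => by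
      by_cases hl : l = c
      · subst hl; simpa using hr0
      · simpa [hl] using h.r0 l, fun l => by
      by_cases hl : l = c
      · subst hl; simp only [Function.update_self]; linarith
      · simpa [hl] using h.r1 l, hsum.trans_le (by linarith)⟩
  have h2 := he _ hOK rfl rfl
  have hH0 : 0 ≤ ν.HH R := le_max_left _ _
  have hcost : ν.cost { ν with rho := Function.update ν.rho c r } R q ≤
      7 * ν.Zh q * |r - ν.rho c| := by
    have h3 : ∀ l, |ν.Rc R l - Nd.Rc { ν with rho := Function.update ν.rho c r } R l| ≤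
        (if l = c then |r - ν.rho c| * ν.HH R else 0) +
          if l = ν.h then |r - ν.rho c| * ν.HH R else 0 := fun l => by
      have h4 : 0 ≤ |r - ν.rho c| * ν.HH R := by positivity
      change |(if l ∈ ν.E then nom (ν.q l) - ν.rE l * ν.HH R else 0) -
        (if l ∈ ν.E then nom (ν.q l) - (if l = ν.h then 1 - ∑ l ∈ ν.L, Function.update ν.rho c r l
          else Function.update ν.rho c r l) * ν.HH R else 0)| ≤ _
      by_cases hl : l ∈ ν.E
      · rw [if_pos hl, if_pos hl, hsum, Nd.rE]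
        by_cases hlh : l = ν.h
        · rw [if_pos hlh, if_pos hlh, if_pos hlh, if_neg (hlh ▸ hch.symm), zero_add,
            ← abs_of_nonneg hH0, ← abs_mul, abs_of_nonneg hH0, ← abs_neg]
          exact le_of_eq (by congr 1; ring)
        · rw [if_neg hlh, if_neg hlh, if_neg hlh, add_zero]
          by_cases hlc : l = c
          · rw [if_pos hlc, hlc, Function.update_self, ← abs_of_nonneg hH0, ← abs_mul,
              abs_of_nonneg hH0]
            exact le_of_eq (by congr 1; ring)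
          · rw [if_neg hlc, Function.update_of_ne hlc, sub_self, abs_zero]
      · rw [if_neg hl, if_neg hl, sub_self, abs_zero]
        split_ifs <;> positivity
    have h5 := sum_le_sum fun l (_ : l ∈ univ) => h3 l
    rw [sum_add_distrib, sum_ite_eq', sum_ite_eq', if_pos (mem_univ _), if_pos (mem_univ _)] at h5
    have h6 : ν.cost { ν with rho := Function.update ν.rho c r } R q =
        101 / 100 * ∑ l, |ν.Rc R l - Nd.Rc { ν with rho := Function.update ν.rho c r } R l| := by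
      rw [mul_sum]
      exact sum_congr rfl fun l _ => by rw [if_pos (by exact Iff.rfl), add_zero]
    rw [h6]
    nlinarith [mul_le_mul_of_nonneg_left hH (abs_nonneg (r - ν.rho c)),
      mul_nonneg (abs_nonneg (r - ν.rho c)) hH0]
  have h7 : ∑ l ∈ ν.L, (ν.Sh q l * Nd.FF { ν with rho := Function.update ν.rho c r } l +
      ν.Zh q * Nd.BB { ν with rho := Function.update ν.rho c r } l) =
      TRho_f (ν.Sh q c) (ν.Zh q) (ν.aa c) (ν.dp c) (ν.ep c) r +
        ∑ l ∈ ν.L.erase c, (ν.Sh q l * ν.FF l + ν.Zh q * ν.BB l) := by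
    rw [← add_sum_erase _ _ hc]
    congr 1
    · change TRho_f (ν.Sh q c) (ν.Zh q) (ν.aa c) (ν.dp c) (ν.ep c)
        (Function.update ν.rho c r c) = _
      rw [Function.update_self]
    · refine sum_congr rfl fun l hl => ?_
      change TRho_f (ν.Sh q l) (ν.Zh q) (ν.aa l) (ν.dp l) (ν.ep l)
        (Function.update ν.rho c r l) = _
      rw [Function.update_of_ne (ne_of_mem_erase hl)]
      rfl
  have h8 : ∑ l ∈ ν.L, (ν.Sh q l * ν.FF l + ν.Zh q * ν.BB l) =
      TRho_f (ν.Sh q c) (ν.Zh q) (ν.aa c) (ν.dp c) (ν.ep c) (ν.rho c) +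
        ∑ l ∈ ν.L.erase c, (ν.Sh q l * ν.FF l + ν.Zh q * ν.BB l) := (add_sum_erase _ _ hc).symm
  have h9 : Nd.Pm { ν with rho := Function.update ν.rho c r } q - ν.Pm q =
      ∑ l ∈ ν.L, (ν.Sh q l * Nd.FF { ν with rho := Function.update ν.rho c r } l +
        ν.Zh q * Nd.BB { ν with rho := Function.update ν.rho c r } l) -
        ∑ l ∈ ν.L, (ν.Sh q l * ν.FF l + ν.Zh q * ν.BB l) := by
    unfold Nd.Pm
    simp only [add_assoc]
    exact add_sub_add_right_eq_sub _ _ _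
  rw [h7, h8] at h9
  linarith

theorem TRho_Sh_nonneg (hk : 1 ≤ k) (h : ν.OK) (hw : ν.Win q) (c : Λ) : 0 ≤ ν.Sh q c := by
  refine le_trans (mul_nonneg ?_ (Sm_nonneg fun j => (h.q0 c j).trans (hw c j).1))
    (hw.Sh_bounds hk h c).1
  have := ep0_le hk
  unfold eta
  linarith

theorem Nd.Eq0.rho_le (hk : 1 ≤ k) (h : ν.OK) (hw : ν.Win q) {R : ℝ} (he : ν.Eq0 R q)
    (hH : ν.HH R ≤ 31 / 10 * ν.Zh q) {c : Λ} (hc : c ∈ ν.L) :
    ν.rho c * ν.Zh q ≤ (1 + ν.ep c) * ν.Sh q c := by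
  have hS := TRho_Sh_nonneg hk h hw c
  have he0 : 0 < ν.ep c := (ep0_pos hk).trans_le (Nd.ep_bounds hk h c).1
  have hZ : 0 ≤ ν.Zh q := by linarith [show 0 ≤ ν.HH R from le_max_left _ _]
  rcases (h.r0 c).eq_or_lt with h0 | h0
  · rw [← h0, zero_mul]
    positivity
  have hd := Nd.dp_pos hk ν c
  have ha : 0 < ν.aa c := div_pos (by norm_num) he0
  have h1 := TRho_left (K := 7 * ν.Zh q)
    (TRho_deriv (ν.Sh q c) (ν.Zh q) (ν.aa c) (ν.ep c) hd h0.le) h0 fun s hs hs' => by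
      have := TRho_test h he hH hc (r := ν.rho c - s) (by linarith)
        (by linarith [Nd.rE_nonneg h ν.h])
      rwa [sub_sub_cancel_left, abs_neg, abs_of_pos hs] at this
  have h2 : ν.aa c / (ν.rho c + ν.dp c) * (ν.rho c * ν.Zh q / (1 + ν.ep c)) ≤
      ν.aa c / (ν.rho c + ν.dp c) * ν.Sh q c := by
    calc _ = ν.Zh q * (ν.aa c / (1 + ν.ep c) * (ν.rho c / (ν.rho c + ν.dp c))) := by ring
      _ ≤ ν.Sh q c * ν.aa c / (ν.rho c + ν.dp c) := by linarith
      _ = _ := by ring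
  have h3 := le_of_mul_le_mul_left h2 (by positivity)
  rwa [div_le_iff₀' (by positivity)] at h3

theorem Nd.Eq0.rho_ge (hk : 1 ≤ k) (h : ν.OK) (hw : ν.Win q) {R : ℝ} (he : ν.Eq0 R q)
    (hH : ν.HH R ≤ 31 / 10 * ν.Zh q) (hh : 0 < ν.rE ν.h) {c : Λ} (hc : c ∈ ν.L) :
    (1 + ν.ep c / 2) * ν.Sh q c ≤ (ν.rho c + ν.dl c) * ν.Zh q := by
  have _ := hw
  have he0 : 0 < ν.ep c := (ep0_pos hk).trans_le (Nd.ep_bounds hk h c).1
  have he1 := (Nd.ep_bounds hk h c).2
  have hZ : 0 ≤ ν.Zh q := by linarith [show 0 ≤ ν.HH R from le_max_left _ _]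
  have h0 := h.r0 c
  have hd := Nd.dp_pos hk ν c
  have hl := Nd.dl_pos hk ν c
  have ha : 0 < ν.aa c := div_pos (by norm_num) he0
  have h1 := TRho_right (K := 7 * ν.Zh q)
    (TRho_deriv (ν.Sh q c) (ν.Zh q) (ν.aa c) (ν.ep c) hd h0) hh fun s hs hs' => by
      have := TRho_test h he hH hc (r := ν.rho c + s) (by linarith) (by linarith)
      rwa [add_sub_cancel_left, abs_of_pos hs] at this
  have e1 : ν.aa c / (ν.rho c + ν.dp c) * ((ν.rho c + ν.dp c) * ν.ep c / 8) = 21 := by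
    unfold Nd.aa
    field_simp
    norm_num
  have e2 : ν.dp c * ν.ep c = 4 * ν.dl c := by
    unfold Nd.dp
    field_simp
  have h2 : ν.aa c / (ν.rho c + ν.dp c) * ν.Sh q c ≤ ν.aa c / (ν.rho c + ν.dp c) *
      (((ν.rho c + ν.dp c) * ν.ep c / 8 + ν.rho c / (1 + ν.ep c)) * ν.Zh q) := by
    calc _ = ν.Sh q c * ν.aa c / (ν.rho c + ν.dp c) := by ring
      _ ≤ 21 * ν.Zh q +
          ν.Zh q * (ν.aa c / (1 + ν.ep c) * (ν.rho c / (ν.rho c + ν.dp c))) := by linarith
      _ = _ := by rw [← e1]; ring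
  have h3 := le_of_mul_le_mul_left h2 (by positivity)
  refine (mul_le_mul_of_nonneg_left h3 (by positivity)).trans ?_
  rw [← mul_assoc]
  refine mul_le_mul_of_nonneg_right ?_ hZ
  have h4 : (1 + ν.ep c / 2) * (ν.ep c / 8 + 1 / (1 + ν.ep c)) ≤ 1 := by
    have h5 : 1 / (1 + ν.ep c) ≤ 1 - 7 / 8 * ν.ep c := by
      rw [div_le_iff₀ (by positivity)]
      nlinarith
    nlinarith
  calc _ = (1 + ν.ep c / 2) * (ν.ep c / 8 + 1 / (1 + ν.ep c)) * ν.rho c +
        (1 + ν.ep c / 2) * (ν.dp c * ν.ep c / 8) := by ring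
    _ ≤ 1 * ν.rho c + (1 + ν.ep c / 2) * (ν.dp c * ν.ep c / 8) := by gcongr
    _ ≤ _ := by rw [e2]; nlinarith

end Crest.Agent.R314
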