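import Crest.Agent.R314.TDefs

/-! Module B: scalar estimates. -/

set_option autoImplicit false
set_option linter.unusedSectionVars false
set_option linter.unusedVariables false

namespace Crest.Agent.R314

open Finset

theorem one_le_Lg {k : ℕ} (hk : 1 ≤ k) : 1 ≤ Lg k := by
  have : 0 ≤ Real.log k := Real.log_nonneg (by exact_mod_cast hk)
  unfold Lg
  linarith

theorem ep0_pos {k : ℕ} (hk : 1 ≤ k) : 0 < ep0 k := by
  have := one_le_Lg hk
  unfold ep0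
  positivity

theorem ep0_le {k : ℕ} (hk : 1 ≤ k) : ep0 k ≤ 1 / 1000 := by
  have := one_le_Lg hk
  exact one_div_le_one_div_of_le (by norm_num) (by linarith)

theorem kap_eq {k : ℕ} (hk : 1 ≤ k) : kap k = 700000 * Lg k := by
  unfold kap ep0
  rw [div_div_eq_mul_div]
  ring

theorem GA_eq {k : ℕ} (A : ℝ) (q : Fin k → ℝ) : GA A q = (3 - A) * sig q + (A - 2) * cub q := by
  simp only [GA, nom, Sm, sig, cub, mul_sum, ← sum_sub_distrib, ← sum_add_distrib]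
  refine sum_congr rfl fun j _ => ?_
  unfold g0 sF
  ring

theorem Sm_nonneg {k : ℕ} {q : Fin k → ℝ} (h0 : ∀ j, 0 ≤ q j) : 0 ≤ Sm q := by
  exact sum_nonneg fun j _ => mul_nonneg (h0 j) (sq_nonneg _)

theorem Sm_le_sig {k : ℕ} {q : Fin k → ℝ} (h1 : ∀ j, q j ≤ 1) : Sm q ≤ sig q := by
  exact sum_le_sum fun j _ => mul_le_of_le_one_left (sq_nonneg _) (h1 j)

theorem GA_nonneg {k : ℕ} {A : ℝ} (hA : A ≤ 3) {q : Fin k → ℝ} (h0 : ∀ j, 0 ≤ q j)
    (h1 : ∀ j, q j ≤ 1) : 0 ≤ GA A q := by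
  simp only [GA, nom, Sm, mul_sum, ← sum_sub_distrib]
  refine sum_nonneg fun j _ => ?_
  have h2 : A * q j ≤ 3 * q j := mul_le_mul_of_nonneg_right hA (h0 j)
  have h3 := mul_nonneg (sq_nonneg (1 - q j))
    (show 0 ≤ 1 + 2 * q j - A * q j by linarith [h1 j])
  unfold g0 sF
  linarith

theorem TScal_log {k : ℕ} (hk : 1 ≤ k) (n : ℕ) {x : ℝ} (h0 : 0 < x) (hx : x ≤ 2 ^ n * k) :
    Real.log x ≤ 7 / 10 * n + Real.log k := by
  have hk' : (0 : ℝ) < k := by exact_mod_cast hk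
  have h1 := Real.log_le_log h0 hx
  rw [Real.log_mul (by positivity) hk'.ne', Real.log_pow] at h1
  have h2 : (n : ℝ) * Real.log 2 ≤ n * (7 / 10) :=
    mul_le_mul_of_nonneg_left (by linarith [Real.log_two_lt_d9]) (Nat.cast_nonneg n)
  linarith

theorem TScal_ep0_mul {k : ℕ} (hk : 1 ≤ k) : ep0 k * Lg k = 1 / 1000 := by
  have := one_le_Lg hk
  unfold ep0
  field_simp

theorem TScal_eta {k : ℕ} (hk : 1 ≤ k) : 0 ≤ eta k ∧ eta k ≤ 1 / 100000 := by
  have h1 := ep0_pos hk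
  have h2 := ep0_le hk
  unfold eta
  constructor <;> linarith

theorem TScal_sq {a q η : ℝ} (a1 : a ≤ 1) (h2 : q ≤ a + η * (1 - a)) (e1 : η ≤ 1 / 100000) :
    1 - a ≤ 101 / 100 * (1 - q) ∧ (1 - a) ^ 2 ≤ 11 / 10 * (1 - q) ^ 2 := by
  have h3 : η * (1 - a) ≤ 1 / 100000 * (1 - a) := by gcongr
  have h4 : 1 - a ≤ 101 / 100 * (1 - q) := by linarith
  refine ⟨h4, (pow_le_pow_left₀ (by linarith) h4 2).trans ?_⟩
  nlinarith [sq_nonneg (1 - q)]

theorem TScal_g0 {a q η : ℝ} (a0 : 0 ≤ a) (a1 : a ≤ 1) (h1 : a ≤ q) (h2 : q ≤ a + η * (1 - a))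
    (e0 : 0 ≤ η) (e1 : η ≤ 1 / 100000) : g0 q ≤ g0 a ∧ g0 a ≤ g0 q + 7 * η * sF q := by
  obtain ⟨b1, b2⟩ := TScal_sq a1 h2 e1
  have q0 : 0 ≤ q := a0.trans h1
  have q1 : q ≤ 1 := by linarith
  have e : g0 a - g0 q = (q - a) * (3 * (q + a) - 2 * (q ^ 2 + q * a + a ^ 2)) := by
    unfold g0; ring
  have c1 : 0 ≤ 3 * (q + a) - 2 * (q ^ 2 + q * a + a ^ 2) := by nlinarith
  have c2 : 3 * (q + a) - 2 * (q ^ 2 + q * a + a ^ 2) ≤ 6 * q * (1 - a) := by
    nlinarith [sq_nonneg (q - a)]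
  have c3 : g0 a - g0 q ≤ η * (1 - a) * (6 * q * (1 - a)) := by
    rw [e]
    exact mul_le_mul (by linarith) c2 c1 (mul_nonneg e0 (by linarith))
  have c4 : η * q * (1 - a) ^ 2 ≤ η * q * (11 / 10 * (1 - q) ^ 2) := by gcongr
  have c5 : 0 ≤ η * q * (1 - q) ^ 2 := by positivity
  refine ⟨by linarith [mul_nonneg (sub_nonneg.2 h1) c1], ?_⟩
  unfold sF
  linarith

theorem TScal_Sh {a q η : ℝ} (a0 : 0 ≤ a) (a1 : a ≤ 1) (h1 : a ≤ q) (h2 : q ≤ a + η * (1 - a))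
    (e0 : 0 ≤ η) (e1 : η ≤ 1 / 100000) : (1 - 5 * η) * sF q ≤ sF a + sD a * (q - a) ∧
      sF a + sD a * (q - a) ≤ (1 + 5 * η) * sF q := by
  obtain ⟨b1, b2⟩ := TScal_sq a1 h2 e1
  have q0 : 0 ≤ q := a0.trans h1
  have q1 : 0 ≤ 1 - q := by linarith
  have d0 : 0 ≤ q - a := by linarith
  have d1 : q - a ≤ η * (101 / 100 * (1 - q)) :=
    (show q - a ≤ η * (1 - a) by linarith).trans (mul_le_mul_of_nonneg_left b1 e0)
  have e : sF a + sD a * (q - a) = sF q + (q - a) ^ 2 * (2 - 2 * a - q) := by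
    unfold sF sD; ring
  have key : 2 * (q - a) ^ 2 ≤ 5 * η * sF q := by
    unfold sF
    have c0 : 0 ≤ η * q * (1 - q) ^ 2 := by positivity
    rcases le_total q (1 / 2) with h | h
    · have c1 : (q - a) * (q - a) ≤ q * (η * (101 / 100 * (1 - q))) :=
        mul_le_mul (by linarith) d1 d0 q0
      have c2 : η * q * (1 - q) * 1 ≤ η * q * (1 - q) * (2 * (1 - q)) := by gcongr; linarith
      linarith
    · have c1 := pow_le_pow_left₀ d0 d1 2
      have c2 : η * (1 - q) ^ 2 * η ≤ η * (1 - q) ^ 2 * q := by gcongr; linarith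
      linarith
  have c1 : (q - a) ^ 2 * (2 - 2 * a - q) ≤ (q - a) ^ 2 * 2 := by gcongr; linarith
  have c2 : (q - a) ^ 2 * (-2) ≤ (q - a) ^ 2 * (2 - 2 * a - q) := by gcongr; linarith
  rw [e]
  constructor <;> linarith

theorem Ab_bounds {k : ℕ} (hk : 1 ≤ k) {σ : ℝ} (hσ : σ ≤ k) : 2 ≤ Ab k σ ∧ Ab k σ ≤ 3 := by
  have hk' : (1 : ℝ) ≤ k := by exact_mod_cast hk
  have hm : (0 : ℝ) < max σ (1 / 32) := lt_max_of_lt_right (by norm_num)
  have h0 := ep0_pos hk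
  have h1 : 0 ≤ Real.log (k / max σ (1 / 32)) :=
    Real.log_nonneg ((one_le_div hm).2 (max_le hσ (by linarith)))
  have h2 := TScal_log hk 5 (x := k / max σ (1 / 32)) (by positivity) (by
    rw [div_le_iff₀ hm]
    have : (1 : ℝ) / 32 ≤ max σ (1 / 32) := le_max_right _ _
    nlinarith)
  have h3 : Real.log (k / max σ (1 / 32)) ≤ 4 * Lg k := by
    have := Real.log_nonneg hk'
    unfold Lg
    push_cast at h2
    linarith
  have h4 : 28 * ep0 k * Real.log (k / max σ (1 / 32)) ≤ 1 / 5 := by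
    have := mul_le_mul_of_nonneg_left h3 h0.le
    linarith [TScal_ep0_mul hk]
  have h5 := Real.exp_le_exp.2 h4
  have h6 := Real.exp_bound_div_one_sub_of_interval (x := 1 / 5) (by norm_num) (by norm_num)
  have h7 := Real.one_le_exp (x := 28 * ep0 k * Real.log (k / max σ (1 / 32))) (by positivity)
  unfold Ab
  constructor <;> linarith

namespace Nd

variable {Λ : Type} [Fintype Λ] [DecidableEq Λ] {k : ℕ} {ν : Nd Λ k}

theorem xx_nonneg (ν : Nd Λ k) (c : Λ) : 0 ≤ ν.xx c := by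
  exact le_max_left _ _

theorem ep_bounds (hk : 1 ≤ k) (h : ν.OK) (c : Λ) : ep0 k ≤ ν.ep c ∧ ν.ep c ≤ 6 / 1000 := by
  have hk' : (1 : ℝ) ≤ k := by exact_mod_cast hk
  have h0 := ep0_pos hk
  have hm : (0 : ℝ) < max (ν.sg c) (1 / 8) := lt_max_of_lt_right (by norm_num)
  have hm' : (0 : ℝ) < max ν.Xh (1 / 8) := lt_max_of_lt_right (by norm_num)
  have h2 := TScal_log hk 6 (x := max ν.Xh (1 / 8) / max (ν.sg c) (1 / 8)) (by positivity) (by
    rw [div_le_iff₀ hm]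
    have a1 : (1 : ℝ) / 8 ≤ max (ν.sg c) (1 / 8) := le_max_right _ _
    have a2 : max ν.Xh (1 / 8) ≤ 8 * k := max_le h.X1 (by linarith)
    nlinarith)
  have h3 : 1 + ν.xx c ≤ 6 * Lg k := by
    have := Real.log_nonneg hk'
    have : ν.xx c ≤ 5 + Real.log k := max_le (by linarith) (by push_cast at h2; linarith)
    unfold Lg
    linarith
  refine ⟨le_mul_of_one_le_right h0.le (by linarith [ν.xx_nonneg c]), ?_⟩
  have := mul_le_mul_of_nonneg_left h3 h0.le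
  unfold ep
  linarith [TScal_ep0_mul hk]

theorem TScal_ep_pos (hk : 1 ≤ k) (ν : Nd Λ k) (c : Λ) : 0 < ν.ep c := by
  have := ep0_pos hk
  have := ν.xx_nonneg c
  unfold ep
  positivity

theorem dl_pos (hk : 1 ≤ k) (ν : Nd Λ k) (c : Λ) : 0 < ν.dl c := by
  have := ep0_pos hk
  unfold dl
  positivity

theorem dp_pos (hk : 1 ≤ k) (ν : Nd Λ k) (c : Λ) : 0 < ν.dp c := by
  exact div_pos (mul_pos (by norm_num) (dl_pos hk ν c)) (TScal_ep_pos hk ν c)

theorem dl_le (hk : 1 ≤ k) (ν : Nd Λ k) (c : Λ) :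
    ν.dl c ≤ ep0 k / 32 * (max (ν.sg c) (1 / 8) / max ν.Xh (1 / 8)) := by
  have h0 := ep0_pos hk
  have hm : (0 : ℝ) < max (ν.sg c) (1 / 8) := lt_max_of_lt_right (by norm_num)
  have hm' : (0 : ℝ) < max ν.Xh (1 / 8) := lt_max_of_lt_right (by norm_num)
  refine mul_le_mul_of_nonneg_left ?_ (by positivity)
  refine (Real.exp_le_exp.2 (neg_le_neg (le_max_right _ _))).trans_eq ?_
  rw [Real.exp_neg, Real.exp_log (by positivity), inv_div]

theorem FF_bounds (hk : 1 ≤ k) (h : ν.OK) (c : Λ) : 0 ≤ ν.FF c ∧ ν.FF c ≤ 504 / ep0 k := by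
  have h0 := ep0_pos hk
  have hx := ν.xx_nonneg c
  have hd := dp_pos hk ν c
  have he := TScal_ep_pos hk ν c
  have hr := h.r0 c
  have ha : 0 < ν.aa c := div_pos (by norm_num) he
  refine ⟨mul_nonneg ha.le (Real.log_nonneg ((one_le_div (by positivity)).2
    (by linarith [h.r1 c]))), ?_⟩
  have hE := Real.exp_pos (ν.xx c)
  have h1 : ν.dp c * (8 * (1 + ν.xx c) * Real.exp (ν.xx c)) = 1 := by
    unfold dp dl ep
    rw [Real.exp_neg]
    field_simp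
    norm_num
  have h2 : (1 + ν.dp c) / (ν.rho c + ν.dp c) ≤ 1 + 8 * (1 + ν.xx c) * Real.exp (ν.xx c) := by
    rw [div_le_iff₀ (by positivity)]
    have : 0 ≤ (1 + 8 * (1 + ν.xx c) * Real.exp (ν.xx c)) * ν.rho c := by positivity
    linarith
  have h3 : 1 + 8 * (1 + ν.xx c) * Real.exp (ν.xx c) ≤ Real.exp (3 * (1 + ν.xx c)) := by
    have a1 := Real.add_one_le_exp (ν.xx c)
    have a2 : (9 : ℝ) ≤ Real.exp 1 ^ 3 :=
      le_trans (by norm_num) (pow_le_pow_left₀ (by norm_num) Real.exp_one_gt_d9.le 3)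
    have a3 : Real.exp (3 * (1 + ν.xx c)) = Real.exp 1 ^ 3 * Real.exp (ν.xx c) ^ 3 := by
      rw [← mul_pow, ← Real.exp_add, ← Real.exp_nat_mul]; norm_num
    generalize Real.exp (ν.xx c) = y at *
    have a4 : 1 ≤ y := by linarith
    have a5 : (1 + ν.xx c) * y ≤ y ^ 3 := by
      calc _ ≤ y * y * 1 := by rw [mul_one]; gcongr; linarith
        _ ≤ y * y * y := by gcongr
        _ = _ := by ring
    have a6 : 1 ≤ y ^ 3 := one_le_pow₀ a4
    have a7 : 9 * y ^ 3 ≤ Real.exp 1 ^ 3 * y ^ 3 := by gcongr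
    linarith
  have h4 : Real.log ((1 + ν.dp c) / (ν.rho c + ν.dp c)) ≤ 3 * (1 + ν.xx c) :=
    (Real.log_le_iff_le_exp (by positivity)).2 (h2.trans h3)
  refine (mul_le_mul_of_nonneg_left h4 ha.le).trans_eq ?_
  unfold aa ep
  field_simp
  norm_num

theorem BB_bounds (hk : 1 ≤ k) (h : ν.OK) (c : Λ) :
    0 ≤ ν.BB c ∧ ν.BB c ≤ 169 / ep0 k * ν.rho c := by
  have h0 := ep0_pos hk
  have hd := dp_pos hk ν c
  have he := TScal_ep_pos hk ν c
  have hr := h.r0 c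
  have ha : 0 < ν.aa c := div_pos (by norm_num) he
  have h1 : 0 ≤ ν.dp c * Real.log (1 + ν.rho c / ν.dp c) :=
    mul_nonneg hd.le (Real.log_nonneg (le_add_of_nonneg_right (by positivity)))
  have h2 : ν.dp c * Real.log (1 + ν.rho c / ν.dp c) ≤ ν.rho c := by
    have := Real.log_le_sub_one_of_pos (x := 1 + ν.rho c / ν.dp c) (by positivity)
    rwa [add_sub_cancel_left, le_div_iff₀' hd] at this
  have h3 : ν.aa c / (1 + ν.ep c) ≤ 168 / ep0 k :=
    (div_le_self ha.le (by linarith)).trans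
      (div_le_div_of_nonneg_left (by norm_num) h0 (ep_bounds hk h c).1)
  have h4 : 14 ≤ 1 / ep0 k := by
    rw [le_div_iff₀ h0]
    linarith [ep0_le hk]
  refine ⟨add_nonneg (by positivity) (mul_nonneg (by positivity) (by linarith)), ?_⟩
  calc ν.BB c ≤ 1 / ep0 k * ν.rho c + 168 / ep0 k * ν.rho c :=
        add_le_add (mul_le_mul_of_nonneg_right h4 hr)
          (mul_le_mul h3 (by linarith) (by linarith) (by positivity))
    _ = _ := by ring

theorem sum_BB_le (hk : 1 ≤ k) (h : ν.OK) : ∑ c ∈ ν.L, ν.BB c ≤ 169 / ep0 k := by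
  have h0 := ep0_pos hk
  refine (sum_le_sum fun c _ => (BB_bounds hk h c).2).trans ?_
  rw [← mul_sum]
  exact mul_le_of_le_one_right (by positivity) h.rs

theorem TScal_not_mem (ν : Nd Λ k) : ν.h ∉ ν.L := by simp [L]

theorem rE_nonneg (h : ν.OK) (c : Λ) : 0 ≤ ν.rE c := by
  unfold rE
  split_ifs
  exacts [sub_nonneg.2 h.rs, h.r0 c]

theorem sum_rE (ν : Nd Λ k) : ∑ c ∈ ν.E, ν.rE c = 1 := by
  have h : ∑ c ∈ ν.L, ν.rE c = ∑ c ∈ ν.L, ν.rho c :=
    sum_congr rfl fun c hc => if_neg (mem_filter.1 hc).2.2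
  rw [E, sum_insert ν.TScal_not_mem, h, rE, if_pos rfl, sub_add_cancel]

theorem sum_Rc_le (ν : Nd Λ k) (R : ℝ) : ∑ c, ν.Rc R c ≤ R := by
  simp only [Rc, sum_ite_mem, univ_inter]
  rw [sum_sub_distrib, ← sum_mul, sum_rE, one_mul]
  have : ∑ c ∈ ν.E, nom (ν.q c) - R ≤ ν.HH R := le_max_right _ _
  linarith

theorem sum_abs_Rc_sub (h : ν.OK) (R R' : ℝ) : ∑ c, |ν.Rc R c - ν.Rc R' c| ≤ |R - R'| := by
  have h1 : ∀ c, |ν.Rc R c - ν.Rc R' c| =
      if c ∈ ν.E then ν.rE c * |ν.HH R - ν.HH R'| else 0 := fun c => by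
    unfold Rc
    split_ifs
    · rw [sub_sub_sub_cancel_left, ← mul_sub, abs_mul, abs_of_nonneg (rE_nonneg h c), abs_sub_comm]
    · simp
  simp only [h1, sum_ite_mem, univ_inter]
  rw [← sum_mul, sum_rE, one_mul, HH, HH, max_comm, max_comm 0]
  refine (abs_max_sub_max_le_abs _ _ _).trans_eq ?_
  rw [sub_sub_sub_cancel_left, abs_sub_comm]

theorem Eq.eq0 {R : ℝ} {q : Λ → Fin k → ℝ} (h : ν.Eq R q) : ν.Eq0 R q := by
  exact fun ν' h' _ _ => h ν' h'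

/-! consequences of the window property -/

variable {q : Λ → Fin k → ℝ}

theorem TScal_win (hk : 1 ≤ k) (h : ν.OK) (hw : ν.Win q) (c : Λ) (j : Fin k) :
    0 ≤ q c j ∧ q c j ≤ 1 := by
  have h1 := (TScal_sq (h.q1 c j) (hw c j).2 (TScal_eta hk).2).1
  exact ⟨(h.q0 c j).trans (hw c j).1, by linarith [h.q1 c j]⟩

theorem Win.nom_bounds (hk : 1 ≤ k) (h : ν.OK) (hw : ν.Win q) (c : Λ) :
    nom (q c) ≤ nom (ν.q c) ∧ nom (ν.q c) ≤ nom (q c) + 7 * eta k * Sm (q c) := by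
  have key := fun j => TScal_g0 (h.q0 c j) (h.q1 c j) (hw c j).1 (hw c j).2 (TScal_eta hk).1
    (TScal_eta hk).2
  refine ⟨sum_le_sum fun j _ => (key j).1, ?_⟩
  rw [nom, nom, Sm, mul_sum, ← sum_add_distrib]
  exact sum_le_sum fun j _ => (key j).2

theorem Win.Sh_bounds (hk : 1 ≤ k) (h : ν.OK) (hw : ν.Win q) (c : Λ) :
    (1 - 5 * eta k) * Sm (q c) ≤ ν.Sh q c ∧ ν.Sh q c ≤ (1 + 5 * eta k) * Sm (q c) := by
  have key := fun j => TScal_Sh (h.q0 c j) (h.q1 c j) (hw c j).1 (hw c j).2 (TScal_eta hk).1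
    (TScal_eta hk).2
  rw [Sm, mul_sum, mul_sum]
  exact ⟨sum_le_sum fun j _ => (key j).1, sum_le_sum fun j _ => (key j).2⟩

theorem Win.nom_le_sig (hk : 1 ≤ k) (h : ν.OK) (hw : ν.Win q) (c : Λ) :
    0 ≤ nom (ν.q c) ∧ nom (ν.q c) ≤ 4 * sig (q c) := by
  refine ⟨sum_nonneg fun j _ => mul_nonneg (sq_nonneg _) (by linarith [h.q0 c j]), ?_⟩
  rw [sig, mul_sum]
  refine sum_le_sum fun j _ => ?_
  have h1 := (TScal_sq (h.q1 c j) (hw c j).2 (TScal_eta hk).2).2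
  have h2 : g0 (ν.q c j) ≤ (1 - ν.q c j) ^ 2 * 3 :=
    mul_le_mul_of_nonneg_left (by linarith [h.q1 c j]) (sq_nonneg _)
  linarith [sq_nonneg (1 - q c j)]

theorem Win.nom_le_mass (hk : 1 ≤ k) (h : ν.OK) (hw : ν.Win q) (c : Λ) :
    nom (ν.q c) ≤ 2 * ∑ j, (1 - q c j) := by
  rw [mul_sum]
  refine sum_le_sum fun j _ => ?_
  have h1 := (TScal_sq (h.q1 c j) (hw c j).2 (TScal_eta hk).2).1
  have h2 := mul_nonneg (sub_nonneg.2 (h.q1 c j)) (sq_nonneg (ν.q c j - 1 / 4))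
  have h3 := h.q1 c j
  unfold g0
  linarith

/-- the deficit is at most `3.1` times the tracked normaliser -/
theorem Win.HH_le (hk : 1 ≤ k) (h : ν.OK) (hw : ν.Win q) {A R : ℝ} (hA : A ≤ 3)
    (hR : ∑ c, GA A (q c) ≤ R) : ν.HH R ≤ 31 / 10 * ν.Zh q := by
  obtain ⟨e0, e1⟩ := TScal_eta hk
  have hS : ∀ c, 0 ≤ Sm (q c) := fun c => Sm_nonneg fun j => (TScal_win hk h hw c j).1
  have h1 : ∑ c ∈ ν.E, GA A (q c) ≤ R := le_trans (sum_le_sum_of_subset_of_nonneg (subset_univ _)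
    fun c _ _ => GA_nonneg hA (fun j => (TScal_win hk h hw c j).1)
      fun j => (TScal_win hk h hw c j).2) hR
  rw [Zh, mul_sum]
  refine max_le (sum_nonneg fun c _ => ?_) ?_
  · have a1 := (hw.Sh_bounds hk h c).1
    have a2 := mul_nonneg (show 0 ≤ 1 - 5 * eta k by linarith) (hS c)
    linarith
  · refine le_trans (sub_le_sub_left h1 _) ?_
    rw [← sum_sub_distrib]
    refine sum_le_sum fun c _ => ?_
    have a1 := (hw.Sh_bounds hk h c).1
    have a2 := (hw.nom_bounds hk h c).2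
    have a3 := mul_le_mul_of_nonneg_right hA (hS c)
    have a4 := mul_le_mul_of_nonneg_right e1 (hS c)
    have a5 := hS c
    unfold GA
    linarith

end Nd

end Crest.Agent.R314
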