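import Crest.Agent.R314.TRho

/-! Module B: the tests for the tracked sizes. -/

set_option autoImplicit false

namespace Crest.Agent.R314

open Finset

variable {Λ : Type} [Fintype Λ] [DecidableEq Λ] {k : ℕ} {ν : Nd Λ k} {q : Λ → Fin k → ℝ}

/-- change the tracked sizes -/
def Nd.tsUpd (ν : Nd Λ k) (Y : ℝ) (p : Λ → Fin k → ℝ) : Nd Λ k := { ν with Xh := Y, p := p }

theorem TSize_test {R : ℝ} (he : ν.Eq0 R q) {Y : ℝ} {p : Λ → Fin k → ℝ} (h : (ν.tsUpd Y p).OK) :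
    ∑ c ∈ ν.L, (ν.Sh q c * ν.FF c + ν.Zh q * ν.BB c) +
      kap k * (2000 * ∑ c, ∑ j, (1 - q c j - ν.p c j) ^ 2 +
        20 * ∑ c, (if ν.act c = true then 1 / 4 else ν.sg c) + 5 * |∑ c ∈ ν.E, ν.sg c - ν.Xh| +
        100 * ∑ c ∈ univ.erase ν.h, ν.sg c) ≤
    ∑ c ∈ ν.L, (ν.Sh q c * (ν.tsUpd Y p).FF c + ν.Zh q * (ν.tsUpd Y p).BB c) +
      kap k * (2000 * ∑ c, ∑ j, (1 - q c j - p c j) ^ 2 +
        20 * ∑ c, (if ν.act c = true then 1 / 4 else (ν.tsUpd Y p).sg c) +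
        5 * |∑ c ∈ ν.E, (ν.tsUpd Y p).sg c - Y| +
        100 * ∑ c ∈ univ.erase ν.h, (ν.tsUpd Y p).sg c) := by
  have h1 := he _ h rfl rfl
  have h2 : ν.cost (ν.tsUpd Y p) R q = 0 := sum_eq_zero fun c _ => by
    rw [show (ν.tsUpd Y p).Rc R c = ν.Rc R c from rfl, sub_self, abs_zero, mul_zero, zero_add]
    exact if_pos Iff.rfl
  have h3 : (ν.tsUpd Y p).Pm q =
      ∑ c ∈ ν.L, (ν.Sh q c * (ν.tsUpd Y p).FF c + ν.Zh q * (ν.tsUpd Y p).BB c) +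
      14 * kap k * ∑ c, ∑ j, (q c j - (ν.q c j + eta k / 2 * (1 - ν.q c j))) ^ 2 +
      2000 * kap k * ∑ c, ∑ j, (1 - q c j - p c j) ^ 2 +
      20 * kap k * ∑ c, (if ν.act c = true then 1 / 4 else (ν.tsUpd Y p).sg c) +
      5 * kap k * |∑ c ∈ ν.E, (ν.tsUpd Y p).sg c - Y| +
      100 * kap k * ∑ c ∈ univ.erase ν.h, (ν.tsUpd Y p).sg c := rfl
  rw [h2, h3, Nd.Pm] at h1
  linarith

omit [Fintype Λ] in
theorem TSize_sum (s : Finset Λ) {f g : Λ → ℝ} (c : Λ) (h : ∀ d, d ≠ c → g d = f d) :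
    ∑ d ∈ s, g d = ∑ d ∈ s, f d + if c ∈ s then g c - f c else 0 := by
  rw [← sum_ite_eq' s c fun d => g d - f d, ← sum_add_distrib]
  refine sum_congr rfl fun d _ => ?_
  split_ifs with h1
  · ring
  · rw [h d h1, add_zero]

theorem TSize_q (hk : 1 ≤ k) (h : ν.OK) (hw : ν.Win q) (c : Λ) (j : Fin k) :
    0 ≤ q c j ∧ q c j ≤ 1 := by
  have h1 := ep0_le hk
  have h2 : eta k ≤ 1 := by unfold eta; linarith
  exact ⟨(h.q0 c j).trans (hw c j).1, by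
    linarith [(hw c j).2, mul_le_mul_of_nonneg_right h2 (sub_nonneg.2 (h.q1 c j))]⟩

theorem TSize_Sh (hk : 1 ≤ k) (h : ν.OK) (hw : ν.Win q) (c : Λ) :
    0 ≤ ν.Sh q c ∧ ν.Sh q c ≤ 5 / 4 * sig (q c) := by
  have h1 := ep0_le hk
  have h2 : 5 * eta k ≤ 1 / 4 := by unfold eta; linarith
  have h3 := Sm_nonneg fun j => (TSize_q hk h hw c j).1
  have h4 := Sm_le_sig fun j => (TSize_q hk h hw c j).2
  have h5 := hw.Sh_bounds hk h c
  have h6 := mul_le_mul_of_nonneg_right h2 h3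
  constructor <;> linarith [h5.1, h5.2]

theorem TSize_light (hk : 1 ≤ k) (h : ν.OK) (hw : ν.Win q) (c : Λ) :
    0 ≤ ν.Sh q c * ν.FF c + ν.Zh q * ν.BB c :=
  add_nonneg (mul_nonneg (TSize_Sh hk h hw c).1 (Nd.FF_bounds hk h c).1)
    (mul_nonneg (sum_nonneg fun d _ => (TSize_Sh hk h hw d).1) (Nd.BB_bounds hk h c).1)

theorem TSize_kap (hk : 1 ≤ k) : 0 < kap k ∧ 504 / ep0 k = 504 / 700 * kap k ∧
    169 / ep0 k = 169 / 700 * kap k :=
  ⟨div_pos (by norm_num) (ep0_pos hk), by unfold kap; ring, by unfold kap; ring⟩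

theorem Nd.Eq0.sg_bounds (hk : 1 ≤ k) (h : ν.OK) (hw : ν.Win q) {R : ℝ} (he : ν.Eq0 R q)
    (hH : ν.HH R ≤ 31 / 10 * ν.Zh q) (c : Λ) :
    ν.sg c ≤ 2 * sig (q c) ∧ sig (q c) ≤ 2 * ν.sg c := by
  obtain ⟨p, hp, hp'⟩ : ∃ p : Λ → Fin k → ℝ, (p c = fun j => 1 - q c j) ∧ ∀ d, d ≠ c → p d = ν.p d :=
    ⟨Function.update ν.p c _, Function.update_self .., fun _ hd => Function.update_of_ne hd ..⟩
  have hp1 : ∀ d j, 0 ≤ p d j ∧ p d j ≤ 1 := fun d j => by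
    by_cases hd : d = c
    · rw [hd, hp]
      exact ⟨sub_nonneg.2 (TSize_q hk h hw c j).2, sub_le_self _ (TSize_q hk h hw c j).1⟩
    · rw [hp' d hd]
      exact ⟨h.p0 d j, h.p1 d j⟩
  have hO : (ν.tsUpd ν.Xh p).OK := ⟨h.X0, h.X1, h.q0, h.q1, fun d j => (hp1 d j).1,
    fun d j => (hp1 d j).2, h.r0, h.r1, h.rs⟩
  have t := TSize_test he hO
  set ν' := ν.tsUpd ν.Xh p with hν
  have s1 : ν'.sg c = sig (q c) := congrArg (fun f : Fin k → ℝ => ∑ j, f j ^ 2) hp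
  have s2 : ∀ d, d ≠ c → ν'.sg d = ν.sg d := fun d hd =>
    congrArg (fun f : Fin k → ℝ => ∑ j, f j ^ 2) (hp' d hd)
  have s3 : ∀ d, d ≠ c → ν'.xx d = ν.xx d := fun d hd => by
    rw [Nd.xx, s2 d hd]
    rfl
  obtain ⟨k0, k1, k2⟩ := TSize_kap hk
  obtain ⟨a1, a2⟩ := TSize_Sh hk h hw c
  have a0 : 0 ≤ sig (q c) := sum_nonneg fun _ _ => sq_nonneg _
  have a0' : 0 ≤ ν.sg c := sum_nonneg fun _ _ => sq_nonneg _
  have b1 : ∑ d ∈ ν.L, (ν.Sh q d * ν'.FF d + ν.Zh q * ν'.BB d) ≤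
      ∑ d ∈ ν.L, (ν.Sh q d * ν.FF d + ν.Zh q * ν.BB d) + kap k * (5 / 4 * sig (q c)) := by
    rw [TSize_sum _ c (f := fun d => ν.Sh q d * ν.FF d + ν.Zh q * ν.BB d) fun d hd => by
      simp only [Nd.FF, Nd.BB, Nd.aa, Nd.dp, Nd.dl, Nd.ep, s3 d hd]
      rfl]
    refine add_le_add_right ?_ _
    split_ifs with hc
    · have c1 := mul_le_mul_of_nonneg_left (Nd.FF_bounds hk hO c).2 a1
      have c2 := mul_le_mul_of_nonneg_left (Nd.BB_bounds hk hO c).2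
        (show 0 ≤ ν.Zh q from sum_nonneg fun d _ => (TSize_Sh hk h hw d).1)
      have c3 := mul_le_mul_of_nonneg_left ((he.rho_le hk h hw hH hc).trans
        (mul_le_mul_of_nonneg_right (add_le_add_right (Nd.ep_bounds hk h c).2 1) a1)) k0.le
      rw [k1] at c1
      rw [k2, show ν'.rho c = ν.rho c from rfl] at c2
      linarith [TSize_light hk h hw c, mul_le_mul_of_nonneg_left a2 k0.le, mul_nonneg k0.le a1]
    · positivity
  have b2 : ∑ d, ∑ j, (1 - q d j - p d j) ^ 2 = ∑ d, ∑ j, (1 - q d j - ν.p d j) ^ 2 -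
      ∑ j, (1 - q c j - ν.p c j) ^ 2 := by
    rw [TSize_sum _ c (f := fun d => ∑ j, (1 - q d j - ν.p d j) ^ 2) fun d hd => by rw [hp' d hd]]
    simp [hp, sub_eq_add_neg]
  have b3 : ∀ s : Finset Λ, |∑ d ∈ s, ν'.sg d - ∑ d ∈ s, ν.sg d| ≤ |sig (q c) - ν.sg c| :=
    fun s => by
      rw [TSize_sum s c s2, add_sub_cancel_left, s1]
      split_ifs
      · exact le_rfl
      · exact abs_zero.trans_le (abs_nonneg _)
  have b4 : ∑ d, (if ν.act d = true then 1 / 4 else ν'.sg d) ≤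
      ∑ d, (if ν.act d = true then 1 / 4 else ν.sg d) + |sig (q c) - ν.sg c| := by
    rw [TSize_sum _ c (f := fun d => if ν.act d = true then 1 / 4 else ν.sg d) fun d hd => by
      rw [s2 d hd], if_pos (mem_univ _), s1]
    refine add_le_add_right ?_ _
    split_ifs
    · exact (sub_self _).trans_le (abs_nonneg _)
    · exact le_abs_self _
  have b5 := (abs_sub_le _ (∑ d ∈ ν.E, ν.sg d) ν.Xh).trans (add_le_add_left (b3 ν.E) _)
  have b6 := (le_abs_self _).trans (b3 (univ.erase ν.h))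
  have b7 : 2000 * ∑ j, (1 - q c j - ν.p c j) ^ 2 ≤
      5 / 4 * sig (q c) + 125 * |sig (q c) - ν.sg c| := by
    refine le_of_mul_le_mul_left ?_ k0
    rw [b2] at t
    linarith [mul_le_mul_of_nonneg_left b4 k0.le, mul_le_mul_of_nonneg_left b5 k0.le,
      mul_le_mul_of_nonneg_left b6 k0.le]
  have b8 : ν.sg c ≤ 3 / 2 * sig (q c) + 3 * ∑ j, (1 - q c j - ν.p c j) ^ 2 := by
    rw [sig, mul_sum, mul_sum, ← sum_add_distrib]
    exact sum_le_sum fun j _ => by nlinarith [sq_nonneg (3 * (1 - q c j) - 2 * ν.p c j)]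
  have b9 : sig (q c) ≤ 3 / 2 * ν.sg c + 3 * ∑ j, (1 - q c j - ν.p c j) ^ 2 := by
    rw [Nd.sg, mul_sum, mul_sum, ← sum_add_distrib]
    exact sum_le_sum fun j _ => by nlinarith [sq_nonneg (3 * ν.p c j - 2 * (1 - q c j))]
  rcases abs_cases (sig (q c) - ν.sg c) with ⟨e, -⟩ | ⟨e, -⟩ <;> rw [e] at b7 <;>
    constructor <;> linarith

theorem Nd.Eq0.Xh_bounds (hk : 1 ≤ k) (h : ν.OK) (hw : ν.Win q) {R : ℝ} (he : ν.Eq0 R q)
    (hH : ν.HH R ≤ 31 / 10 * ν.Zh q) (hσ : ∑ c, sig (q c) ≤ k) :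
    |∑ c ∈ ν.E, ν.sg c - ν.Xh| ≤ (∑ c ∈ ν.E, ν.sg c) / 2 := by
  have a1 : ∑ c ∈ ν.E, ν.sg c ≤ 2 * ∑ c, sig (q c) := by
    rw [mul_sum]
    exact (sum_le_sum fun c _ => (he.sg_bounds hk h hw hH c).1).trans
      (sum_le_univ_sum_of_nonneg fun c => mul_nonneg zero_le_two (sum_nonneg fun _ _ => sq_nonneg _))
  have hO : (ν.tsUpd (∑ c ∈ ν.E, ν.sg c) ν.p).OK :=
    ⟨sum_nonneg fun _ _ => sum_nonneg fun _ _ => sq_nonneg _,
      a1.trans (by linarith [k.cast_nonneg (α := ℝ)]), h.q0, h.q1, h.p0, h.p1, h.r0, h.r1, h.rs⟩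
  have t := TSize_test he hO
  set ν' := ν.tsUpd (∑ c ∈ ν.E, ν.sg c) ν.p with hν
  obtain ⟨k0, k1, k2⟩ := TSize_kap hk
  have a2 : 0 ≤ ν.Zh q := sum_nonneg fun d _ => (TSize_Sh hk h hw d).1
  have a3 : ∑ c ∈ ν.L, ν.Sh q c * ν'.FF c ≤ ν.Zh q * (504 / ep0 k) := by
    refine (sum_le_sum fun c _ => mul_le_mul_of_nonneg_left (Nd.FF_bounds hk hO c).2
      (TSize_Sh hk h hw c).1).trans ?_
    rw [← sum_mul]
    exact mul_le_mul_of_nonneg_right (sum_le_sum_of_subset_of_nonneg (subset_insert _ _)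
      fun c _ _ => (TSize_Sh hk h hw c).1) (by rw [k1]; positivity)
  have a4 := mul_le_mul_of_nonneg_left (Nd.sum_BB_le hk hO) a2
  have a5 : ν.Zh q ≤ 5 / 2 * ∑ c ∈ ν.E, ν.sg c := by
    rw [mul_sum]
    exact sum_le_sum fun c _ => by
      linarith [(TSize_Sh hk h hw c).2, (he.sg_bounds hk h hw hH c).2]
  rw [show ν'.sg = ν.sg from rfl, sub_self, abs_zero, sum_add_distrib (f := fun c => _ * ν'.FF c),
    ← mul_sum] at t
  rw [k1] at a3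
  rw [k2, show ν'.L = ν.L from rfl] at a4
  refine le_of_mul_le_mul_left ?_ k0
  linarith [sum_nonneg fun c (_ : c ∈ ν.L) => TSize_light hk h hw c,
    mul_le_mul_of_nonneg_left a5 k0.le, mul_nonneg k0.le a2]

end Crest.Agent.R314
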