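import Crest.Agent.R314.TInh
import Crest.Agent.R314.TNode
import Crest.Agent.R314.TLip
import Crest.Agent.R314.TMin

/-! Module B: the main induction and the tree system. -/

set_option autoImplicit false

namespace Crest.Agent.R314

open Finset

theorem TStep_zero_valid {Λ : Type} [Fintype Λ] [DecidableEq Λ] :
    ∀ n : ℕ, (AL.zero Λ n).Valid
  | 0 => le_refl (0 : ℝ)
  | n + 1 => by
    refine ⟨le_refl (0 : ℝ), ?_, fun _ => TStep_zero_valid n⟩
    show ∑ _c : Λ, AL.val (AL.zero Λ n) ≤ (0 : ℝ)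
    simp [AL.zero_val]

theorem TStep_zero_dom {Λ X Θ : Type} [DecidableEq Λ] [Fintype Θ] {k : ℕ} {b : Θ → ℝ}
    (hb : ∀ θ, 0 ≤ b θ) :
    ∀ (n : ℕ) (e : Θ → Fin k → Option (Lab Λ X n)), AL.Dom b (AL.zero Λ n) e
  | 0, e => by
    show (0 : ℝ) ≤ 4 * ∑ θ, b θ * (cntO (e θ) : ℝ)
    exact mul_nonneg (by norm_num) (sum_nonneg fun θ _ => mul_nonneg (hb θ) (Nat.cast_nonneg _))
  | n + 1, e => by
    refine ⟨?_, fun c => TStep_zero_dom hb n _⟩
    show (0 : ℝ) ≤ 4 * ∑ θ, b θ * (cntO (e θ) : ℝ)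
    exact mul_nonneg (by norm_num) (sum_nonneg fun θ _ => mul_nonneg (hb θ) (Nat.cast_nonneg _))

theorem TStep_sum_val {Λ : Type} [Fintype Λ] [DecidableEq Λ] {k n : ℕ} (T : TS Λ k (n + 1))
    (R : ℝ) : ∑ c, AL.val ((alloc T R).2 c) ≤ R := by
  refine le_trans (le_of_eq (sum_congr rfl fun c _ => ?_)) (Nd.sum_Rc_le T.1 R)
  show AL.val (if c ∈ T.1.E then alloc (T.2 c) (T.1.Rc R c) else AL.zero Λ n) = T.1.Rc R c
  split_ifs with h
  · exact alloc_val _ _
  · rw [AL.zero_val]; unfold Nd.Rc; rw [if_neg h]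

theorem TStep_dflt_valid {Λ : Type} [Fintype Λ] [DecidableEq Λ] [Nonempty Λ] {k : ℕ} :
    ∀ (n : ℕ) (R : ℝ), 0 ≤ R → (alloc (TS.dflt Λ k n) R).Valid
  | 0, _, h => h
  | n + 1, R, h => by
    refine ⟨h, TStep_sum_val _ _, fun c => ?_⟩
    show AL.Valid (if c ∈ (Nd.dflt Λ k).E then alloc (TS.dflt Λ k n) ((Nd.dflt Λ k).Rc R c)
      else AL.zero Λ n)
    split_ifs with hc
    · refine TStep_dflt_valid n _ ?_
      have h1 : ∀ d, nom ((Nd.dflt Λ k).q d) = 0 := fun d => by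
        simp [nom, Nd.dflt, g0]
      have h2 : (Nd.dflt Λ k).HH R = 0 := by
        unfold Nd.HH
        rw [sum_congr rfl fun d _ => h1 d]
        simp [h]
      unfold Nd.Rc
      rw [if_pos hc, h1, h2]; simp
    · exact TStep_zero_valid n

section
variable {Λ X Θ : Type} [Fintype Λ] [DecidableEq Λ] [Fintype Θ] {k : ℕ} {r0 : ℝ} {b : Θ → ℝ}

theorem TEq.main (hr : 0 < r0) (hk : 1 ≤ k) (hb : ∀ θ, 0 ≤ b θ) (hb1 : ∑ θ, b θ = 1) :
    ∀ {n : ℕ} {T : TS Λ k n} (_ : TOK T) {R : ℝ} {e : Θ → Fin k → Option (Lab Λ X n)}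
      (_ : TEq r0 b T R e) (_ : GA (Ab k (sig (qOf b e))) (qOf b e) ≤ R)
      (_ : R ≤ 4 * ∑ θ, b θ * (cntO (e θ) : ℝ)),
      (alloc T R).Valid ∧ AL.Dom b (alloc T R) e ∧
        ∀ u : Lab Λ X n, (∀ θ, b θ ≠ 0 → ∃ i, e θ i = some u) → 1 ≤ (alloc T R).leaf u := by
  intro n
  induction n with
  | zero =>
    intro T hT R e he h1 h2
    have hA := Ab_bounds hk (sig_qOf_le hb hb1 e)
    have h0 : 0 ≤ R := le_trans (GA_nonneg hA.2 (fun j => (qOf_bounds hb hb1 e j).1)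
      (fun j => (qOf_bounds hb hb1 e j).2)) h1
    refine ⟨h0, h2, fun u hu => ?_⟩
    have := (one_le_of_occ hb hb1 e (fun θ hθ => by
      obtain ⟨i, hi⟩ := hu θ hθ
      exact ⟨i, by rw [hi]; rfl⟩) hA.1 hA.2).2
    exact this.trans h1
  | succ n ih =>
    intro T hT R e he h1 h2
    have hσ := sig_qOf_le hb hb1 e
    have hA := Ab_bounds hk hσ
    have h0 : 0 ≤ R := le_trans (GA_nonneg hA.2 (fun j => (qOf_bounds hb hb1 e j).1)
      (fun j => (qOf_bounds hb hb1 e j).2)) h1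
    have hE := TEq.eq hr hk hb hb1 hT he
    have hw := Nd.Eq0.win hk hT.1 (fun c j => (qOf_bounds hb hb1 _ j).1)
      (fun c j => (qOf_bounds hb hb1 _ j).2) hE.eq0
    obtain ⟨hn1, hn2⟩ := Nd.Eq.node hk hT.1 hw hE (sig_super hb hb1 e) hσ
      ((GA_super hb hb1 e hA.1 hA.2).trans h1)
    have hch : ∀ c ∈ T.1.E, (alloc (T.2 c) (T.1.Rc R c)).Valid ∧
        AL.Dom b (alloc (T.2 c) (T.1.Rc R c)) (fun θ i => subL c (e θ i)) ∧
        ∀ u : Lab Λ X n, (∀ θ, b θ ≠ 0 → ∃ i, subL c (e θ i) = some u) →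
          1 ≤ (alloc (T.2 c) (T.1.Rc R c)).leaf u := fun c hc =>
      ih (hT.2 c) (TEq.child hr hT he c) (hn1 c hc).1
        ((hn1 c hc).2.trans (le_of_eq (by rw [sum_one_sub_qOf hb1])))
    refine ⟨⟨h0, TStep_sum_val T R, fun c => ?_⟩, ⟨h2, fun c => ?_⟩, fun u hu => ?_⟩
    · show AL.Valid (if c ∈ T.1.E then alloc (T.2 c) (T.1.Rc R c) else AL.zero Λ n)
      split_ifs with hc
      · exact (hch c hc).1
      · exact TStep_zero_valid n
    · show AL.Dom b (if c ∈ T.1.E then alloc (T.2 c) (T.1.Rc R c) else AL.zero Λ n) _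
      split_ifs with hc
      · exact (hch c hc).2.1
      · exact TStep_zero_dom hb n _
    · have hu' : ∀ θ, b θ ≠ 0 → ∃ i, subL u.1.1 (e θ i) = some u.2 := fun θ hθ => by
        obtain ⟨i, hi⟩ := hu θ hθ
        exact ⟨i, by rw [hi]; simp [subL]⟩
      have hc : u.1.1 ∈ T.1.E := hn2 _
        (one_le_of_occ hb hb1 (fun θ i => subL u.1.1 (e θ i)) (fun θ hθ => by
          obtain ⟨i, hi⟩ := hu' θ hθ
          exact ⟨i, by rw [hi]; rfl⟩) hA.1 hA.2).1
      show 1 ≤ AL.leaf (if u.1.1 ∈ T.1.E then alloc (T.2 u.1.1) (T.1.Rc R u.1.1)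
        else AL.zero Λ n) u.2
      rw [if_pos hc]
      exact (hch _ hc).2.2 u.2 hu'

end

theorem tsys_exists : TSysExists 3000000000 := by
  intro Λ X _ _ _ r0 hr n k hk
  refine ⟨{ T := {T : TS Λ k n // TOK T}
            al := fun t => alloc t.1 (k : ℝ)
            ψ := fun t e => psi r0 t.1 fun i => some (e i)
            ok := fun t => (alloc t.1 (k : ℝ)).Valid
            t0 := ⟨TS.dflt Λ k n, TOK_dflt n⟩
            ok0 := TStep_dflt_valid n _ (Nat.cast_nonneg k)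
            valid := fun _ h => h
            root := fun t _ => alloc_val _ _
            nonneg := fun t e => psi_nonneg hr hk t.1 t.2 _
            lip := fun t e e' => ?_
            step := fun Θ _ b e t hb hb1 => ?_ }⟩
  · have h := psi_lip hr hk t.1 t.2 (fun i => some (e i)) (fun i => some (e' i))
    have h2 : ∑ i, relO r0 (some (e i)) (some (e' i)) = 2 * ∑ i, rel r0 (e i) (e' i) := by
      rw [mul_sum]; rfl
    have h3 : 0 ≤ ∑ i, rel r0 (e i) (e' i) := sum_nonneg fun i _ => rel_nonneg hr _ _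
    have h4 := one_le_Lg hk
    rw [h2, kap_eq hk] at h
    have h5 : 0 ≤ Lg k * ∑ i, rel r0 (e i) (e' i) := mul_nonneg (by linarith) h3
    refine h.trans ?_
    show _ ≤ (psi r0 t.1 fun i => some (e' i)) + 3000000000 * Lg k * ∑ i, rel r0 (e i) (e' i)
    nlinarith
  · obtain ⟨T, hT, hmin⟩ := exists_tmin hk r0 b (fun θ i => some (e θ i)) (k : ℝ)
      (alloc t.1 (k : ℝ))
    have he : TEq r0 b T (k : ℝ) (fun θ i => some (e θ i)) := fun T' hT' => by
      have h1 := hmin T' hT'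
      have h2 := AL.dist_triangle hr (alloc t.1 (k : ℝ)) (alloc T (k : ℝ)) (alloc T' (k : ℝ))
      linarith
    have hq : qOf b (fun θ i => some (e θ i)) = fun _ : Fin k => (0 : ℝ) :=
      funext fun j => qOf_full b e j
    have hG : ∀ A : ℝ, GA A (fun _ : Fin k => (0 : ℝ)) = k := fun A => by
      simp [GA, nom, Sm, g0, sF]
    have hc : ∑ θ, b θ * (cntO (fun i => some (e θ i)) : ℝ) = k := by
      have : ∀ θ, cntO (fun i => some (e θ i)) = k := fun θ => by simp [cntO]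
      simp only [this]
      rw [← sum_mul, hb1, one_mul]
    have hk0 : (0 : ℝ) ≤ k := Nat.cast_nonneg k
    obtain ⟨m1, m2, m3⟩ := TEq.main hr hk hb hb1 hT he (by rw [hq, hG])
      (by rw [hc]; linarith)
    refine ⟨⟨T, hT⟩, m1, ?_, m2, fun u hu => m3 u fun θ hθ => ?_⟩
    · have h1 := hmin t.1 t.2
      rw [AL.dist_self, add_zero] at h1
      exact h1
    · obtain ⟨i, hi⟩ := hu θ hθ
      exact ⟨i, by rw [hi]⟩

end Crest.Agent.R314
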