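import Crest.Agent.R314.Cap

/-! Module C: token losses. -/

set_option autoImplicit false
set_option linter.unusedSectionVars false

namespace Crest.Agent.R314

open Finset 

variable {X : Type} [MetricSpace X] [Fintype X] [DecidableEq X] {p : Par} {n : ℕ}

theorem Tok_ballF_nonneg {ν : X → ℝ} (h0 : ∀ z, 0 ≤ ν z) (y : X) (ρ : ℝ) (z : X) :
    0 ≤ ballF ν y ρ z := by
  unfold ballF
  split_ifs
  exacts [h0 z, le_rfl]

theorem Tok_ballF_mono {ν ν' : X → ℝ} (h0 : ∀ z, 0 ≤ ν' z) {y y' z : X} {ρ ρ' : ℝ}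
    (h : dist y z ≤ ρ → dist y' z ≤ ρ' ∧ ν z ≤ ν' z) : ballF ν y ρ z ≤ ballF ν' y' ρ' z := by
  by_cases hz : dist y z ≤ ρ
  · unfold ballF
    rw [if_pos hz, if_pos (h hz).1]
    exact (h hz).2
  · exact (if_neg hz).trans_le (Tok_ballF_nonneg h0 _ _ _)

theorem Tok_ballF_congr {ν ν' : X → ℝ} {y : X} {ρ : ℝ} (h : ∀ z, dist y z ≤ ρ → ν z = ν' z) :
    ballF ν y ρ = ballF ν' y ρ :=
  funext fun z => if_ctx_congr Iff.rfl (h z) fun _ => rfl

theorem Tok_term {ν ν' : X → ℝ} {y y' : X} (h0 : ∀ z, 0 ≤ ν z) (h0' : ∀ z, 0 ≤ ν' z) (ρ : ℝ) :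
    0 ≤ 1 - (∑ z, min (ballF ν y ρ z) (ballF ν' y' ρ z)) /
      ∑ z, max (ballF ν y ρ z) (ballF ν' y' ρ z) ∧
    1 - (∑ z, min (ballF ν y ρ z) (ballF ν' y' ρ z)) /
      ∑ z, max (ballF ν y ρ z) (ballF ν' y' ρ z) ≤ 1 := by
  have h1 : 0 ≤ ∑ z, min (ballF ν y ρ z) (ballF ν' y' ρ z) :=
    sum_nonneg fun z _ => le_min (Tok_ballF_nonneg h0 _ _ _) (Tok_ballF_nonneg h0' _ _ _)
  have h2 : ∑ z, min (ballF ν y ρ z) (ballF ν' y' ρ z) ≤
      ∑ z, max (ballF ν y ρ z) (ballF ν' y' ρ z) := sum_le_sum fun z _ => min_le_max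
  exact ⟨sub_nonneg.2 (div_le_one_of_le₀ h2 (h1.trans h2)),
    sub_le_self _ (div_nonneg h1 (h1.trans h2))⟩

theorem Tok_log {a A B b : ℝ} (ha : 0 < a) (h1 : a ≤ A) (h2 : A ≤ B) (h3 : B ≤ b) :
    1 - A / B ≤ Real.log b - Real.log a := by
  have hB : 0 < B := ha.trans_le (h1.trans h2)
  have h4 := Real.log_le_sub_one_of_pos (div_pos (ha.trans_le h1) hB)
  rw [Real.log_div (ha.trans_le h1).ne' hB.ne'] at h4
  linarith [Real.log_le_log ha h1, Real.log_le_log hB h3]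

theorem Tok_abel (D : ℕ → ℝ) (G : ℕ) :
    ∑ m ∈ range G, ((m + 1 : ℕ) : ℝ) * (D (m + 1) - D (m + 1 + 1)) =
      ∑ m ∈ range G, D (m + 1) - G * D (G + 1) := by
  induction G with
  | zero => simp
  | succ G ih =>
    rw [sum_range_succ, sum_range_succ, ih]
    push_cast
    ring

theorem Tok_shift {D : ℕ → ℝ} (hD : Antitone D) (G s : ℕ) (h0 : 0 ≤ D (G + s)) :
    ∑ m ∈ range G, ((m + 1 : ℕ) : ℝ) * (D (m + 1) - D (m + 1 + s)) ≤
      s * ∑ m ∈ range G, D (m + 1) := by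
  induction s with
  | zero => simp
  | succ s ih =>
    have h1 := ih (h0.trans (hD (by omega)))
    have h2 := Tok_abel (fun j => D (j + s)) G
    have h3 : ∑ m ∈ range G, D (m + 1 + s) ≤ ∑ m ∈ range G, D (m + 1) :=
      sum_le_sum fun m _ => hD (by omega)
    have h4 : ∑ m ∈ range G, ((m + 1 : ℕ) : ℝ) * (D (m + 1) - D (m + 1 + (s + 1))) =
        ∑ m ∈ range G, ((m + 1 : ℕ) : ℝ) * (D (m + 1) - D (m + 1 + s)) +
          ∑ m ∈ range G, ((m + 1 : ℕ) : ℝ) * (D (m + 1 + s) - D (m + 1 + 1 + s)) := by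
      rw [← sum_add_distrib]
      refine sum_congr rfl fun m _ => ?_
      rw [show m + 1 + (s + 1) = m + 1 + 1 + s by omega]
      ring
    have h5 : 0 ≤ (G : ℝ) * D (G + 1 + s) :=
      mul_nonneg (Nat.cast_nonneg _) (by rwa [show G + 1 + s = G + (s + 1) by omega])
    rw [h4, h2, Nat.cast_succ s]
    linarith

theorem om_nonneg (m : ℕ) : 0 ≤ p.om m := by
  unfold Par.om
  positivity

theorem sum_om (hG : 1 ≤ p.G) : ∑ m ∈ range p.G, p.om (m + 1) = 1 := by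
  have h : ∀ k : ℕ, ∑ m ∈ range k, (2 * ((m + 1 : ℕ) : ℝ)) = k * (k + 1) := by
    intro k
    induction k with
    | zero => simp
    | succ k ih =>
      rw [sum_range_succ, ih]
      push_cast
      ring
  have hG' : (0 : ℝ) < p.G := by exact_mod_cast hG
  unfold Par.om
  rw [← sum_div, h, div_self (by positivity)]

theorem om_le (hG : 1 ≤ p.G) {m : ℕ} (hm : m ≤ p.G) : p.om m ≤ 2 / p.G := by
  have hG' : (0 : ℝ) < p.G := by exact_mod_cast hG
  have hm' : (m : ℝ) ≤ p.G := by exact_mod_cast hm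
  unfold Par.om
  rw [div_le_div_iff₀ (by positivity) hG']
  nlinarith

theorem rad_bounds (hr : 0 < p.r0) (hG : 1 ≤ p.G) {m : ℕ} (hm : m ≤ p.G) :
    p.r n / 2 ≤ p.rad n m ∧ p.rad n m ≤ p.r n := by
  have hG' : (0 : ℝ) < p.G := by exact_mod_cast hG
  have hm' : (m : ℝ) ≤ p.G := by exact_mod_cast hm
  have h := Par.r_pos hr n
  have h1 : (m : ℝ) * (p.r n / (2 * p.G)) ≤ p.G * (p.r n / (2 * p.G)) := by gcongr
  have h2 : (p.G : ℝ) * (p.r n / (2 * p.G)) = p.r n / 2 := by field_simp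
  have h3 : 0 ≤ (m : ℝ) * (p.r n / (2 * p.G)) := by positivity
  unfold Par.rad
  constructor <;> linarith

theorem ballW_pos {ν : X → ℝ} {y : X} (h0 : ∀ z, 0 ≤ ν z) (hy : 0 < ν y) {ρ : ℝ} (hρ : 0 ≤ ρ) :
    0 < ballW ν y ρ := by
  refine sum_pos' (fun z _ => Tok_ballF_nonneg h0 y ρ z) ⟨y, mem_univ _, ?_⟩
  unfold ballF
  rwa [if_pos (by rwa [dist_self])]

theorem ballW_le_sum {ν : X → ℝ} (h0 : ∀ z, 0 ≤ ν z) (y : X) (ρ : ℝ) : ballW ν y ρ ≤ ∑ z, ν z := by
  refine sum_le_sum fun z _ => ?_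
  unfold ballF
  split_ifs
  exacts [le_rfl, h0 z]

theorem ballW_mono {ν ν' : X → ℝ} (h0 : ∀ z, 0 ≤ ν' z) {y y' : X} {ρ ρ' : ℝ}
    (h : ∀ z, dist y z ≤ ρ → dist y' z ≤ ρ' ∧ ν z ≤ ν' z) : ballW ν y ρ ≤ ballW ν' y' ρ' := by
  exact sum_le_sum fun z _ => Tok_ballF_mono h0 (h z)

variable (hr : 0 < p.r0) (hG : 1 ≤ p.G)
include hr hG

/-- more weight, less loss -/
theorem tok_anti {ν ν' : X → ℝ} {y : X} (h0 : ∀ z, 0 ≤ ν z) (hy : 0 < ν y)
    (h : ∀ z, dist y z ≤ p.r n → ν z ≤ ν' z) : tok p n ν' y ≤ tok p n ν y := by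
  refine neg_le_neg (sum_le_sum fun m hm => mul_le_mul_of_nonneg_left ?_ (om_nonneg _))
  have hb := rad_bounds (n := n) hr hG (mem_range.1 hm)
  refine Real.log_le_log (ballW_pos h0 hy (by linarith [hb.1, Par.r_pos hr n])) ?_
  refine sum_le_sum fun z _ => ?_
  unfold ballF
  split_ifs with hz
  exacts [h z (hz.trans hb.2), le_rfl]

theorem tok_le_of_near {ν : X → ℝ} {y z : X} (h0 : ∀ z, 0 ≤ ν z) {a : ℝ} (ha : 0 < a)
    (hz : a ≤ ν z) (hd : dist y z ≤ p.r n / 2) : tok p n ν y ≤ -Real.log a := by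
  refine neg_le_neg ?_
  rw [← one_mul (Real.log a), ← sum_om hG, sum_mul]
  refine sum_le_sum fun m hm => mul_le_mul_of_nonneg_left (Real.log_le_log ha ?_) (om_nonneg _)
  have hb := rad_bounds (n := n) hr hG (mem_range.1 hm)
  refine le_trans ?_ (single_le_sum (fun z _ => Tok_ballF_nonneg h0 y _ z) (mem_univ z))
  unfold ballF
  rwa [if_pos (hd.trans hb.1)]

theorem neg_log_le_tok {ν : X → ℝ} {y : X} (h0 : ∀ z, 0 ≤ ν z) (hy : 0 < ν y) {W : ℝ}
    (hW : ballW ν y (p.r n) ≤ W) : -Real.log W ≤ tok p n ν y := by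
  refine neg_le_neg ?_
  rw [← one_mul (Real.log W), ← sum_om hG, sum_mul]
  refine sum_le_sum fun m hm => mul_le_mul_of_nonneg_left ?_ (om_nonneg _)
  have hb := rad_bounds (n := n) hr hG (mem_range.1 hm)
  exact Real.log_le_log (ballW_pos h0 hy (by linarith [hb.1, Par.r_pos hr n]))
    ((ballW_mono h0 fun z hz => ⟨hz.trans hb.2, le_rfl⟩).trans hW)

theorem tok_smul {ν : X → ℝ} {y : X} (h0 : ∀ z, 0 ≤ ν z) (hy : 0 < ν y) {a : ℝ} (ha : 0 < a) :
    tok p n (fun z => a * ν z) y = tok p n ν y - Real.log a := by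
  have h1 : ∀ m ∈ range p.G, p.om (m + 1) * Real.log (ballW (fun z => a * ν z) y (p.rad n (m + 1))) =
      p.om (m + 1) * Real.log (ballW ν y (p.rad n (m + 1))) + p.om (m + 1) * Real.log a := by
    intro m hm
    have hb := rad_bounds (n := n) hr hG (mem_range.1 hm)
    have h2 : ballW (fun z => a * ν z) y (p.rad n (m + 1)) = a * ballW ν y (p.rad n (m + 1)) := by
      simp only [ballW, ballF, mul_sum, mul_ite, mul_zero]
    rw [h2, Real.log_mul ha.ne' (ballW_pos h0 hy (by linarith [hb.1, Par.r_pos hr n])).ne']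
    ring
  unfold tok
  rw [sum_congr rfl h1, sum_add_distrib, ← sum_mul, sum_om hG]
  ring

theorem tok_congr {ν ν' : X → ℝ} {y : X} (h : ∀ z, dist y z ≤ p.r n → ν z = ν' z) :
    tok p n ν y = tok p n ν' y := by
  unfold tok ballW
  refine congrArg Neg.neg (sum_congr rfl fun m hm => ?_)
  rw [Tok_ballF_congr fun z hz => h z (hz.trans (rad_bounds hr hG (mem_range.1 hm)).2)]

theorem dwin_bounds {ν ν' : X → ℝ} {y y' : X} (h0 : ∀ z, 0 ≤ ν z) (h0' : ∀ z, 0 ≤ ν' z) :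
    0 ≤ dwin p n ν y ν' y' ∧ dwin p n ν y ν' y' ≤ 1 := by
  refine ⟨sum_nonneg fun m _ => mul_nonneg (om_nonneg _) (Tok_term h0 h0' _).1, ?_⟩
  rw [← sum_om hG]
  exact sum_le_sum fun m _ => mul_le_of_le_one_right (om_nonneg _) (Tok_term h0 h0' _).2

theorem dwin_congr {ν ν' : X → ℝ} {y : X} (h0 : ∀ z, 0 ≤ ν z) (hy : 0 < ν y)
    (h : ∀ z, dist y z ≤ p.r n → ν z = ν' z) : dwin p n ν y ν' y = 0 := by
  refine sum_eq_zero fun m hm => mul_eq_zero_of_right _ ?_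
  have hb := rad_bounds (n := n) hr hG (mem_range.1 hm)
  rw [← Tok_ballF_congr fun z hz => h z (hz.trans hb.2)]
  simp only [min_self, max_self]
  exact sub_eq_zero.2
    (div_self (ballW_pos h0 hy (by linarith [hb.1, Par.r_pos hr n])).ne').symm

theorem dwin_le_tok {ν ν' : X → ℝ} {y : X} (h0 : ∀ z, 0 ≤ ν z) (hy : 0 < ν y)
    (h : ∀ z, ν z ≤ ν' z) : dwin p n ν y ν' y ≤ tok p n ν y - tok p n ν' y := by
  unfold tok
  rw [neg_sub_neg, ← sum_sub_distrib]
  refine sum_le_sum fun m hm => ?_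
  have hb := rad_bounds (n := n) hr hG (mem_range.1 hm)
  have hm : ∀ z, ballF ν y (p.rad n (m + 1)) z ≤ ballF ν' y (p.rad n (m + 1)) z := fun z =>
    Tok_ballF_mono (fun z => (h0 z).trans (h z)) fun hz => ⟨hz, h z⟩
  rw [← mul_sub]
  refine mul_le_mul_of_nonneg_left (Tok_log (ballW_pos h0 hy (by linarith [hb.1, Par.r_pos hr n]))
    (sum_le_sum fun z _ => le_min le_rfl (hm z)) (sum_le_sum fun z _ => min_le_max)
    (sum_le_sum fun z _ => max_le (hm z) le_rfl)) (om_nonneg _)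

theorem PL_succ (f : ℕ → X → ℝ) (y : X) :
    PL p (n + 1) f y = PL p n f y + K0 * p.r n * tok p n (f n) y := by
  unfold PL
  rw [sum_range_succ]
  ring

theorem PL_anti {f f' : ℕ → X → ℝ} {y : X} (h0 : ∀ l, l < n → ∀ z, 0 ≤ f l z)
    (hy : ∀ l, l < n → 0 < f l y) (h : ∀ l, l < n → ∀ z, f l z ≤ f' l z) :
    PL p n f' y ≤ PL p n f y := by
  refine mul_le_mul_of_nonneg_left (sum_le_sum fun l hl => ?_) (by norm_num [K0])
  have hl' := mem_range.1 hl
  exact mul_le_mul_of_nonneg_left (tok_anti hr hG (h0 l hl') (hy l hl') fun z _ => h l hl' z)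
    (Par.r_pos hr l).le

theorem PL_smul {f : ℕ → X → ℝ} {y : X} (h0 : ∀ l, l < n → ∀ z, 0 ≤ f l z)
    (hy : ∀ l, l < n → 0 < f l y) {a : ℕ → ℝ} (ha : ∀ l, l < n → 0 < a l) :
    PL p n (fun l z => a l * f l z) y = PL p n f y - p.nrm n a := by
  unfold PL Par.nrm
  rw [← mul_sub, ← sum_sub_distrib]
  refine congrArg _ (sum_congr rfl fun l hl => ?_)
  have hl' := mem_range.1 hl
  rw [tok_smul hr hG (h0 l hl') (hy l hl') (ha l hl'), mul_sub]

/-- normalised plain losses grow with the number of levels -/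
theorem nrm_add_PL_mono {f : ℕ → X → ℝ} {W : ℕ → ℝ} {y : X} (h0 : ∀ l, l < n → ∀ z, 0 ≤ f l z)
    (hy : ∀ l, l < n → 0 < f l y) (hW : ∀ l, l < n → ∑ z, f l z ≤ W l) {j : ℕ} (hj : j ≤ n) :
    p.nrm j W + PL p j f y ≤ p.nrm n W + PL p n f y := by
  unfold PL Par.nrm
  rw [← mul_add, ← mul_add, ← sum_add_distrib, ← sum_add_distrib]
  refine mul_le_mul_of_nonneg_left (sum_le_sum_of_subset_of_nonneg (range_mono hj)
    fun l hl _ => ?_) (by norm_num [K0])
  have hl' := mem_range.1 hl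
  have := neg_log_le_tok (n := l) hr hG (h0 l hl') (hy l hl')
    ((ballW_le_sum (h0 l hl') _ _).trans (hW l hl'))
  rw [← mul_add]
  exact mul_nonneg (Par.r_pos hr l).le (by linarith)

/-- gradient of the token loss plus the probability of different token cells -/
theorem tok_grad (hp : p.Hyp X (n + 1)) {ν : X → ℝ} (h0 : ∀ z, 0 < ν z) {σ x : X}
    (hd : dist x σ ≤ p.r n / 48) :
    K0 * p.r n * (tok p n ν σ - tok p n ν x) + dwin p n ν x ν σ * p.S (n + 1) ≤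
      dist x σ * (5 + 89 * ((∑ m ∈ range p.G,
        (Real.log (ballW ν σ (2 * p.r n)) - Real.log (ballW ν σ (p.rad n (m + 1))))) / p.G)) := by
  have h0' : ∀ z, 0 ≤ ν z := fun z => (h0 z).le
  by_cases hx : x = σ
  · rw [hx, dwin_congr hr hG h0' (h0 σ) fun _ _ => rfl]
    simp
  have hR := Par.r_pos hr n
  have hG' : (0 : ℝ) < p.G := by exact_mod_cast hG
  obtain ⟨h, hh⟩ : ∃ h, h = p.r n / (2 * p.G) := ⟨_, rfl⟩
  have hpos : 0 < h := hh ▸ by positivity
  have hrh : p.r n = 2 * p.G * h := by rw [hh]; field_simp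
  have hrad : ∀ j : ℕ, p.rad n j = p.r n / 2 + j * h := fun j => by rw [hh]; rfl
  have hdh : h < dist x σ := by
    refine lt_of_le_of_lt ?_ (not_le.1 fun h' => hx (hp.sep _ _ h'))
    have := hp.fine n n.lt_succ_self
    rw [hrh] at this
    exact le_of_mul_le_mul_left this (by positivity)
  obtain ⟨s, hs1, hs2⟩ : ∃ s : ℕ, dist x σ ≤ s * h ∧ s * h ≤ 2 * dist x σ := by
    refine ⟨⌈dist x σ / h⌉₊, (div_le_iff₀ hpos).1 (Nat.le_ceil _), ?_⟩
    have := (Nat.ceil_lt_add_one (div_nonneg dist_nonneg hpos.le : 0 ≤ dist x σ / h)).le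
    have h2 := mul_le_mul_of_nonneg_right this hpos.le
    rw [add_mul, div_mul_cancel₀ _ hpos.ne'] at h2
    linarith
  have hsG : (2 * s : ℝ) ≤ p.G := le_of_mul_le_mul_right (by nlinarith) hpos
  have hsG' : s ≤ p.G := by
    have : (s : ℝ) ≤ p.G := by linarith [(Nat.cast_nonneg s : (0 : ℝ) ≤ s)]
    exact_mod_cast this
  have hW : ∀ (y : X) (j : ℕ), 0 < ballW ν y (p.rad n j) := fun y j =>
    ballW_pos h0' (h0 y) (by rw [hrad]; positivity)
  obtain ⟨D, hD⟩ : ∃ D : ℕ → ℝ, ∀ j, D j =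
      Real.log (ballW ν σ (2 * p.r n)) - Real.log (ballW ν σ (p.rad n j)) := ⟨_, fun _ => rfl⟩
  have hanti : Antitone D := antitone_nat_of_succ_le fun j => by
    rw [hD, hD]
    refine sub_le_sub_left (Real.log_le_log (hW _ _) (ballW_mono h0' fun z hz => ⟨?_, le_rfl⟩)) _
    rw [hrad] at hz ⊢
    push_cast
    linarith
  have hD0 : 0 ≤ D (p.G + 2 * s) := by
    rw [hD]
    refine sub_nonneg.2 (Real.log_le_log (hW _ _) (ballW_mono h0' fun z hz => ⟨?_, le_rfl⟩))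
    rw [hrad] at hz
    push_cast at hz
    nlinarith
  have hnn : ∀ j, j ≤ p.G + 2 * s → 0 ≤ D j := fun j hj => hD0.trans (hanti hj)
  have b1 : ∀ (j : ℕ) (z : X), dist x z ≤ p.rad n j → dist σ z ≤ p.rad n (j + s) := by
    intro j z hz
    rw [hrad] at hz ⊢
    push_cast
    linarith [dist_triangle_left σ z x]
  have b2 : ∀ (j : ℕ) (z : X), dist σ z ≤ p.rad n j → dist x z ≤ p.rad n (j + s) := by
    intro j z hz
    rw [hrad] at hz ⊢
    push_cast
    linarith [dist_triangle x σ z]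
  have b3 : ∀ (j : ℕ) (z : X), dist σ z ≤ p.rad n j → dist σ z ≤ p.rad n (j + s) := by
    intro j z hz
    rw [hrad] at hz ⊢
    push_cast
    nlinarith [(Nat.cast_nonneg s : (0 : ℝ) ≤ s)]
  obtain ⟨c, hc⟩ : ∃ c : ℝ, c = 2 / (p.G * (p.G + 1)) := ⟨_, rfl⟩
  have hc0 : 0 ≤ c := hc ▸ by positivity
  have hom : ∀ m : ℕ, p.om m = c * m := fun m => by
    rw [hc]
    unfold Par.om
    ring
  simp only [← hD]
  obtain ⟨T, hT⟩ : ∃ T, T = ∑ m ∈ range p.G, D (m + 1) := ⟨_, rfl⟩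
  have hT0 : 0 ≤ T := hT ▸ sum_nonneg fun m hm => hnn _ (by have := mem_range.1 hm; omega)
  have c1 : tok p n ν σ - tok p n ν x ≤ c * (s * T) := by
    refine le_trans ?_ (mul_le_mul_of_nonneg_left
      (hT ▸ Tok_shift hanti p.G s (hnn _ (by omega))) hc0)
    unfold tok
    rw [neg_sub_neg, ← sum_sub_distrib, mul_sum]
    refine sum_le_sum fun m _ => ?_
    rw [← mul_sub, hom, mul_assoc, hD, hD, sub_sub_sub_cancel_left]
    refine mul_le_mul_of_nonneg_left (mul_le_mul_of_nonneg_left (sub_le_sub_right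
      (Real.log_le_log (hW _ _) (ballW_mono h0' fun z hz => ⟨b1 _ z hz, le_rfl⟩)) _)
      (by positivity)) hc0
  have c2 : dwin p n ν x ν σ ≤ s / p.G + c * (3 * s * T) := by
    obtain ⟨k, hk⟩ := Nat.exists_eq_add_of_le hsG'
    unfold dwin
    rw [show range p.G = range (s + k) by rw [← hk], sum_range_add]
    refine add_le_add ?_ ?_
    · refine (sum_le_card_nsmul _ _ (1 / p.G : ℝ) fun m hm => ?_).trans ?_
      swap
      · rw [card_range, nsmul_eq_mul, mul_one_div]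
      refine (mul_le_of_le_one_right (om_nonneg _) (Tok_term h0' h0' _).2).trans ?_
      have hm' : ((m + 1 : ℕ) : ℝ) ≤ s := by exact_mod_cast mem_range.1 hm
      unfold Par.om
      rw [div_le_div_iff₀ (by positivity) hG']
      nlinarith
    · have e1 := Tok_shift hanti p.G (2 * s) hD0
      have e2 : ∑ m ∈ range p.G, (D (m + 1) - D (m + 1 + 2 * s)) ≤ T := by
        rw [hT]
        exact sum_le_sum fun m hm => sub_le_self _ (hnn _ (by have := mem_range.1 hm; omega))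
      have e3 : ∑ m ∈ range p.G, ((m + 1 : ℕ) + s : ℝ) * (D (m + 1) - D (m + 1 + 2 * s)) ≤
          3 * s * T := by
        simp only [add_mul _ (s : ℝ), sum_add_distrib, ← mul_sum]
        rw [← hT] at e1
        push_cast at e1 ⊢
        nlinarith [mul_le_mul_of_nonneg_left e2 (Nat.cast_nonneg s : (0 : ℝ) ≤ s)]
      refine le_trans ?_ (mul_le_mul_of_nonneg_left e3 hc0)
      rw [mul_sum]
      refine le_trans (sum_le_sum fun m _ => ?_) (sum_le_sum_of_subset_of_nonneg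
        (range_mono (by omega : k ≤ p.G)) fun m _ _ => mul_nonneg hc0 (mul_nonneg (by positivity)
          (sub_nonneg.2 (hanti (by omega)))))
      rw [show s + m + 1 = m + 1 + s by omega, hom, mul_assoc, hD, hD, sub_sub_sub_cancel_left,
        Nat.cast_add (m + 1), show m + 1 + 2 * s = m + 1 + s + s by omega]
      refine mul_le_mul_of_nonneg_left (mul_le_mul_of_nonneg_left (Tok_log (hW _ _)
        (sum_le_sum fun z _ => le_min ?_ ?_) (sum_le_sum fun z _ => min_le_max)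
        (sum_le_sum fun z _ => max_le ?_ ?_)) (by positivity)) hc0
      · exact Tok_ballF_mono h0' fun hz => ⟨b2 _ z hz, le_rfl⟩
      · exact Tok_ballF_mono h0' fun hz => ⟨b3 _ z hz, le_rfl⟩
      · exact Tok_ballF_mono h0' fun hz => ⟨b1 _ z hz, le_rfl⟩
      · exact Tok_ballF_mono h0' fun hz => ⟨b3 _ z hz, le_rfl⟩
  rw [← hT]
  have a0 : 0 ≤ T / p.G := by positivity
  have a1 : p.r n * (s / p.G) ≤ 4 * dist x σ := by
    rw [hrh, show 2 * p.G * h * (s / p.G) = 2 * (s * h) by field_simp]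
    linarith
  have a2 : c * (s * T) ≤ 2 * (s / p.G) * (T / p.G) := by
    rw [hc, show 2 * (s / p.G : ℝ) * (T / p.G) = 2 / (p.G * p.G) * (s * T) by field_simp]
    gcongr
    linarith
  have a3 : p.r n * (c * (s * T)) ≤ 8 * (dist x σ * (T / p.G)) := by
    nlinarith [mul_le_mul_of_nonneg_left a2 hR.le, mul_le_mul_of_nonneg_right a1 a0]
  have a4 : p.S (n + 1) ≤ 65536 / 65535 * p.r n := by
    rw [Par.S_succ]
    linarith [Par.S_le hr n]
  have a5 : dwin p n ν x ν σ * p.S (n + 1) ≤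
      (s / p.G + c * (3 * s * T)) * (65536 / 65535 * p.r n) :=
    mul_le_mul c2 a4 (Par.S_nonneg hr _) (by positivity)
  have a6 : 0 ≤ dist x σ * (T / p.G) := by positivity
  unfold K0
  nlinarith [mul_le_mul_of_nonneg_left c1 hR.le]

end Crest.Agent.R314
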