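import Crest.Agent.R314.Add

/-! Module C: averages of the token test. -/

set_option autoImplicit false

namespace Crest.Agent.R314

open Finset 

variable {X : Type} [MetricSpace X] [Fintype X] [DecidableEq X] [Nonempty X] {p : Par} {n : ℕ}
  {t : Tol} {σ : X} {c : Ctx X} {m : X → ℝ}

theorem TokAvg_sum (N : ℕ) : ∑ j ∈ range N, (√((j : ℝ) + 1))⁻¹ ≤ 2 * √(N : ℝ) := by
  induction N with
  | zero => simp
  | succ N ih =>
    rw [sum_range_succ, Nat.cast_succ]
    have h0 : (0 : ℝ) ≤ N := N.cast_nonneg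
    have h1 : 0 < √((N : ℝ) + 1) := Real.sqrt_pos.2 (by linarith)
    have h2 : (√((N : ℝ) + 1))⁻¹ ≤ 2 * √((N : ℝ) + 1) - 2 * √(N : ℝ) := by
      rw [inv_le_iff_one_le_mul₀ h1]
      nlinarith [Real.mul_self_sqrt h0, Real.mul_self_sqrt (add_nonneg h0 zero_le_one),
        sq_nonneg (√((N : ℝ) + 1) - √(N : ℝ))]
    linarith

theorem TokAvg_one {D : Dom X (n + 1)} (h : Sit p t σ c m D) (hσ : 0 < D.tb p none σ) {j : ℕ}
    (hj : j < p.G) :
    Real.log (Dom.gW c D n) - Real.log (ballW D.nu σ (p.rad n (j + 1))) ≤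
      Real.log (Dom.gM p c m D) + ell (Dom.mb p m D none) σ (4 * p.r n) +
        (2 + (4 + 13 * Dl p (Dom.mb p m D none) σ n) * (√(p.G : ℝ) * (√((j : ℝ) + 1))⁻¹)) := by
  have hr := h.hyp.r0_pos
  have hj0 : (0 : ℝ) < j + 1 := by positivity
  have hjG : (j : ℝ) + 1 ≤ p.G := by exact_mod_cast hj
  have hG : (0 : ℝ) < p.G := hj0.trans_le hjG
  obtain ⟨s, hs⟩ : ∃ s, s = √(p.G : ℝ) * (√((j : ℝ) + 1))⁻¹ := ⟨_, rfl⟩
  have hs2 : s ^ 2 = p.G / ((j : ℝ) + 1) := by
    rw [hs, mul_pow, inv_pow, Real.sq_sqrt hG.le, Real.sq_sqrt hj0.le, div_eq_mul_inv]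
  have hs1 : 1 ≤ s := by
    rw [hs, ← div_eq_mul_inv, one_le_div (Real.sqrt_pos.2 hj0)]
    exact Real.sqrt_le_sqrt hjG
  have h1 := h.add_tok hσ (j := j + 1) (by omega) hj
  have h2 := ell_shrink (m := Dom.mb p m D none) (σ := σ) hr
    (fun y => mul_nonneg (h.m_nonneg y) (h.vc.1.tb_nonneg hr none y)) (mul_pos h.mσ_pos hσ) n
    (b := 13 / 2 * s) (ρ := (j + 1 : ℕ) * p.r n / (10 * p.G)) (by linarith) (by
      have := Par.r_pos hr n
      rw [mul_pow, hs2, Nat.cast_succ, div_le_div_iff₀ (by positivity) (by positivity)]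
      field_simp
      norm_num)
  have h3 : Real.log (5 * (p.G : ℝ) ^ 2 / ((j + 1 : ℕ) : ℝ) ^ 2) ≤ 4 * s := by
    rw [Nat.cast_succ, mul_div_assoc, ← div_pow, ← hs2, ← pow_mul,
      Real.log_mul (by norm_num) (by positivity), Real.log_pow]
    have h4 := Real.log_le_sub_one_of_pos (x := 5) (by norm_num)
    have h5 := Real.log_le_sub_one_of_pos (x := s) (by linarith)
    push_cast
    linarith
  rw [← hs]
  linarith

theorem Sit.tok_avg {D : Dom X (n + 1)} (h : Sit p t σ c m D) (hσ : 0 < D.tb p none σ) :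
    (∑ j ∈ range p.G, (Real.log (Dom.gW c D n) - Real.log (ballW D.nu σ (p.rad n (j + 1))))) / p.G ≤
        Real.log (Dom.gM p c m D) + ell (Dom.mb p m D none) σ (4 * p.r n) + 12 +
          26 * Dl p (Dom.mb p m D none) σ n ∧
      Real.log (Dom.gW c D n) + tok p n D.nu σ ≤
        Real.log (Dom.gM p c m D) + ell (Dom.mb p m D none) σ (4 * p.r n) + 24 +
          52 * Dl p (Dom.mb p m D none) σ n := by
  have hr := h.hyp.r0_pos
  have hG1 := h.hyp.G_pos
  have hG : (0 : ℝ) < p.G := by exact_mod_cast hG1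
  have hD : 0 ≤ Dl p (Dom.mb p m D none) σ n := Dl_nonneg hr
    (fun y => mul_nonneg (h.m_nonneg y) (h.vc.1.tb_nonneg hr none y)) (mul_pos h.mσ_pos hσ) n
  have h1 := fun j (hj : j ∈ range p.G) => TokAvg_one h hσ (mem_range.1 hj)
  generalize Dl p (Dom.mb p m D none) σ n = δ at *
  generalize Real.log (Dom.gM p c m D) + ell (Dom.mb p m D none) σ (4 * p.r n) = A at *
  have h2 : ∑ j ∈ range p.G, (2 + (4 + 13 * δ) * (√(p.G : ℝ) * (√((j : ℝ) + 1))⁻¹)) ≤
      p.G * (10 + 26 * δ) := by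
    rw [sum_add_distrib, ← mul_sum, ← mul_sum, sum_const, card_range, nsmul_eq_mul]
    have h3 := mul_le_mul_of_nonneg_left (TokAvg_sum p.G) (Real.sqrt_nonneg p.G)
    rw [mul_left_comm, Real.mul_self_sqrt hG.le] at h3
    linarith [mul_le_mul_of_nonneg_left h3 (by linarith : 0 ≤ 4 + 13 * δ)]
  constructor
  · have h3 := sum_le_sum h1
    rw [sum_add_distrib, sum_const, card_range, nsmul_eq_mul] at h3
    rw [div_le_iff₀ hG]
    linarith
  · have h3 := sum_le_sum fun j hj => mul_le_mul_of_nonneg_left (h1 j hj) (om_nonneg (p := p) (j + 1))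
    have h4 := sum_le_sum fun j (hj : j ∈ range p.G) => mul_le_mul_of_nonneg_right
      (om_le hG1 (m := j + 1) (mem_range.1 hj))
      (show 0 ≤ 2 + (4 + 13 * δ) * (√(p.G : ℝ) * (√((j : ℝ) + 1))⁻¹) by positivity)
    have h5 := mul_le_mul_of_nonneg_left h2 (show (0 : ℝ) ≤ 2 / p.G by positivity)
    rw [← mul_assoc, div_mul_cancel₀ _ hG.ne', mul_sum] at h5
    simp only [mul_add _ A, mul_sub, sum_add_distrib, sum_sub_distrib, ← sum_mul, sum_om hG1] at h3
    unfold tok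
    linarith

end Crest.Agent.R314
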