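import Crest.Agent.R314.LabL

/-! Multiset transport. -/

set_option autoImplicit false

namespace Crest.Agent.R314

open Finset

variable {X : Type} [MetricSpace X]

theorem Tr.refl (P : Multiset X) : Tr P P 0 :=
  ⟨P.map fun a => (a, a), by simp, by simp, by simp⟩

theorem Tr.symm {P P' : Multiset X} {t : ℝ} (h : Tr P P' t) : Tr P' P t := by
  obtain ⟨Q, h1, h2, h3⟩ := h
  refine ⟨Q.map Prod.swap, by simpa using h2, by simpa using h1, ?_⟩
  simpa [dist_comm] using h3

theorem Tr.mono {P P' : Multiset X} {t t' : ℝ} (h : Tr P P' t) (ht : t ≤ t') : Tr P P' t' := by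
  obtain ⟨Q, h1, h2, h3⟩ := h
  exact ⟨Q, h1, h2, h3.trans ht⟩

theorem Tr.nonneg {P P' : Multiset X} {t : ℝ} (h : Tr P P' t) : 0 ≤ t := by
  obtain ⟨Q, -, -, h3⟩ := h
  refine le_trans (Multiset.sum_nonneg fun x hx => ?_) h3
  obtain ⟨p, -, rfl⟩ := Multiset.mem_map.1 hx
  exact dist_nonneg

theorem Tr.card_eq {P P' : Multiset X} {t : ℝ} (h : Tr P P' t) : P.card = P'.card := by
  obtain ⟨Q, rfl, rfl, -⟩ := h
  simp

theorem Tr.add {P P' R R' : Multiset X} {t s : ℝ} (h : Tr P P' t) (h' : Tr R R' s) :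
    Tr (P + R) (P' + R') (t + s) := by
  obtain ⟨Q, rfl, rfl, h3⟩ := h
  obtain ⟨Q', rfl, rfl, h3'⟩ := h'
  refine ⟨Q + Q', Multiset.map_add _ _ _, Multiset.map_add _ _ _, ?_⟩
  rw [Multiset.map_add, Multiset.sum_add]
  exact add_le_add h3 h3'

theorem Tr.sum {ι : Type} (S : Finset ι) {P P' : ι → Multiset X} {t : ι → ℝ}
    (h : ∀ i ∈ S, Tr (P i) (P' i) (t i)) :
    Tr (∑ i ∈ S, P i) (∑ i ∈ S, P' i) (∑ i ∈ S, t i) := by
  classical
  induction S using Finset.induction_on with
  | empty => simpa using Tr.refl (0 : Multiset X)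
  | insert a S ha ih =>
    rw [Finset.sum_insert ha, Finset.sum_insert ha, Finset.sum_insert ha]
    exact (h a (mem_insert_self _ _)).add (ih fun i hi => h i (mem_insert_of_mem hi))

theorem Tr_cons {P P' : Multiset X} {t : ℝ} (h : Tr P P' t) (x y : X) :
    Tr (x ::ₘ P) (y ::ₘ P') (dist x y + t) := by
  obtain ⟨Q, rfl, rfl, h3⟩ := h
  refine ⟨(x, y) ::ₘ Q, by simp, by simp, ?_⟩
  rw [Multiset.map_cons, Multiset.sum_cons]
  exact add_le_add le_rfl h3

/-- remove the pair of a given point -/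
theorem Tr_pop {P P' : Multiset X} {t : ℝ} {x : X} (h : Tr (x ::ₘ P) P' t) :
    ∃ y R, P' = y ::ₘ R ∧ Tr P R (t - dist x y) := by
  obtain ⟨Q, h1, rfl, h3⟩ := h
  obtain ⟨⟨x', y⟩, hp, rfl⟩ := Multiset.mem_map.1 (h1 ▸ Multiset.mem_cons_self x P :
    x ∈ Q.map Prod.fst)
  obtain ⟨Q', rfl⟩ := Multiset.exists_cons_of_mem hp
  rw [Multiset.map_cons, Multiset.cons_inj_right] at h1
  rw [Multiset.map_cons, Multiset.sum_cons] at h3
  exact ⟨y, Q'.map Prod.snd, Multiset.map_cons _ _ _, Q', h1, rfl, le_sub_iff_add_le'.2 h3⟩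

theorem Tr.trans {P P' P'' : Multiset X} {t s : ℝ} (h : Tr P P' t) (h' : Tr P' P'' s) :
    Tr P P'' (t + s) := by
  induction P using Multiset.induction generalizing P' P'' t s with
  | empty =>
    have e : P' = 0 := Multiset.card_eq_zero.1 (by rw [← h.card_eq]; rfl)
    subst e
    exact h'.mono (le_add_of_nonneg_left h.nonneg)
  | cons x P ih =>
    obtain ⟨y, R, rfl, h1⟩ := Tr_pop h
    obtain ⟨z, R', rfl, h2⟩ := Tr_pop h'
    refine (Tr_cons (ih h1 h2) x z).mono ?_
    have := dist_triangle x y z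
    linarith

theorem Tr.replicate (j : ℕ) (a a' : X) :
    Tr (Multiset.replicate j a) (Multiset.replicate j a') (j * dist a a') :=
  ⟨Multiset.replicate j (a, a'), by simp, by simp, by simp⟩

/-- a common point can be cancelled (triangle inequality) -/
theorem Tr.cancel {P P' : Multiset X} {t : ℝ} (a : X) (h : Tr (a ::ₘ P) (a ::ₘ P') t) :
    Tr P P' t := by
  obtain ⟨y, R, e, h1⟩ := Tr_pop h
  rcases Multiset.cons_eq_cons.1 e with ⟨rfl, rfl⟩ | ⟨-, S, rfl, rfl⟩
  · simpa using h1
  · refine (h1.trans (Tr_cons (Tr.refl S) a y)).mono ?_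
    linarith

theorem Tr.cancel_add {P P' : Multiset X} {t : ℝ} (R : Multiset X) (h : Tr (P + R) (P' + R) t) :
    Tr P P' t := by
  induction R using Multiset.induction with
  | empty => simpa using h
  | cons a R ih =>
    rw [Multiset.add_cons, Multiset.add_cons] at h
    exact ih (h.cancel a)

/-- crude bound by the diameter -/
theorem Tr.of_card {P P' : Multiset X} {Δ : ℝ} (hΔ : ∀ x y : X, dist x y ≤ Δ)
    (h : P.card = P'.card) : Tr P P' (P.card * Δ) := by
  induction P using Multiset.induction generalizing P' with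
  | empty =>
    have e : P' = 0 := Multiset.card_eq_zero.1 h.symm
    subst e
    simpa using Tr.refl (0 : Multiset X)
  | cons x P ih =>
    rw [Multiset.card_cons] at h
    obtain ⟨y, hy⟩ := Multiset.card_pos_iff_exists_mem.1 (by omega : 0 < P'.card)
    obtain ⟨R, rfl⟩ := Multiset.exists_cons_of_mem hy
    rw [Multiset.card_cons] at h
    refine (Tr_cons (ih (by omega : P.card = R.card)) x y).mono ?_
    rw [Multiset.card_cons]
    push_cast
    have := hΔ x y
    linarith

theorem Tr_cfgM {Y : Type} {k : ℕ} (c : Fin k → Y) (i : Fin k) :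
    cfgM c = c i ::ₘ Multiset.map c (univ.erase i).val := by
  rw [cfgM, ← Multiset.map_cons, Finset.erase_val, Multiset.cons_erase (mem_univ i)]

/-- lazy step: the real configuration serves a request that is covered by the virtual one -/
theorem Tr.lazy {k : ℕ} (c : Fin k → X) {P : Multiset X} {t : ℝ} (h : Tr (cfgM c) P t) {x : X}
    (hx : x ∈ P) :
    ∃ i : Fin k, Tr (cfgM (Function.update c i x)) P (t - dist (c i) x) := by
  obtain ⟨P, rfl⟩ := Multiset.exists_cons_of_mem hx
  obtain ⟨y, R, e, h1⟩ := Tr_pop h.symm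
  obtain ⟨i, -, rfl⟩ := Multiset.mem_map.1 (e ▸ Multiset.mem_cons_self y R : y ∈ cfgM c)
  rw [Tr_cfgM c i, Multiset.cons_inj_right] at e
  refine ⟨i, ?_⟩
  have e' : Multiset.map (Function.update c i x) (univ.erase i).val = R := by
    rw [← e]
    exact Multiset.map_congr rfl fun j hj =>
      Function.update_of_ne (ne_of_mem_erase (s := univ) hj) _ _
  rw [Tr_cfgM _ i, Function.update_self, e']
  refine (Tr_cons h1.symm x x).mono ?_
  rw [dist_self, zero_add, dist_comm]

end Crest.Agent.R314
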