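import Crest.Agent.R314.Basic

/-!
Hierarchical partitions with anchors (`HT`), labels (`Lab`), fractional allocations (`AL`),
integral allocations (`NT`), their positions (`pos`) and multiset transport (`Tr`).
A node of height `n+1` has children of height `n`, indexed by a finite symbol type `Λ`;
the scale of a node of height `n` is `rr r0 n`.
-/

set_option autoImplicit false

namespace Crest.Agent.R314

open Finset

/-- the ratio of consecutive scales -/
def tau : ℝ := 65536

/-- the scale of height `n` -/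
def rr (r0 : ℝ) (n : ℕ) : ℝ := r0 * tau ^ n

/-- sum of the scales below height `n` -/
def SS (r0 : ℝ) (n : ℕ) : ℝ := ∑ l ∈ range n, rr r0 l

/-- labels: for every level (top first) a symbol and an anchor -/
def Lab (Λ X : Type) : ℕ → Type
  | 0 => PUnit
  | n + 1 => (Λ × X) × Lab Λ X n

/-- hierarchical partitions: the symbol of every point, and for every symbol an anchor and a
subtree -/
def HT (Λ X : Type) : ℕ → Type
  | 0 => PUnit
  | n + 1 => (X → Λ) × (Λ → X × HT Λ X n)

/-- fractional allocations: the amount in the subtree of every node -/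
def AL (Λ : Type) : ℕ → Type
  | 0 => ℝ
  | n + 1 => ℝ × (Λ → AL Λ n)

/-- integral allocations: the number of servers parked at every node -/
def NT (Λ : Type) : ℕ → Type
  | 0 => ℕ
  | n + 1 => ℕ × (Λ → NT Λ n)

variable {Λ X : Type}

/-- the label of a point -/
def HT.lab : {n : ℕ} → HT Λ X n → X → Lab Λ X n
  | 0, _, _ => PUnit.unit
  | _ + 1, H, y => ((H.1 y, (H.2 (H.1 y)).1), HT.lab (H.2 (H.1 y)).2 y)

/-- tree distance of two labels -/
noncomputable def rel [DecidableEq Λ] (r0 : ℝ) : {n : ℕ} → Lab Λ X n → Lab Λ X n → ℝ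
  | 0, _, _ => 0
  | n + 1, u, v => if u.1.1 = v.1.1 then rel r0 u.2 v.2 else SS r0 (n + 1)

/-- largest distance of corresponding anchors -/
noncomputable def anc [MetricSpace X] : {n : ℕ} → Lab Λ X n → Lab Λ X n → ℝ
  | 0, _, _ => 0
  | _ + 1, u, v => max (dist u.1.2 v.1.2) (anc u.2 v.2)

/-- the anchors on the path of `y` (the first one is `a`) are close to `y` -/
def Near [MetricSpace X] (r0 : ℝ) : {n : ℕ} → HT Λ X n → X → X → Prop
  | 0, _, y, a => dist y a ≤ rr r0 0
  | n + 1, H, y, a => dist y a ≤ rr r0 (n + 1) ∧ Near r0 (H.2 (H.1 y)).2 y (H.2 (H.1 y)).1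

/-- restriction of an optional label to the child `c` -/
def subL [DecidableEq Λ] {n : ℕ} (c : Λ) (o : Option (Lab Λ X (n + 1))) : Option (Lab Λ X n) :=
  o.bind fun u => if u.1.1 = c then some u.2 else none

/-- number of placed servers -/
def cntO {α : Type} {k : ℕ} (e : Fin k → Option α) : ℕ := (univ.filter fun i => (e i).isSome).card

def AL.val : {n : ℕ} → AL Λ n → ℝ
  | 0, A => A
  | _ + 1, A => A.1

def AL.Valid [Fintype Λ] : {n : ℕ} → AL Λ n → Prop
  | 0, A => 0 ≤ AL.val A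
  | _ + 1, A => 0 ≤ A.1 ∧ ∑ c, AL.val (A.2 c) ≤ A.1 ∧ ∀ c, AL.Valid (A.2 c)

/-- weighted `ℓ¹` distance of allocations (the root is not counted) -/
noncomputable def AL.dist [Fintype Λ] (r0 : ℝ) : {n : ℕ} → AL Λ n → AL Λ n → ℝ
  | 0, _, _ => 0
  | n + 1, A, A' =>
      ∑ c, (rr r0 n * |AL.val (A.2 c) - AL.val (A'.2 c)| + AL.dist r0 (A.2 c) (A'.2 c))

/-- the amount at the leaf of a label -/
def AL.leaf : {n : ℕ} → AL Λ n → Lab Λ X n → ℝ
  | 0, A, _ => AL.val A
  | _ + 1, A, u => AL.leaf (A.2 u.1.1) u.2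

/-- every node holds at most four times the expected number of offline servers below it -/
def AL.Dom [DecidableEq Λ] {Θ : Type} [Fintype Θ] {k : ℕ} (b : Θ → ℝ) :
    {n : ℕ} → AL Λ n → (Θ → Fin k → Option (Lab Λ X n)) → Prop
  | 0, A, e => AL.val A ≤ 4 * ∑ θ, b θ * (cntO (e θ) : ℝ)
  | _ + 1, A, e => A.1 ≤ 4 * ∑ θ, b θ * (cntO (e θ) : ℝ) ∧
      ∀ c, AL.Dom b (A.2 c) (fun θ i => subL c (e θ i))

def NT.tot [Fintype Λ] : {n : ℕ} → NT Λ n → ℕ
  | 0, N => N
  | _ + 1, N => N.1 + ∑ c, NT.tot (N.2 c)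

noncomputable def NT.dist [Fintype Λ] (r0 : ℝ) : {n : ℕ} → NT Λ n → NT Λ n → ℝ
  | 0, _, _ => 0
  | n + 1, N, N' =>
      ∑ c, (rr r0 n * |(NT.tot (N.2 c) : ℝ) - NT.tot (N'.2 c)| + NT.dist r0 (N.2 c) (N'.2 c))

/-- entries differ by at most one -/
def Bal1 {M : ℕ} (f : Fin M → ℕ) : Prop := ∀ m m', f m ≤ f m' + 1

/-- `M` integral allocations form a balanced rounding of the fractional allocation `A` -/
def Bal [Fintype Λ] {M : ℕ} : {n : ℕ} → (Fin M → NT Λ n) → AL Λ n → Prop
  | 0, N, A => Bal1 (fun m => NT.tot (N m)) ∧ ∑ m, NT.tot (N m) = ⌊(M : ℝ) * AL.val A⌋₊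
  | _ + 1, N, A => Bal1 (fun m => NT.tot (N m)) ∧ ∑ m, NT.tot (N m) = ⌊(M : ℝ) * AL.val A⌋₊ ∧
      Bal1 (fun m => (N m).1) ∧ ∀ c, Bal (fun m => (N m).2 c) (A.2 c)

/-- rounding error: total weight of the edges -/
noncomputable def errT (Λ : Type) [Fintype Λ] (r0 : ℝ) : ℕ → ℝ
  | 0 => 0
  | n + 1 => Fintype.card Λ * (rr r0 n + errT Λ r0 n)

/-- `z` if it is within `ρ` of `a`, else `a` -/
noncomputable def clip [MetricSpace X] (ρ : ℝ) (a z : X) : X := if dist a z ≤ ρ then z else a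

/-- positions of the servers of an integral allocation: parked servers sit at (clipped) anchors -/
noncomputable def pos [MetricSpace X] [Fintype Λ] (r0 : ℝ) :
    {n : ℕ} → NT Λ n → HT Λ X n → X → Multiset X
  | 0, N, _, a => Multiset.replicate (NT.tot N) a
  | n + 1, N, H, a => Multiset.replicate N.1 a +
      ∑ c, pos r0 (N.2 c) (H.2 c).2 (clip (2 * rr r0 (n + 1)) a (H.2 c).1)

/-- `P` can be transported onto `P'` at cost at most `t` -/
def Tr [MetricSpace X] (P P' : Multiset X) (t : ℝ) : Prop :=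
  ∃ Q : Multiset (X × X), Q.map Prod.fst = P ∧ Q.map Prod.snd = P' ∧
    (Q.map fun p => dist p.1 p.2).sum ≤ t

/-- the multiset of positions of a configuration -/
def cfgM {k : ℕ} (c : Fin k → X) : Multiset X := Multiset.map c univ.val

end Crest.Agent.R314
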