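import Crest.Agent.R314.TokAvg

/-! Module C: upper bounds for the normalised loss at the request. -/

set_option autoImplicit false

namespace Crest.Agent.R314

open Finset 

variable {X : Type} [MetricSpace X] [Fintype X] [DecidableEq X] [Nonempty X] {p : Par} {n : ℕ}
  {t : Tol} {σ : X} {c : Ctx X} {m : X → ℝ}

/-- the upper bound at height `n` -/
def UBd (p : Par) (σ : X) {n : ℕ} (c : Ctx X) (m : X → ℝ) (D : Dom X n) : Prop :=
  p.nrm n (fun l => c.Wr l + D.Wt l) + D.LV p σ ≤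
    K0 * p.S n * (Real.log c.mG + ell m σ (4 * p.r n)) +
      p.r n / 65536 * (3000 + 5000000 * Dl p m σ n)

theorem UB_mb_nonneg {D : Dom X (n + 1)} (h : Sit p t σ c m D) (b : Br X) (y : X) :
    0 ≤ Dom.mb p m D b y :=
  mul_nonneg (h.m_nonneg y) (Dom.Valid.tb_nonneg h.hyp.r0_pos h.vc.1 b y)

theorem UB_mb_pos {D : Dom X (n + 1)} (h : Sit p t σ c m D) {b : Br X} (hb : 0 < D.tb p b σ) :
    0 < Dom.mb p m D b σ :=
  mul_pos h.mσ_pos hb

/-- a positive mass below the total mass has a non-positive normalised logarithm -/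
theorem UB_log_le {D : Dom X (n + 1)} (h : Sit p t σ c m D) (hD : D.heir.isSome) {a : ℝ}
    (ha : 0 < a) (hle : a ≤ ∑ y, m y) : Real.log a + ell m σ (4 * p.r (n + 1)) ≤ 0 := by
  unfold ell
  rw [h.Mb_eq (h.allow_of_heir hD)]
  have := Real.log_le_log ha hle
  linarith

theorem UB_gM_beta {D : Dom X (n + 1)} (h : Sit p t σ c m D) {b : Br X} (hb0 : b ≠ some none)
    (hb : 0 < D.tb p b σ) :
    K0 * p.S (n + 1) * (Real.log (Dom.gM p c m D) + ell m σ (4 * p.r (n + 1))) ≤
      D.beta p σ c m := by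
  unfold Dom.beta
  by_cases hD : D.heir.isSome
  · rw [if_pos hD]
    have hpos := h.gM_pos hb0 hb
    have hle : Dom.gM p c m D ≤ ∑ y, m y := by
      unfold Dom.gM
      rw [if_pos hD]
      unfold Dom.msh
      refine sum_le_sum fun y _ => ?_
      have h1 := Dom.hc_nonneg (p := p) D y
      have h2 := h.m_nonneg y
      nlinarith
    have h1 := UB_log_le h hD hpos hle
    have h2 : 0 ≤ K0 * p.S (n + 1) :=
      mul_nonneg (by unfold K0; norm_num) (Par.S_nonneg h.hyp.r0_pos _)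
    exact mul_nonpos_of_nonneg_of_nonpos h2 h1
  · rw [if_neg hD]
    unfold Dom.gM
    rw [if_neg hD]

/-- the arithmetic of the branch bound -/
theorem UB_arith {r S A β d e Y u v : ℝ} (hr : 0 < r) (_hS0 : 0 ≤ S) (hS : S * 65535 ≤ r)
    (hd0 : 0 ≤ d) (hd : d ≤ Y) (he0 : 0 ≤ e) (he : e ≤ Y)
    (hu : u ≤ 8 * S * (A + e) + r / 65536 * (3000 + 5000000 * d))
    (hv : v ≤ 8 * r * (A + e + 24 + 52 * d)) (hβ : 8 * (S + r) * A ≤ β) :
    u + v ≤ β + r * (200 + 510 * Y) := by
  have h1 : S * e ≤ r * Y := by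
    have : S ≤ r := by linarith
    exact mul_le_mul this he he0 hr.le
  have h1' : S * e * 65535 ≤ r * Y := by
    have : S * 65535 * e ≤ r * Y := mul_le_mul hS he he0 hr.le
    linarith
  have h2 : r * e ≤ r * Y := mul_le_mul_of_nonneg_left he hr.le
  have h3 : r * d ≤ r * Y := mul_le_mul_of_nonneg_left hd hr.le
  have h4 : 0 ≤ r * Y := mul_nonneg hr.le (hd0.trans hd)
  nlinarith

theorem UB_log_two : Real.log 2 ≤ 0.7 := by
  have := Real.log_two_lt_d9
  linarith

theorem UB_nrm_diff (hr : 0 < p.r0) {j : ℕ} {W W' : ℕ → ℝ} {B : ℝ}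
    (h : ∀ l, l < j → Real.log (W l) - Real.log (W' l) ≤ B) :
    p.nrm j W - p.nrm j W' ≤ K0 * p.S j * B := by
  unfold Par.nrm Par.S SS
  rw [← mul_sub, ← sum_sub_distrib, mul_assoc, sum_mul]
  refine mul_le_mul_of_nonneg_left (sum_le_sum fun l hl => ?_) (by unfold K0; norm_num)
  rw [← mul_sub]
  exact mul_le_mul_of_nonneg_left (h l (mem_range.1 hl)) (Par.r_pos hr l).le

theorem Sit.bb_of_ub {D : Dom X (n + 1)} (h : Sit p t σ c m D) {b : Br X} (hb : 0 < D.tb p b σ)
    (hu : UBd p σ (Dom.cctx p c m D b) (Dom.mb p m D b) (D.child b)) :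
    Dom.Yb p c D b σ ≤ D.beta p σ c m + p.r n * (200 + 510 * D.Yx p σ m b) := by
  have hr := h.hyp.r0_pos
  obtain ⟨hY1, hY2, hY3⟩ := Yx_bounds hr h.m_nonneg h.mσ_pos h.vc.1 hb
  have hmb0 := UB_mb_nonneg h b
  have hmbp := UB_mb_pos h hb
  have hd0 : 0 ≤ Dl p (Dom.mb p m D b) σ n := Dl_nonneg hr hmb0 hmbp n
  have hrp := Par.r_pos hr n
  have hS0 := Par.S_nonneg hr n
  have hS := Par.S_le hr n
  unfold UBd at hu
  have hshell : ∀ (_ : b ≠ some none)
      (_ : Dom.Yb p c D b σ = p.nrm (n + 1) (Dom.gW c D) + D.lv0 p b σ + (D.child b).LV p σ)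
      (_ : (Dom.cctx p c m D b).mG = Dom.gM p c m D)
      (_ : ∀ l, (Dom.cctx p c m D b).Wr l = Dom.gW c D l - (D.child b).Wt l)
      (_ : K0 * p.r n * Real.log (Dom.gW c D n) + D.lv0 p b σ ≤
        8 * p.r n * (Real.log (Dom.gM p c m D) + ell (Dom.mb p m D b) σ (4 * p.r n) + 24 +
          52 * Dl p (Dom.mb p m D b) σ n)),
      Dom.Yb p c D b σ ≤ D.beta p σ c m + p.r n * (200 + 510 * D.Yx p σ m b) := by
    intro hb0 hYb hmG hWr hv
    have hβ := UB_gM_beta h hb0 hb
    rw [Par.S_succ] at hβ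
    have hnrm : p.nrm n (fun l => (Dom.cctx p c m D b).Wr l + (D.child b).Wt l) =
        p.nrm n (Dom.gW c D) := p.nrm_congr fun l _ => by rw [hWr]; ring
    rw [hnrm, hmG] at hu
    rw [hYb, Par.nrm_succ]
    have key := UB_arith (A := Real.log (Dom.gM p c m D) + ell m σ (4 * p.r (n + 1)))
      (β := D.beta p σ c m) (u := p.nrm n (Dom.gW c D) + (D.child b).LV p σ)
      (v := K0 * p.r n * Real.log (Dom.gW c D n) + D.lv0 p b σ) hrp hS0 hS hd0 hY1 hY3 hY2
      (by unfold K0 at hu; linarith) (by linarith) (by unfold K0 at hβ; linarith)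
    linarith
  rcases b with _ | _ | z
  · refine hshell (by simp) rfl rfl (fun _ => rfl) ?_
    have h1 := h.tok_avg hb |>.2
    have h2 : D.lv0 p none σ = K0 * p.r n * tok p n D.nu σ := rfl
    rw [h2, ← mul_add]
    unfold K0
    exact mul_le_mul_of_nonneg_left h1 (by positivity)
  · have hD : D.heir.isSome := Dom.pres_of_pos hb
    have hβ : D.beta p σ c m = 0 := by unfold Dom.beta; rw [if_pos hD]
    have hYb : Dom.Yb p c D (some none) σ =
        p.nrm n (D.child (some none)).Wt + (D.child (some none)).LV p σ := rfl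
    have hmG : (Dom.cctx p c m D (some none)).mG = ∑ y, m y * D.hc p y := rfl
    have hnrm : p.nrm n (fun l => (Dom.cctx p c m D (some none)).Wr l +
        (D.child (some none)).Wt l) = p.nrm n (D.child (some none)).Wt :=
      p.nrm_congr fun l _ => zero_add _
    rw [hnrm, hmG] at hu
    have hpos : 0 < ∑ y, m y * D.hc p y :=
      lt_of_lt_of_le hmbp (single_le_sum (f := fun y => m y * D.hc p y)
        (fun y _ => mul_nonneg (h.m_nonneg y) (Dom.hc_nonneg D y)) (mem_univ σ))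
    have hle : ∑ y, m y * D.hc p y ≤ ∑ y, m y :=
      sum_le_sum fun y _ => mul_le_of_le_one_right (h.m_nonneg y) (Dom.hc_le_one D y)
    have hA := UB_log_le h hD hpos hle
    have hSA : p.S n * (Real.log (∑ y, m y * D.hc p y) + ell m σ (4 * p.r (n + 1))) ≤ 0 :=
      mul_nonpos_of_nonneg_of_nonpos hS0 hA
    have key := UB_arith (A := 0) (β := 0)
      (u := p.nrm n (D.child (some none)).Wt + (D.child (some none)).LV p σ) (v := 0)
      hrp hS0 hS hd0 hY1 hY3 hY2 (by unfold K0 at hu; linarith) (by positivity) (by simp)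
    rw [hYb, hβ]
    linarith
  · refine hshell (by simp) rfl rfl (fun _ => rfl) ?_
    have h1 := h.add_top hb
    have h2 : D.lv0 p (some (some z)) σ =
        -(K0 * p.r n * Real.log ((D.top z).elim 1 Prod.fst)) := rfl
    have hM : 0 < Mb (Dom.mb p m D (some (some z))) σ (4 * p.r n) :=
      lt_of_lt_of_le hmbp (le_Mb hmb0 (by positivity))
    have h3 : -Real.log (∑ y, Dom.mb p m D (some (some z)) y) ≤
        ell (Dom.mb p m D (some (some z))) σ (4 * p.r n) := by
      unfold ell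
      exact neg_le_neg (Real.log_le_log hM (Mb_le_sum hmb0 _))
    rw [h2, ← sub_eq_add_neg, ← mul_sub]
    unfold K0
    refine mul_le_mul_of_nonneg_left ?_ (by positivity)
    have := UB_log_two
    linarith

theorem UB_sum_Yx {D : Dom X (n + 1)} (h : Sit p t σ c m D) :
    ∑ b, D.tb p b σ * D.Yx p σ m b ≤ 2 * (2 + 4352 * Dl p m σ (n + 1)) := by
  have hr := h.hyp.r0_pos
  have hd0 : 0 ≤ Dl p m σ (n + 1) := Dl_nonneg hr h.m_nonneg h.mσ_pos _
  have hB : 0 ≤ 2 + 4352 * Dl p m σ (n + 1) := by positivity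
  calc ∑ b, D.tb p b σ * D.Yx p σ m b
      ≤ ∑ b, √(D.tb p b σ) * (2 + 4352 * Dl p m σ (n + 1)) := by
        refine sum_le_sum fun b _ => ?_
        rcases (Dom.Valid.tb_nonneg hr h.vc.1 b σ).eq_or_lt with h0 | hb
        · rw [← h0]; simp
        · have h1 := sqrt_tb_mul_Yx hr h.m_nonneg h.mσ_pos h.vc.1 hb
          calc D.tb p b σ * D.Yx p σ m b = √(D.tb p b σ) * (√(D.tb p b σ) * D.Yx p σ m b) := by
                rw [← mul_assoc, Real.mul_self_sqrt hb.le]
            _ ≤ _ := mul_le_mul_of_nonneg_left h1 (Real.sqrt_nonneg _)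
    _ = (∑ b, √(D.tb p b σ)) * (2 + 4352 * Dl p m σ (n + 1)) := by rw [sum_mul]
    _ ≤ _ := mul_le_mul_of_nonneg_right (Dom.Valid.sum_sqrt_tb hr h.vc.1 σ) hB

theorem UB_sum_Yb {D : Dom X (n + 1)} (h : Sit p t σ c m D)
    (hu : ∀ b, 0 < D.tb p b σ → UBd p σ (Dom.cctx p c m D b) (Dom.mb p m D b) (D.child b)) :
    ∑ b, D.tb p b σ * Dom.Yb p c D b σ ≤
      D.beta p σ c m + p.r n * (2240 + 4439040 * Dl p m σ (n + 1)) := by
  have hr := h.hyp.r0_pos
  have hrp := Par.r_pos hr n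
  have h1 : ∑ b, D.tb p b σ * Dom.Yb p c D b σ ≤
      ∑ b, D.tb p b σ * (D.beta p σ c m + p.r n * (200 + 510 * D.Yx p σ m b)) := by
    refine sum_le_sum fun b _ => ?_
    rcases (Dom.Valid.tb_nonneg hr h.vc.1 b σ).eq_or_lt with h0 | hb
    · rw [← h0]; simp
    · exact mul_le_mul_of_nonneg_left (h.bb_of_ub hb (hu b hb)) hb.le
  have h2 : ∑ b, D.tb p b σ * (D.beta p σ c m + p.r n * (200 + 510 * D.Yx p σ m b)) =
      (∑ b, D.tb p b σ) * (D.beta p σ c m + p.r n * 200) +
        p.r n * 510 * ∑ b, D.tb p b σ * D.Yx p σ m b := by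
    rw [sum_mul, mul_sum, ← sum_add_distrib]
    exact sum_congr rfl fun b _ => by ring
  rw [h2, Dom.sum_tb] at h1
  have h3 := mul_le_mul_of_nonneg_left (UB_sum_Yx h) (by positivity : 0 ≤ p.r n * 510)
  linarith

theorem Sit.ub : ∀ {n : ℕ} {c : Ctx X} {m : X → ℝ} {D : Dom X n} (_ : Sit p t σ c m D),
    UBd p σ c m D := by
  intro n
  induction n with
  | zero =>
    intro c m D h
    have hr := h.hyp.r0_pos
    have hd0 : 0 ≤ Dl p m σ 0 := Dl_nonneg hr h.m_nonneg h.mσ_pos _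
    have hrp := Par.r_pos hr 0
    have hLV : D.LV p σ = 0 := rfl
    have hS : p.S 0 = 0 := SS_zero _
    have hn : ∀ W, p.nrm 0 W = 0 := fun W => by simp [Par.nrm]
    unfold UBd
    rw [hLV, hS, hn]
    have : 0 ≤ p.r 0 / 65536 * (3000 + 5000000 * Dl p m σ 0) := by positivity
    linarith
  | succ n ih =>
    intro c m D h
    have hr := h.hyp.r0_pos
    have hd0 : 0 ≤ Dl p m σ (n + 1) := Dl_nonneg hr h.m_nonneg h.mσ_pos _
    have hrp := Par.r_pos hr n
    have hS0 := Par.S_nonneg hr n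
    have hS := Par.S_le hr n
    have hsum := UB_sum_Yb h fun b hb => ih (h.child hb)
    have hrd : 0 ≤ p.r n * Dl p m σ (n + 1) := by positivity
    have hrr : p.r (n + 1) / 65536 = p.r n := by rw [Par.r_succ]; ring
    unfold UBd
    rw [Dom.LV_eq_Yb hr h.hyp.G_pos c D σ, hrr]
    by_cases hD : D.heir.isSome
    · have hβ : D.beta p σ c m = 0 := by unfold Dom.beta; rw [if_pos hD]
      have hW : ∀ l, D.Wt l = D.w l := fun l => by
        show (if D.heir.isSome then D.w l else _) = _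
        rw [if_pos hD]
      have hnrm : p.nrm (n + 1) (fun l => c.Wr l + D.Wt l) =
          p.nrm (n + 1) (fun l => c.Wr l + D.w l) := p.nrm_congr fun l _ => by rw [hW]
      have hdiff := UB_nrm_diff hr (j := n + 1) (W := fun l => c.Wr l + D.w l) (W' := D.w)
        (fun l hl => h.add_w hD hl)
      have hell : ell m σ (4 * p.r (n + 1)) = -Real.log (∑ y, m y) := by
        unfold ell; rw [h.Mb_eq (h.allow_of_heir hD)]
      have h2 : p.S (n + 1) * Real.log 2 ≤ 2 * p.r n := by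
        rw [Par.S_succ]
        have h3 := UB_log_two
        have h4 : 0 ≤ Real.log 2 := Real.log_nonneg (by norm_num)
        nlinarith
      rw [if_pos hD, hnrm, hell]
      rw [hβ] at hsum
      unfold K0 at hdiff ⊢
      nlinarith
    · have hβ : D.beta p σ c m =
          K0 * p.S (n + 1) * (Real.log c.mG + ell m σ (4 * p.r (n + 1))) := by
        unfold Dom.beta; rw [if_neg hD]
      have hW : ∀ l, D.Wt l = D.Wsh l := fun l => by
        show (if D.heir.isSome then D.w l else _) = _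
        rw [if_neg hD]; rfl
      have hnrm : p.nrm (n + 1) (fun l => c.Wr l + D.Wt l) = p.nrm (n + 1) (Dom.gW c D) :=
        p.nrm_congr fun l _ => by unfold Dom.gW; rw [hW, if_neg hD]
      rw [if_neg hD, hnrm]
      rw [hβ] at hsum
      nlinarith

theorem Sit.bb {D : Dom X (n + 1)} (h : Sit p t σ c m D) {b : Br X} (hb : 0 < D.tb p b σ) :
    Dom.Yb p c D b σ ≤ D.beta p σ c m + p.r n * (200 + 510 * D.Yx p σ m b) :=
  h.bb_of_ub hb (h.child hb).ub

end Crest.Agent.R314
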