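import Crest.Agent.R314.Emb

/-! Module C: elementary facts on weights and potentials; plain states. -/

set_option autoImplicit false

namespace Crest.Agent.R314

open Finset 

variable {X : Type} [MetricSpace X] [Fintype X] [DecidableEq X] [Nonempty X] {p : Par} {n : ℕ}

namespace Dom

omit [DecidableEq X] [Nonempty X] in
theorem ValA_top1 {D : Dom X (n + 1)} (h : D.Valid p) (z : X) : 0 ≤ (D.top z).elim 0 Prod.fst := by
  cases e : D.top z with
  | none => exact le_rfl
  | some q => exact (h.2.2.1 z q e).1.le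

omit [DecidableEq X] [Nonempty X] in
theorem ValA_top2 {D : Dom X (n + 1)} (h : D.Valid p) {g : Dom X n → ℝ}
    (hg : ∀ E : Dom X n, E.Valid p → 0 ≤ g E) (z : X) : 0 ≤ (D.top z).elim 0 fun q => g q.2 := by
  cases e : D.top z with
  | none => exact le_rfl
  | some q => exact hg _ (h.2.2.1 z q e).2

omit [DecidableEq X] in
theorem ValA_wsh_pos {D : Dom X (n + 1)} (h : D.Valid p) {l : ℕ}
    (ih : ∀ E : Dom X n, E.Valid p → 0 < E.Wt l) : 0 < wshAux Wt D l := by
  unfold wshAux
  split_ifs
  · exact add_pos_of_pos_of_nonneg (sum_pos (fun z _ => h.2.1 z) univ_nonempty)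
      (sum_nonneg fun z _ => ValA_top1 h z)
  · exact add_pos_of_pos_of_nonneg (ih _ h.2.2.2.2.1.1)
      (sum_nonneg fun z _ => ValA_top2 h (g := fun E => E.Wt l) (fun E hE => (ih E hE).le) z)

theorem Valid.Wt_pos : ∀ {n : ℕ} {D : Dom X n} (_ : D.Valid p) (l : ℕ), 0 < D.Wt l := by
  intro n
  induction n with
  | zero => intro D _ l; exact one_pos
  | succ n ih =>
    intro D h l
    show 0 < if D.heir.isSome then D.w l else wshAux Wt D l
    split_ifs
    · exact h.1 l
    · exact ValA_wsh_pos h (fun E hE => ih hE l)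

theorem Valid.Wsh_pos {D : Dom X (n + 1)} (h : D.Valid p) (l : ℕ) : 0 < D.Wsh l := by
  exact ValA_wsh_pos h fun E hE => hE.Wt_pos l

theorem Valid.Wt_child_le {D : Dom X (n + 1)} (h : D.Valid p) {b : Br X} (hb : b ≠ some none)
    {l : ℕ} (hl : l ≠ n) : (D.child b).Wt l ≤ D.Wsh l := by
  have h1 := fun z => ValA_top2 h (g := fun E => E.Wt l) (fun E hE => (hE.Wt_pos l).le) z
  have h2 : D.next.Wt l ≤ D.Wsh l := by
    rw [Wsh, wshAux, if_neg hl]
    exact le_add_of_nonneg_right (sum_nonneg fun z _ => h1 z)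
  match b, hb with
  | none, _ => exact h2
  | some (some z), _ =>
    show ((D.top z).elim D.next Prod.snd).Wt l ≤ _
    cases e : D.top z with
    | none => exact h2
    | some q =>
      have h3 := single_le_sum (fun z _ => h1 z) (mem_univ z)
      rw [e] at h3
      rw [Wsh, wshAux, if_neg hl]
      exact h3.trans (le_add_of_nonneg_left (h.2.2.2.2.1.1.Wt_pos l).le)

theorem lnk_nonneg (c : X) (D : Dom X n) : 0 ≤ lnk c D := by
  unfold lnk
  cases D.ctr with
  | none => exact le_rfl
  | some c' => exact dist_nonneg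

theorem lnkO_nonneg (par : Option X) (D : Dom X n) : 0 ≤ lnkO par D := by
  cases par with
  | none => exact le_rfl
  | some c => exact lnk_nonneg c D

theorem Links_nonneg : ∀ {n : ℕ} (D : Dom X n), 0 ≤ D.Links := by
  intro n
  induction n with
  | zero => intro D; exact le_rfl
  | succ n ih =>
    intro D
    refine add_nonneg (add_nonneg ?_ (ih _)) (sum_nonneg fun z _ => ?_)
    · cases D.heir with
      | none => exact le_rfl
      | some q => exact add_nonneg (div_nonneg (lnk_nonneg _ _) (by positivity)) (ih _)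
    · cases D.top z with
      | none => exact le_rfl
      | some q => exact ih _

theorem ValA_C1 : 0 < C1 := by norm_num [C1]

theorem ValA_C2 : 0 < C2 := by norm_num [C2]

theorem ValA_K0 : 0 < K0 := by norm_num [K0]

theorem Hterm_bounds (par : Option X) (D : Dom X n) (y : X) :
    0 ≤ Hterm p par D y ∧ Hterm p par D y ≤ lnkO par D * (C1 + C2) := by
  cases par with
  | none => exact ⟨le_rfl, (zero_mul _).ge⟩
  | some c =>
    have h1 := chi_nonneg (p := p) (n := n) c y
    have h2 := chi_le_one (p := p) (n := n) c y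
    have h3 := hcap_bounds (p := p) D y
    have h4 := ValA_C1
    have h5 := ValA_C2
    refine ⟨mul_nonneg (lnk_nonneg c D) (by nlinarith), mul_le_mul_of_nonneg_left ?_ (lnk_nonneg c D)⟩
    nlinarith

theorem len_of_ctr : ∀ {n : ℕ} {D : Dom X n} (_ : D.ctr = none), D.len = 0 := by
  intro n D h
  cases n with
  | zero => rfl
  | succ n =>
    show D.heir.elim 0 _ = _
    rw [Option.map_eq_none_iff.1 h]
    rfl

theorem bc_of_ctr : ∀ {n : ℕ} {D : Dom X n} (_ : D.ctr = none) (c : X), bc c D = c := by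
  intro n D h c
  cases n with
  | zero => rfl
  | succ n =>
    show D.heir.elim c _ = _
    rw [Option.map_eq_none_iff.1 h]
    rfl

variable (hr : 0 < p.r0) (hG : 1 ≤ p.G)
include hr hG

theorem ValA_shell {D : Dom X (n + 1)} (h : D.Valid p) {b : Br X} (hb : b ≠ some none)
    (hp : D.pres b) (y : X) (ih : 0 ≤ p.nrm n (D.child b).Wt + (D.child b).LV p y) :
    0 ≤ p.nrm (n + 1) D.Wsh + D.lv0 p b y + (D.child b).LV p y := by
  have h1 : p.nrm n (D.child b).Wt ≤ p.nrm n D.Wsh :=
    Par.nrm_mono hr (fun l _ => (h.child b).Wt_pos l) fun l hl => h.Wt_child_le hb hl.ne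
  have h2 : 0 ≤ K0 * p.r n := (mul_pos ValA_K0 (Par.r_pos hr n)).le
  have e : D.Wsh n = ∑ z, D.nu z + ∑ z, (D.top z).elim 0 Prod.fst := if_pos rfl
  have h3 : 0 ≤ K0 * p.r n * Real.log (D.Wsh n) + D.lv0 p b y := by
    match b, hb, hp with
    | none, _, _ =>
      have h4 := neg_log_le_tok (n := n) hr hG (fun z => (h.2.1 z).le) (h.2.1 y) (W := D.Wsh n)
        ((ballW_le_sum (fun z => (h.2.1 z).le) y _).trans (by
          rw [e]; exact le_add_of_nonneg_right (sum_nonneg fun z _ => ValA_top1 h z)))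
      have h5 := mul_le_mul_of_nonneg_left h4 h2
      show 0 ≤ _ + K0 * p.r n * tok p n D.nu y
      linarith
    | some (some z), _, hp =>
      obtain ⟨q, hq⟩ := Option.isSome_iff_exists.1 hp
      have h4 := single_le_sum (fun z _ => ValA_top1 h z) (mem_univ z)
      rw [hq] at h4
      have h5 : q.1 ≤ D.Wsh n := by
        rw [e]; exact h4.trans (le_add_of_nonneg_left (sum_nonneg fun z _ => (h.2.1 z).le))
      have h6 := mul_le_mul_of_nonneg_left (Real.log_le_log (h.2.2.1 z q hq).1 h5) h2
      show 0 ≤ _ + -(K0 * p.r n * Real.log ((D.top z).elim 1 Prod.fst))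
      rw [hq]
      exact sub_nonneg.2 h6
  rw [Par.nrm_succ]
  linarith

omit hr hG in
theorem ValA_LV (c : Ctx X) (D : Dom X (n + 1)) (y : X) :
    D.LV p y = (if D.heir.isSome then -p.nrm (n + 1) D.w else -p.nrm (n + 1) (gW c D)) +
      ∑ b, D.tb p b y * Yb p c D b y := by
  show (if D.heir.isSome then -p.nrm (n + 1) D.w else 0) +
      ∑ b, D.tb p b y * (D.gau p b + D.lv0 p b y + LV p (D.child b) y) = _
  split_ifs with hh
  · have e : gW c D = D.Wsh := by funext l; simp [gW, hh]
    congr 1
    refine sum_congr rfl fun b _ => congrArg _ ?_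
    match b with
    | some none => simp [gau, lv0, Yb]
    | none => simp [gau, Yb, hh, e]
    | some (some z) => simp [gau, Yb, hh, e]
  · have e : ∀ b, D.tb p b y * Yb p c D b y = D.tb p b y * p.nrm (n + 1) (gW c D) +
        D.tb p b y * (D.gau p b + D.lv0 p b y + LV p (D.child b) y) := by
      intro b
      match b with
      | some none =>
        have : D.tb p (some none) y = 0 := by
          show D.heir.elim 0 _ = _
          rw [Option.not_isSome_iff_eq_none.1 hh]
          rfl
        simp [this]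
      | none => simp only [gau, Yb, if_neg hh]; ring
      | some (some z) => simp only [gau, Yb, if_neg hh]; ring
    simp only [e]
    rw [sum_add_distrib, ← sum_mul, sum_tb]
    ring

/-- normalised losses are non-negative -/
theorem Valid.nrm_add_LV_nonneg : ∀ {n : ℕ} {D : Dom X n} (_ : D.Valid p) (y : X),
    0 ≤ p.nrm n D.Wt + D.LV p y := by
  intro n
  induction n with
  | zero => intro D _ y; simp [Par.nrm, LV]
  | succ n ih =>
    intro D h y
    let c : Ctx X := ⟨True, none, 0, 0, fun _ => 0⟩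
    have e : gW c D = D.Wsh := by funext l; simp [gW, c]
    have e2 : p.nrm (n + 1) D.Wt =
        if D.heir.isSome then p.nrm (n + 1) D.w else p.nrm (n + 1) (gW c D) := by
      split_ifs with hh
      · exact congrArg _ (funext fun l => if_pos hh)
      · rw [e]; exact congrArg _ (funext fun l => if_neg hh)
    have h1 : 0 ≤ ∑ b, D.tb p b y * Yb p c D b y := by
      refine sum_nonneg fun b _ => ?_
      rcases (h.tb_nonneg hr b y).eq_or_lt with h0 | h0
      · rw [← h0, zero_mul]
      · refine mul_nonneg h0.le ?_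
        match b, h0 with
        | some none, _ => exact ih (h.child _) y
        | none, h0 =>
          have := ValA_shell hr hG h (by simp) (pres_of_pos h0) y (ih (h.child _) y)
          rwa [← e] at this
        | some (some z), h0 =>
          have := ValA_shell hr hG h (by simp) (pres_of_pos h0) y (ih (h.child _) y)
          rwa [← e] at this
    rw [ValA_LV c D y, e2]
    split_ifs <;> linarith

theorem Valid.shell_nonneg {D : Dom X (n + 1)} (h : D.Valid p) {b : Br X} (hb : b ≠ some none)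
    (hp : D.pres b) (y : X) : 0 ≤ p.nrm (n + 1) D.Wsh + D.lv0 p b y + (D.child b).LV p y := by
  exact ValA_shell hr hG h hb hp y ((h.child b).nrm_add_LV_nonneg hr hG y)

/-- the loss is the average of the normalised branch values up to a constant -/
theorem LV_eq_Yb (c : Ctx X) (D : Dom X (n + 1)) (y : X) :
    D.LV p y = (if D.heir.isSome then -p.nrm (n + 1) D.w else -p.nrm (n + 1) (gW c D)) +
      ∑ b, D.tb p b y * Yb p c D b y := by
  exact ValA_LV c D y

theorem Valid.Yb_nonneg {D : Dom X (n + 1)} (h : D.Valid p) {c : Ctx X}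
    (hc : ∀ l, l < n + 1 → 0 ≤ c.Wr l) {b : Br X} (hp : D.pres b) (y : X) : 0 ≤ Yb p c D b y := by
  have h1 : p.nrm (n + 1) D.Wsh ≤ p.nrm (n + 1) (gW c D) := by
    refine Par.nrm_mono hr (fun l _ => h.Wsh_pos l) fun l hl => le_add_of_nonneg_left ?_
    split_ifs
    · exact le_rfl
    · exact hc l hl
  match b, hp with
  | some none, _ => exact (h.child _).nrm_add_LV_nonneg hr hG y
  | none, hp =>
    exact (h.shell_nonneg hr hG (by simp) hp y).trans (add_le_add_left (add_le_add_left h1 _) _)
  | some (some z), hp =>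
    exact (h.shell_nonneg hr hG (by simp) hp y).trans (add_le_add_left (add_le_add_left h1 _) _)

omit hG in
theorem ValA_pv {D : Dom X (n + 1)} (h : D.Valid p) (b : Br X) (y : X) :
    0 ≤ D.pv p b y ∧ D.pv p b y ≤ C3 * p.r n / 8 := by
  have h0 := Par.r_pos hr n
  have h1 : 0 ≤ Gam * p.r n + C3 * D.len ∧ Gam * p.r n + C3 * D.len ≤ C3 * p.r n / 8 := by
    have h2 := h.len_bounds hr
    have h3 := Par.S_le hr n
    rw [Par.S_succ] at h2
    norm_num [Gam, C3, C1, C2]
    constructor <;> linarith [h2.1, h2.2]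
  match b with
  | none => exact h1
  | some (some z) => exact h1
  | some none =>
    have h2 := Hterm_bounds (p := p) D.ctr (D.child (some none)) y
    have h3 : lnkO D.ctr (D.child (some none)) ≤ p.r n / 16 := by
      show lnkO (D.heir.map Prod.fst) (D.heir.elim D.next Prod.snd) ≤ _
      cases e : D.heir with
      | none => exact (by positivity : (0 : ℝ) ≤ p.r n / 16)
      | some q => exact (h.2.2.2.2.2 q e).2.1
    refine ⟨h2.1, h2.2.trans ?_⟩
    norm_num [C3, C1, C2]
    linarith

theorem Valid.PV_bounds : ∀ {n : ℕ} {D : Dom X n} (_ : D.Valid p) (y : X),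
    0 ≤ D.PV p y ∧ D.PV p y ≤ C3 * p.S n / 8 := by
  intro n
  induction n with
  | zero => intro D _ y; simp [PV, Par.S, SS]
  | succ n ih =>
    intro D h y
    have h1 := fun b => ValA_pv hr h b y
    have h2 := fun b => ih (h.child b) y
    refine ⟨sum_nonneg fun b _ => mul_nonneg (h.tb_nonneg hr b y) (add_nonneg (h1 b).1 (h2 b).1),
      (sum_le_sum fun b _ => mul_le_mul_of_nonneg_left (add_le_add (h1 b).2 (h2 b).2)
        (h.tb_nonneg hr b y)).trans (le_of_eq ?_)⟩
    rw [← sum_mul, sum_tb, Par.S_succ]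
    ring

theorem Valid.pv_bounds {D : Dom X (n + 1)} (h : D.Valid p) (b : Br X) (y : X) :
    0 ≤ D.pv p b y + (D.child b).PV p y ∧ D.pv p b y + (D.child b).PV p y ≤ C3 * p.r n / 4 := by
  have h1 := ValA_pv hr h b y
  have h2 := (h.child b).PV_bounds hr hG y
  have h3 := Par.S_le hr n
  have h4 := Par.S_nonneg hr n
  refine ⟨add_nonneg h1.1 h2.1, (add_le_add h1.2 h2.2).trans ?_⟩
  norm_num [C3, C1, C2]
  linarith

/-- points outside the heir pay `Γ r` -/
theorem Valid.PV_ge {D : Dom X (n + 1)} (h : D.Valid p) (y : X) :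
    (1 - D.hc p y) * (Gam * p.r n + C3 * D.len) ≤ D.PV p y := by
  have h1 : ∀ b, D.tb p b y * D.pv p b y ≤ D.tb p b y * (D.pv p b y + PV p (D.child b) y) :=
    fun b => mul_le_mul_of_nonneg_left (le_add_of_nonneg_right ((h.child b).PV_bounds hr hG y).1)
      (h.tb_nonneg hr b y)
  refine le_trans ?_ (sum_le_sum fun b _ => h1 b)
  have h2 := mul_nonneg (h.tb_nonneg hr (some none) y) (ValA_pv hr h (some none) y).1
  rw [Fintype.sum_option, Fintype.sum_option]
  have e : ∑ z, D.tb p (some (some z)) y * D.pv p (some (some z)) y =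
      (∑ z, D.tc p z y) * (Gam * p.r n + C3 * D.len) := (sum_mul _ _ _).symm
  have e2 : D.tb p none y * D.pv p none y =
      (1 - D.hc p y - ∑ z, D.tc p z y) * (Gam * p.r n + C3 * D.len) := rfl
  rw [e, e2]
  linarith

theorem Hterm_lip {par : Option X} {D : Dom X (n + 1)} (hl : lnkO par D ≤ p.r (n + 1) / 16)
    (x y : X) : Hterm p par D y - Hterm p par D x ≤ 2 * C1 * dist x y := by
  have hd := dist_nonneg (x := x) (y := y)
  cases par with
  | none => exact (sub_self _).trans_le (mul_nonneg (by linarith [ValA_C1]) hd)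
  | some c =>
    have h0 := Par.r_pos hr n
    have h1 := (abs_le.1 (chi_lip (n := n + 1) hr c y x)).2
    have h2 : D.hc p x - D.hc p y ≤ 14 * dist x y / p.r n := by
      unfold hc
      cases D.heir with
      | none => exact (sub_self _).trans_le (by positivity)
      | some q =>
        refine (abs_le.1 (cap_lip (n := n) hr q.1 q.1 x y)).2.trans ?_
        gcongr
        exact abs_dist_sub_le x y q.1
    rw [dist_comm y x] at h1
    have hR := Par.r_pos hr (n + 1)
    have eR := p.r_succ n
    have h3 : C1 * (chi p (n + 1) c y - chi p (n + 1) c x) + C2 * (D.hc p x - D.hc p y) ≤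
        C1 * (16 * dist x y / p.r (n + 1)) + C2 * (14 * dist x y / p.r n) :=
      add_le_add (mul_le_mul_of_nonneg_left h1 ValA_C1.le) (mul_le_mul_of_nonneg_left h2 ValA_C2.le)
    have h4 := mul_le_mul_of_nonneg_left h3 (lnk_nonneg c D)
    have h7 : 0 ≤ C1 * (16 * dist x y / p.r (n + 1)) + C2 * (14 * dist x y / p.r n) :=
      add_nonneg (mul_nonneg ValA_C1.le (div_nonneg (by linarith) hR.le))
        (mul_nonneg ValA_C2.le (div_nonneg (by linarith) h0.le))
    have h5 := mul_le_mul_of_nonneg_right hl h7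
    have e : p.r (n + 1) / 16 * (C1 * (16 * dist x y / p.r (n + 1)) +
        C2 * (14 * dist x y / p.r n)) = (C1 + 57344 * C2) * dist x y := by
      rw [eR]
      field_simp
      ring
    have h6 : (C1 + 57344 * C2) * dist x y ≤ 2 * C1 * dist x y :=
      mul_le_mul_of_nonneg_right (by norm_num [C1, C2]) hd
    have e2 : lnkO (some c) D = lnk c D := rfl
    rw [e, e2] at h5
    show lnk c D * (C1 * chi p (n + 1) c y + C2 * (1 - D.hc p y)) -
      lnk c D * (C1 * chi p (n + 1) c x + C2 * (1 - D.hc p x)) ≤ _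
    linarith

/-! plain states -/

theorem plain_valid {f : ℕ → X → ℝ} : ∀ {n : ℕ} (_ : ∀ l, l < n → ∀ z, 0 < f l z),
    (plain f n).Valid p := by
  intro n
  induction n with
  | zero => intro _; trivial
  | succ n ih =>
    intro hf
    exact ⟨fun _ => one_pos, hf n n.lt_succ_self, fun z q h => (nomatch h), fun z z' h => (nomatch h),
      ⟨ih fun l hl => hf l (hl.trans n.lt_succ_self), by cases n <;> rfl⟩, fun q h => nomatch h⟩

omit hr hG in
theorem plain_ctr (f : ℕ → X → ℝ) : ∀ n : ℕ, (plain f n).ctr = none := by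
  intro n
  cases n <;> rfl

omit hr hG in
theorem plain_Wt (f : ℕ → X → ℝ) : ∀ {n l : ℕ} (_ : l < n), (plain f n).Wt l = ∑ z, f l z := by
  intro n
  induction n with
  | zero => intro l h; exact absurd h (Nat.not_lt_zero l)
  | succ n ih =>
    intro l h
    show (if l = n then ∑ z, f n z + ∑ _z : X, (0 : ℝ) else (plain f n).Wt l + ∑ _z : X, (0 : ℝ)) = _
    split_ifs with e
    · rw [e, sum_const_zero, add_zero]
    · rw [sum_const_zero, add_zero, ih (by omega)]

theorem plain_LV (f : ℕ → X → ℝ) (y : X) : ∀ n : ℕ, (plain f n).LV p y = PL p n f y := by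
  intro n
  induction n with
  | zero => simp [LV, PL]
  | succ n ih =>
    show (0 : ℝ) + ∑ b, _ = _
    rw [Fintype.sum_option, Fintype.sum_option, PL_succ hr hG, ← ih]
    show 0 + ((1 - 0 - ∑ _z : X, (0 : ℝ)) * (0 + K0 * p.r n * tok p n (f n) y + (plain f n).LV p y) +
      (0 * _ + ∑ z : X, 0 * _)) = _
    simp only [sum_const_zero, zero_mul]
    ring

theorem plain_PV (f : ℕ → X → ℝ) (y : X) : ∀ n : ℕ, (plain f n).PV p y = Gam * p.S n := by
  intro n
  induction n with
  | zero => simp [PV, Par.S, SS]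
  | succ n ih =>
    show ∑ b, _ = _
    rw [Fintype.sum_option, Fintype.sum_option, Par.S_succ, mul_add Gam, ← ih]
    show (1 - 0 - ∑ _z : X, (0 : ℝ)) * (Gam * p.r n + C3 * 0 + (plain f n).PV p y) +
      (0 * _ + ∑ z : X, 0 * _) = _
    simp only [sum_const_zero, zero_mul]
    ring

omit hr hG in
theorem plain_Links (f : ℕ → X → ℝ) : ∀ n : ℕ, (plain f n).Links = 0 := by
  intro n
  induction n with
  | zero => rfl
  | succ n ih =>
    show 0 + (plain f n).Links + ∑ _z : X, (0 : ℝ) = 0
    rw [ih, sum_const_zero, add_zero, add_zero]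

/-! a heir with a plain shell -/

theorem heirOf_valid {c : X} {w : ℕ → ℝ} {f : ℕ → X → ℝ} {E : Dom X n} (hw : ∀ l, 0 < w l)
    (hf : ∀ l, l < n + 1 → ∀ z, 0 < f l z) (hE : E.Valid p) (hl : lnk c E ≤ p.r n / 16) :
    (heirOf c w f E).Valid p := by
  refine ⟨hw, hf n n.lt_succ_self, fun z q h => (nomatch h), fun z z' h => (nomatch h),
    ⟨plain_valid hr hG fun l hl => hf l (hl.trans n.lt_succ_self), plain_ctr f n⟩, fun q h => ?_⟩
  obtain rfl : (c, E) = q := Option.some.inj h
  exact ⟨hE, hl, fun z h => nomatch h⟩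

omit hr hG in
theorem heirOf_Wt (c : X) (w : ℕ → ℝ) (f : ℕ → X → ℝ) (E : Dom X n) : (heirOf c w f E).Wt = w := by
  rfl

omit hr hG in
theorem heirOf_ctr (c : X) (w : ℕ → ℝ) (f : ℕ → X → ℝ) (E : Dom X n) :
    (heirOf c w f E).ctr = some c := by
  rfl

theorem heirOf_LV (c : X) (w : ℕ → ℝ) (f : ℕ → X → ℝ) (E : Dom X n) (y : X) :
    (heirOf c w f E).LV p y = -p.nrm (n + 1) w +
      (1 - cap p n c y) * (p.nrm (n + 1) (fun l => ∑ z, f l z) + PL p (n + 1) f y) +
      cap p n c y * (p.nrm n E.Wt + E.LV p y) := by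
  have e : p.nrm (n + 1) (heirOf c w f E).Wsh = p.nrm (n + 1) fun l => ∑ z, f l z :=
    p.nrm_congr fun l hl => plain_Wt f hl
  show -p.nrm (n + 1) w + ∑ b, _ = _
  rw [Fintype.sum_option, Fintype.sum_option, PL_succ hr hG, ← plain_LV hr hG, ← e]
  show _ + ((1 - cap p n c y - ∑ _z : X, (0 : ℝ)) * (p.nrm (n + 1) (heirOf c w f E).Wsh +
    K0 * p.r n * tok p n (f n) y + (plain f n).LV p y) +
    (cap p n c y * (p.nrm n E.Wt + 0 + E.LV p y) + ∑ z : X, 0 * _)) = _
  simp only [sum_const_zero, zero_mul]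
  ring

theorem heirOf_PV (c : X) (w : ℕ → ℝ) (f : ℕ → X → ℝ) (E : Dom X n) (y : X) :
    (heirOf c w f E).PV p y =
      (1 - cap p n c y) * (Gam * p.S (n + 1) + C3 * (lnk c E + E.len)) +
      cap p n c y * (Hterm p (some c) E y + E.PV p y) := by
  show ∑ b, _ = _
  rw [Fintype.sum_option, Fintype.sum_option, Par.S_succ, mul_add Gam, ← plain_PV hr hG f y n]
  show (1 - cap p n c y - ∑ _z : X, (0 : ℝ)) *
    (Gam * p.r n + C3 * (lnk c E + E.len) + (plain f n).PV p y) +
    (cap p n c y * (Hterm p (some c) E y + E.PV p y) + ∑ z : X, 0 * _) = _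
  simp only [sum_const_zero, zero_mul]
  ring

omit hr hG in
theorem heirOf_Links (c : X) (w : ℕ → ℝ) (f : ℕ → X → ℝ) (E : Dom X n) :
    (heirOf c w f E).Links = lnk c E / 2 ^ n + E.Links := by
  show lnk c E / 2 ^ n + E.Links + (plain f n).Links + ∑ _z : X, (0 : ℝ) = _
  rw [plain_Links, sum_const_zero, add_zero, add_zero]

omit hr hG in
theorem heirOf_len (c : X) (w : ℕ → ℝ) (f : ℕ → X → ℝ) (E : Dom X n) :
    (heirOf c w f E).len = lnk c E + E.len := by
  rfl

end Dom

end Crest.Agent.R314
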